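import Crest.Agent.H0254.Noise

set_option autoImplicit false
set_option linter.unusedSectionVars false
open Finset Filter MeasureTheory

namespace Crest.Agent.H0241

noncomputable section
open Classical

/-- bounded and measurable -/
def BM {X : Type*} [MeasurableSpace X] (f : X → ℝ) : Prop := Measurable f ∧ ∃ C, ∀ x, |f x| ≤ C

namespace BM
variable {X Y : Type*} [MeasurableSpace X] [MeasurableSpace Y] {f g : X → ℝ}

lemma const (c : ℝ) : BM fun _ : X => c := ⟨measurable_const, |c|, fun _ => le_rfl⟩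

lemma add (hf : BM f) (hg : BM g) : BM fun x => f x + g x := by
  obtain ⟨a, C, b⟩ := hf; obtain ⟨c, D, d⟩ := hg
  exact ⟨a.add c, C + D, fun x => (abs_add_le _ _).trans (add_le_add (b x) (d x))⟩

lemma sub (hf : BM f) (hg : BM g) : BM fun x => f x - g x := by
  obtain ⟨a, C, b⟩ := hf; obtain ⟨c, D, d⟩ := hg
  exact ⟨a.sub c, C + D, fun x => (abs_sub _ _).trans (add_le_add (b x) (d x))⟩

lemma mul (hf : BM f) (hg : BM g) : BM fun x => f x * g x := by
  obtain ⟨a, C, b⟩ := hf; obtain ⟨c, D, d⟩ := hg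
  exact ⟨a.mul c, C * D, fun x => by
    rw [abs_mul]; exact mul_le_mul (b x) (d x) (abs_nonneg _) ((abs_nonneg _).trans (b x))⟩

lemma cmul (c : ℝ) (hf : BM f) : BM fun x => c * f x := (const c).mul hf

lemma div_const (hf : BM f) (c : ℝ) : BM fun x => f x / c := by
  simpa only [div_eq_mul_inv] using hf.mul (const c⁻¹)

lemma pow (hf : BM f) (n : ℕ) : BM fun x => f x ^ n := by
  obtain ⟨a, C, b⟩ := hf
  exact ⟨a.pow_const n, C ^ n, fun x => by
    rw [abs_pow]; exact pow_le_pow_left₀ (abs_nonneg _) (b x) n⟩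

lemma abs (hf : BM f) : BM fun x => |f x| := by
  obtain ⟨a, C, b⟩ := hf
  exact ⟨a.abs, C, fun x => by rw [abs_abs]; exact b x⟩

lemma sum {ι : Type*} (s : Finset ι) {F : ι → X → ℝ} (h : ∀ i ∈ s, BM (F i)) :
    BM fun x => ∑ i ∈ s, F i x := by
  induction s using Finset.induction_on with
  | empty => simpa using const 0
  | insert i s hi ih =>
    simp only [sum_insert hi]
    exact (h i (mem_insert_self _ _)).add (ih fun j hj => h j (mem_insert_of_mem hj))

lemma prod {ι : Type*} (s : Finset ι) {F : ι → X → ℝ} (h : ∀ i ∈ s, BM (F i)) :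
    BM fun x => ∏ i ∈ s, F i x := by
  induction s using Finset.induction_on with
  | empty => simpa using const 1
  | insert i s hi ih =>
    simp only [prod_insert hi]
    exact (h i (mem_insert_self _ _)).mul (ih fun j hj => h j (mem_insert_of_mem hj))

lemma comp (hf : BM f) {φ : Y → X} (hφ : Measurable φ) : BM fun y => f (φ y) := by
  obtain ⟨a, C, b⟩ := hf
  exact ⟨a.comp hφ, C, fun y => b _⟩

lemma ite {p : X → Prop} [DecidablePred p] (hp : MeasurableSet {x | p x}) (hf : BM f) (hg : BM g) :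
    BM fun x => if p x then f x else g x := by
  obtain ⟨a, C, b⟩ := hf; obtain ⟨c, D, d⟩ := hg
  refine ⟨Measurable.ite hp a c, max C D, fun x => ?_⟩
  dsimp only
  split_ifs
  exacts [(b x).trans (le_max_left _ _), (d x).trans (le_max_right _ _)]

lemma cont (hf : BM f) {φ : ℝ → ℝ} (hφ : Continuous φ) : BM fun x => φ (f x) := by
  obtain ⟨a, C, b⟩ := hf
  obtain ⟨D, hD⟩ := (isCompact_Icc (a := -C) (b := C)).exists_bound_of_continuousOn hφ.continuousOn
  exact ⟨hφ.measurable.comp a, D, fun x => hD _ (abs_le.1 (b x))⟩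

lemma integrable (hf : BM f) (μ : Measure X) [IsFiniteMeasure μ] : Integrable f μ := by
  obtain ⟨a, C, b⟩ := hf
  exact Integrable.of_bound a.aestronglyMeasurable C (Eventually.of_forall b)

lemma integral_right {F : X × Y → ℝ} (hF : BM F) (ν : Measure Y) [IsProbabilityMeasure ν] :
    BM fun x => ∫ y, F (x, y) ∂ν := by
  obtain ⟨a, C, b⟩ := hF
  refine ⟨(a.stronglyMeasurable.integral_prod_right' (ν := ν)).measurable, C, fun x => ?_⟩
  simpa using norm_integral_le_of_norm_le_const (μ := ν) (f := fun y => F (x, y)) (C := C)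
    (Eventually.of_forall fun y => b _)

lemma mono (hf : BM f) (hg : BM g) (μ : Measure X) [IsFiniteMeasure μ] (h : ∀ x, f x ≤ g x) :
    ∫ x, f x ∂μ ≤ ∫ x, g x ∂μ := integral_mono (hf.integrable μ) (hg.integrable μ) h

lemma int_add (hf : BM f) (hg : BM g) (μ : Measure X) [IsFiniteMeasure μ] :
    ∫ x, f x + g x ∂μ = ∫ x, f x ∂μ + ∫ x, g x ∂μ :=
  integral_add (hf.integrable μ) (hg.integrable μ)

lemma int_sub (hf : BM f) (hg : BM g) (μ : Measure X) [IsFiniteMeasure μ] :
    ∫ x, f x - g x ∂μ = ∫ x, f x ∂μ - ∫ x, g x ∂μ :=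
  integral_sub (hf.integrable μ) (hg.integrable μ)

lemma int_sum {ι : Type*} (s : Finset ι) {F : ι → X → ℝ} (h : ∀ i ∈ s, BM (F i)) (μ : Measure X)
    [IsFiniteMeasure μ] : ∫ x, ∑ i ∈ s, F i x ∂μ = ∑ i ∈ s, ∫ x, F i x ∂μ :=
  integral_finsetSum s fun i hi => (h i hi).integrable μ

lemma int_comp (hf : BM f) {φ : Y → X} {μ : Measure X} {ν : Measure Y}
    (hφ : MeasurePreserving φ ν μ) : ∫ y, f (φ y) ∂ν = ∫ x, f x ∂μ := by
  rw [← hφ.map_eq, integral_map hφ.measurable.aemeasurable hf.1.aestronglyMeasurable]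

end BM

/-- bounded convergence -/
lemma tendsto_int {X : Type*} [MeasurableSpace X] (μ : Measure X) [IsFiniteMeasure μ]
    {F : ℕ → X → ℝ} {f : X → ℝ} (C : ℝ) (hm : ∀ n, Measurable (F n)) (hb : ∀ n x, |F n x| ≤ C)
    (h : ∀ᵐ x ∂μ, Tendsto (fun n => F n x) atTop (nhds (f x))) :
    Tendsto (fun n => ∫ x, F n x ∂μ) atTop (nhds (∫ x, f x ∂μ)) :=
  tendsto_integral_of_dominated_convergence (fun _ => C) (fun n => (hm n).aestronglyMeasurable)
    (integrable_const C) (fun n => Eventually.of_forall (hb n)) h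

variable {ι : Type*}

/-- independent uniform labels -/
abbrev PI (ι : Type*) : Measure (ι → unitInterval) := Measure.infinitePi fun _ => volume

lemma bm_upd [DecidableEq ι] {f : (ι → unitInterval) → ℝ} (hf : BM f) (i : ι) :
    BM fun q : (ι → unitInterval) × unitInterval => f (Function.update q.1 i q.2) :=
  hf.comp measurable_update'

lemma int_resample [DecidableEq ι] {f : (ι → unitInterval) → ℝ} (hf : BM f) (i : ι) :
    ∫ ω, f ω ∂PI ι = ∫ ω, ∫ u, f (Function.update ω i u) ∂volume ∂PI ι := by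
  rw [← hf.int_comp (H0254.resample volume i), integral_prod _ ((bm_upd hf i).integrable _)]

lemma mix (A : Set ι) : MeasurePreserving
    (fun q : (ι → unitInterval) × (ι → unitInterval) => A.piecewise q.1 q.2)
    ((PI ι).prod (PI ι)) (PI ι) := by
  have hm : Measurable
      (fun q : (ι → unitInterval) × (ι → unitInterval) => A.piecewise q.1 q.2) := by
    refine measurable_pi_lambda _ fun i => ?_
    by_cases h : i ∈ A <;> simp only [Set.piecewise, h, if_true, if_false] <;> fun_prop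
  refine ⟨hm, Measure.eq_infinitePi _ fun s t ht => ?_⟩
  rw [Measure.map_apply hm (MeasurableSet.pi s.countable_toSet fun _ _ => ht _)]
  have : (fun q : (ι → unitInterval) × (ι → unitInterval) => A.piecewise q.1 q.2) ⁻¹'
      (s : Set ι).pi t = ((s.filter (· ∈ A) : Finset ι) : Set ι).pi t ×ˢ
        ((s.filter (· ∉ A) : Finset ι) : Set ι).pi t := by
    ext ⟨w, v⟩
    simp only [Set.mem_preimage, Set.mem_pi, mem_coe, Set.mem_prod, mem_filter]
    constructor
    · exact fun h => ⟨fun i hi => by simpa [hi.2] using h i hi.1,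
        fun i hi => by simpa [hi.2] using h i hi.1⟩
    · rintro ⟨h1, h2⟩ i hi
      by_cases h : i ∈ A
      · simpa [h] using h1 i ⟨hi, h⟩
      · simpa [h] using h2 i ⟨hi, h⟩
  rw [this, Measure.prod_prod, Measure.infinitePi_pi _ (fun i _ => ht i),
    Measure.infinitePi_pi _ (fun i _ => ht i), prod_filter_mul_prod_filter_not]

lemma int_indep {f g : (ι → unitInterval) → ℝ} (hf : BM f) (hg : BM g) {A B : Set ι}
    (hA : DependsOn f A) (hB : DependsOn g B) (h : Disjoint A B) :
    ∫ ω, f ω * g ω ∂PI ι = (∫ ω, f ω ∂PI ι) * ∫ ω, g ω ∂PI ι := by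
  rw [← (hf.mul hg).int_comp (mix A), ← integral_prod_mul]
  congr 1
  funext q
  rw [hA (y := q.1) fun i hi => by simp [hi],
    hB (y := q.2) fun i hi => by simp [Set.disjoint_right.1 h hi]]

/-- reflect the labels in `A` -/
def fl (A : Set ι) (ω : ι → unitInterval) : ι → unitInterval :=
  fun i => if i ∈ A then unitInterval.symm (ω i) else ω i

lemma fl_mp (A : Set ι) : MeasurePreserving (fl A) (PI ι) (PI ι) := by
  have hm : ∀ i, Measurable fun x : unitInterval => if i ∈ A then unitInterval.symm x else x := by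
    intro i
    split_ifs
    exacts [unitInterval.measurable_symm, measurable_id]
  refine ⟨measurable_pi_lambda _ fun i => (hm i).comp (measurable_pi_apply i), ?_⟩
  refine (Measure.infinitePi_map_pi (fun _ => volume) hm).trans ?_
  congr 1
  funext i
  split_ifs
  exacts [unitInterval.measurePreserving_symm.map_eq, Measure.map_id]

lemma reindex_mp (e : ι → ι) (he : Function.Injective e) :
    MeasurePreserving (fun (ω : ι → unitInterval) i => ω (e i)) (PI ι) (PI ι) :=
  ⟨by fun_prop, Measure.map_infinitePi_infinitePi_of_inj (P := fun _ : ι => volume) he⟩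

lemma ae_ne {i j : ι} (h : i ≠ j) (c c' : ℝ) : ∀ᵐ ω ∂PI ι, c + (ω i : ℝ) ≠ c' + ω j := by
  have hm : MeasurableSet {ω : ι → unitInterval | c + (ω i : ℝ) ≠ c' + ω j} :=
    (measurableSet_eq_fun (by fun_prop) (by fun_prop)).compl
  rw [PI, ← (H0254.resample volume i).map_eq,
    ae_map_iff (H0254.resample volume i).measurable.aemeasurable hm]
  refine (Measure.ae_prod_iff_ae_ae (measurable_update' (a := i) hm)).2
    (Eventually.of_forall fun ω => ?_)
  rw [ae_iff]
  refine Set.Subsingleton.measure_zero (fun x hx y hy => Subtype.ext ?_) _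
  simp only [ne_eq, not_not, Set.mem_ofPred_eq, Function.update_self,
    Function.update_of_ne h.symm] at hx hy
  linarith

/-! ### the observation channel and its inverse distribution function -/

def Gi (c u : ℝ) : ℝ := 2 * u / ((1 - c) + √((1 - c) ^ 2 + 4 * c * u))

lemma Gi_spec {c u : ℝ} (hc : |c| ≤ 1 / 2) (hu : u ∈ Set.Icc (0 : ℝ) 1) :
    Gi c u ∈ Set.Icc (0 : ℝ) 1 ∧ Gi c u + c * Gi c u * (Gi c u - 1) = u := by
  obtain ⟨c1, c2⟩ := abs_le.1 hc
  obtain ⟨u0, u1⟩ := hu
  have hD : 0 ≤ (1 - c) ^ 2 + 4 * c * u := by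
    rcases le_total 0 c with h | h <;> nlinarith [sq_nonneg (1 + c)]
  have hs := Real.sq_sqrt hD
  have hs0 := Real.sqrt_nonneg ((1 - c) ^ 2 + 4 * c * u)
  unfold Gi
  set D := √((1 - c) ^ 2 + 4 * c * u)
  have hp : 0 < 1 - c + D := by linarith
  refine ⟨⟨by positivity, ?_⟩, ?_⟩
  · rw [div_le_one hp]
    have : 2 * u - (1 - c) ≤ D := Real.le_sqrt_of_sq_le (by nlinarith)
    linarith
  · field_simp
    linear_combination (-u) * hs

lemma F_inj {c c' x x' : ℝ} (hc : |c| ≤ 1 / 2) (hx : x ∈ Set.Icc (0 : ℝ) 1)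
    (hx' : x' ∈ Set.Icc (0 : ℝ) 1) (h : x + c * x * (x - 1) = x' + c' * x' * (x' - 1)) :
    |x - x'| ≤ |c - c'| / 2 := by
  obtain ⟨c1, c2⟩ := abs_le.1 hc
  have e : (x - x') * (1 + c * (x + x' - 1)) = (c - c') * (x' * (1 - x')) := by linarith
  have a : 1 / 2 ≤ 1 + c * (x + x' - 1) := by nlinarith [hx.1, hx.2, hx'.1, hx'.2]
  have b : x' * (1 - x') ≤ 1 / 4 := by nlinarith [sq_nonneg (x' - 1 / 2)]
  have b0 : 0 ≤ x' * (1 - x') := mul_nonneg hx'.1 (by linarith [hx'.2])
  have := congrArg abs e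
  rw [abs_mul, abs_mul, abs_of_nonneg (by linarith : 0 ≤ 1 + c * (x + x' - 1)),
    abs_of_nonneg b0] at this
  nlinarith [abs_nonneg (x - x'), abs_nonneg (c - c')]

lemma Gi_lip {c c' u : ℝ} (hc : |c| ≤ 1 / 2) (hc' : |c'| ≤ 1 / 2) (hu : u ∈ Set.Icc (0 : ℝ) 1) :
    |Gi c u - Gi c' u| ≤ |c - c'| / 2 :=
  F_inj hc (Gi_spec hc hu).1 (Gi_spec hc' hu).1 (by rw [(Gi_spec hc hu).2, (Gi_spec hc' hu).2])

def GI (c : ℝ) (u : unitInterval) : unitInterval := Set.projIcc 0 1 zero_le_one (Gi c u)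

lemma GI_coe {c : ℝ} (hc : |c| ≤ 1 / 2) (u : unitInterval) : (GI c u : ℝ) = Gi c u := by
  rw [GI, Set.projIcc_of_mem _ (Gi_spec hc u.2).1]

lemma measurable_GI {X : Type*} [MeasurableSpace X] {c : X → ℝ} {u : X → unitInterval}
    (hc : Measurable c) (hu : Measurable u) : Measurable fun x => GI (c x) (u x) := by
  unfold GI Gi
  exact continuous_projIcc.measurable.comp (by fun_prop)

lemma int_unit (f : unitInterval → ℝ) :
    ∫ u, f u = ∫ x in Set.Icc (0 : ℝ) 1, f (Set.projIcc 0 1 zero_le_one x) := by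
  rw [← unitInterval.measurePreserving_coe.integral_comp unitInterval.measurableEmbedding_coe]
  simp

lemma int_GI {c : ℝ} (hc : |c| ≤ 1 / 2) (f : unitInterval → ℝ) :
    ∫ u, f (GI c u) = ∫ x : unitInterval, f x * (1 + c * (2 * x - 1)) := by
  obtain ⟨c1, c2⟩ := abs_le.1 hc
  have him : (fun x : ℝ => x + c * x * (x - 1)) '' Set.Icc 0 1 = Set.Icc 0 1 := by
    ext u
    constructor
    · rintro ⟨x, ⟨x0, x1⟩, rfl⟩
      have := mul_nonneg x0 (sub_nonneg.2 x1)
      constructor <;> nlinarith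
    · exact fun hu => ⟨_, (Gi_spec hc hu).1, (Gi_spec hc hu).2⟩
  have hinj : Set.InjOn (fun x : ℝ => x + c * x * (x - 1)) (Set.Icc 0 1) := fun x hx y hy h => by
    have := F_inj (c' := c) hc hx hy h
    simpa [sub_eq_zero] using this
  rw [int_unit, int_unit]
  conv_lhs => rw [← him]
  rw [integral_image_eq_integral_abs_deriv_smul measurableSet_Icc
    (f' := fun x => 1 + c * (2 * x - 1)) (fun x _ => ?_) hinj]
  · refine setIntegral_congr_fun measurableSet_Icc fun x hx => ?_
    have hF : x + c * x * (x - 1) ∈ Set.Icc (0 : ℝ) 1 := him ▸ Set.mem_image_of_mem _ hx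
    have e : Gi c (x + c * x * (x - 1)) = x := hinj (Gi_spec hc hF).1 hx (Gi_spec hc hF).2
    simp only [GI, Set.projIcc_of_mem _ hF, Set.projIcc_of_mem _ hx, e, smul_eq_mul]
    rw [abs_of_nonneg (by nlinarith [hx.1, hx.2]), mul_comm]
  · have := ((hasDerivAt_id x).add (((hasDerivAt_id x).const_mul c).mul
      ((hasDerivAt_id x).sub_const 1))).hasDerivWithinAt (s := Set.Icc 0 1)
    refine this.congr_deriv ?_
    simp only [id]; ring

lemma int_lin : ∫ x : unitInterval, (2 * (x : ℝ) - 1) = 0 := by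
  have := unitInterval.measurePreserving_symm.integral_comp
    unitInterval.symmMeasurableEquiv.measurableEmbedding fun x : unitInterval => 2 * (x : ℝ) - 1
  simp only [unitInterval.coe_symm_eq] at this
  have e : ∫ x : unitInterval, (2 * (1 - (x : ℝ)) - 1) = -∫ x : unitInterval, (2 * (x : ℝ) - 1) := by
    rw [← integral_neg]; congr 1; funext x; ring
  linarith

lemma int_lin_sq : ∫ x : unitInterval, (2 * (x : ℝ) - 1) ^ 2 = 1 / 3 := by
  rw [int_unit, setIntegral_congr_fun measurableSet_Icc (g := fun x : ℝ => 4 * x ^ 2 - 4 * x + 1)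
    fun x hx => by simp only [Set.projIcc_of_mem _ hx]; ring,
    integral_Icc_eq_integral_Ioc, ← intervalIntegral.integral_of_le zero_le_one]
  rw [intervalIntegral.integral_eq_sub_of_hasDerivAt
    (f := fun x : ℝ => 4 / 3 * x ^ 3 - 2 * x ^ 2 + x) (fun x _ => ?_)
    (Continuous.intervalIntegrable (by fun_prop) _ _)]
  · norm_num
  · refine ((((hasDerivAt_pow 3 x).const_mul (4 / 3)).sub
      ((hasDerivAt_pow 2 x).const_mul 2)).add (hasDerivAt_id x)).congr_deriv ?_
    norm_num; ring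

end

end Crest.Agent.H0241
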