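import Crest.Agent.H0241.Pat
import Crest.Agent.H0241.Prob

set_option autoImplicit false
set_option linter.unusedSectionVars false
open Finset Filter MeasureTheory

namespace Crest.Agent.H0241

noncomputable section
open Classical

variable {V : Type*}

abbrev Om (V : Type*) := V × (ℤ × Bool) → unitInterval
abbrev PO (V : Type*) : Measure (Om V) := PI (V × (ℤ × Bool))

def tc (ρ : V × ℤ) : V × (ℤ × Bool) := (ρ.1, ρ.2, false)
def uc (ρ : V × ℤ) : V × (ℤ × Bool) := (ρ.1, ρ.2, true)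

lemma tc_ne_uc (ρ ρ' : V × ℤ) : tc ρ ≠ uc ρ' := by simp [tc, uc]
lemma tc_inj : Function.Injective (tc (V := V)) := by
  rintro ⟨a, b⟩ ⟨c, d⟩; simp [tc]
lemma uc_inj : Function.Injective (uc (V := V)) := by
  rintro ⟨a, b⟩ ⟨c, d⟩; simp [uc]

/-- time of a ring -/
def tm (ρ : V × ℤ) (ω : Om V) : ℝ := ρ.2 + (ω (tc ρ) : ℝ)

def ell (R : Finset (V × ℤ)) (a : V × ℤ → ℝ) (v : V) (s : Bool) : ℝ :=
  ∏ ρ ∈ R with ρ.1 = v, (1 + sg s * a ρ)

lemma ell_off (R : Finset (V × ℤ)) (a : V × ℤ → ℝ) {v : V} (hv : v ∉ R.image Prod.fst) (s : Bool) :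
    ell R a v s = 1 :=
  prod_eq_one fun ρ h => absurd (mem_image.2 ⟨ρ, (mem_filter.1 h).1, (mem_filter.1 h).2⟩) hv

lemma ell_fs (R : Finset (V × ℤ)) (a : V × ℤ → ℝ) : Fs (ell R a) :=
  ⟨R.image Prod.fst, fun _ hv s => ell_off R a hv s⟩

lemma ell_pos (R : Finset (V × ℤ)) {a : V × ℤ → ℝ} (h : ∀ ρ, |a ρ| ≤ 1 / 2) (v : V) (s : Bool) :
    0 < ell R a v s := prod_pos fun ρ _ => by
  have := abs_le.1 (h ρ)
  cases s <;> simp only [sg_true, sg_false] <;> linarith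

lemma ell_congr {R R' : Finset (V × ℤ)} {a a' : V × ℤ → ℝ}
    (h : ∀ ρ, (if ρ ∈ R then a ρ else 0) = if ρ ∈ R' then a' ρ else 0) : ell R a = ell R' a' := by
  have : ∀ (R R' : Finset (V × ℤ)) (a : V × ℤ → ℝ) v s, ell R a v s =
      ∏ ρ ∈ (R ∪ R') with ρ.1 = v, (1 + sg s * if ρ ∈ R then a ρ else 0) := by
    intro R R' a v s
    refine prod_subset_one_on_sdiff (filter_subset_filter _ subset_union_left) (fun ρ hρ => ?_)
      fun ρ hρ => by rw [if_pos (mem_filter.1 hρ).1]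
    obtain ⟨a1, a2⟩ := mem_sdiff.1 hρ
    have a3 := (mem_filter.1 a1).2
    have a4 : ρ ∉ R := fun h => a2 (mem_filter.2 ⟨h, a3⟩)
    rw [if_neg a4]
    ring
  funext v s
  rw [this R R', this R' R, union_comm]
  simp only [h]

lemma ell_insert {R : Finset (V × ℤ)} {ρ : V × ℤ} (h : ρ ∉ R) (a : V × ℤ → ℝ) :
    ell (insert ρ R) a = mulAt (ell R a) ρ.1 fun s => 1 + sg s * a ρ := by
  funext v s
  unfold mulAt ell
  rw [filter_insert]
  by_cases hv : ρ.1 = v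
  · rw [if_pos hv, if_pos hv.symm, prod_insert (fun h' => h (mem_filter.1 h').1), mul_comm]
  · rw [if_neg hv, if_neg (Ne.symm hv)]

lemma ell_update {R : Finset (V × ℤ)} {ρ : V × ℤ} (h : ρ ∈ R) {a : V × ℤ → ℝ} (ha : a ρ = 0)
    (x : ℝ) : ell R (Function.update a ρ x) = mulAt (ell R a) ρ.1 fun s => 1 + sg s * x := by
  have e : ell R a = ell (R.erase ρ) (Function.update a ρ x) := ell_congr fun ρ' => by
    by_cases c : ρ' = ρ
    · subst c; simp [ha]
    · simp [c]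
  rw [e, ← insert_erase h, ell_insert (notMem_erase _ _), Function.update_self,
    erase_insert (notMem_erase _ _)]

variable (G : SimpleGraph V) [G.LocallyFinite]

/-- parameters of a finite system: coupling, set of rings, strengths -/
structure Sys (V : Type*) where
  θ : ℝ
  R : Finset (V × ℤ)
  ef : ℤ → unitInterval → ℝ

structure Sys.Ok (S : Sys V) : Prop where
  h0 : 0 ≤ S.θ
  h1 : S.θ < 1
  bd : ∀ n x, |S.ef n x| ≤ 1 / 2
  ms : ∀ n, Measurable (S.ef n)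

namespace Sys
variable (S : Sys V)

def act (ρ : V × ℤ) (ω : Om V) : ℝ := S.ef ρ.2 (ω (tc ρ))

def eff (τ : ℝ) (ω : Om V) (ρ : V × ℤ) : ℝ := if ρ ∈ S.R ∧ tm ρ ω < τ then S.act ρ ω else 0

def amp (y : V × ℤ → unitInterval) (τ : ℝ) (ω : Om V) (ρ : V × ℤ) : ℝ :=
  S.eff τ ω ρ * (2 * y ρ - 1)

def yF (ω : Om V) : ℕ → V × ℤ → unitInterval
  | 0, ρ => ω (uc ρ)
  | k + 1, ρ => GI (S.act ρ ω * Bm G S.θ (ell S.R (S.amp (yF ω k) (tm ρ ω) ω)) ρ.1 ρ.1) (ω (uc ρ))

/-- the observations produced from the innovations -/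
def yy (ω : Om V) : V × ℤ → unitInterval := S.yF G ω S.R.card

/-- vertex weights at time `τ` -/
def St (τ : ℝ) (ω : Om V) : V → Bool → ℝ := ell S.R (S.amp (S.yy G ω) τ ω)

/-- cavity magnetisations at time `τ` -/
def B (τ : ℝ) (ω : Om V) : V → V → ℝ := Bm G S.θ (S.St G τ ω)

variable {G S}

lemma amp_bd (hS : S.Ok) (y : V × ℤ → unitInterval) (τ : ℝ) (ω : Om V) (ρ : V × ℤ) :
    |S.amp y τ ω ρ| ≤ 1 / 2 := by
  have a : |S.eff τ ω ρ| ≤ 1 / 2 := by
    unfold eff; split_ifs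
    exacts [hS.bd _ _, by norm_num]
  have b : |2 * (y ρ : ℝ) - 1| ≤ 1 := abs_le.2 ⟨by linarith [(y ρ).2.1], by linarith [(y ρ).2.2]⟩
  rw [amp, abs_mul]
  nlinarith [abs_nonneg (S.eff τ ω ρ), abs_nonneg (2 * (y ρ : ℝ) - 1)]

lemma St_pos (hS : S.Ok) (τ : ℝ) (ω : Om V) (v : V) (s : Bool) : 0 < S.St G τ ω v s :=
  ell_pos _ (amp_bd hS _ _ _) v s

lemma St_fs (τ : ℝ) (ω : Om V) : Fs (S.St G τ ω) := ell_fs _ _

lemma cnt_lt {ω : Om V} {ρ : V × ℤ} {τ : ℝ} (h : ρ ∈ S.R) (ht : tm ρ ω < τ) :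
    (S.R.filter fun ρ' => tm ρ' ω < tm ρ ω).card < (S.R.filter fun ρ' => tm ρ' ω < τ).card :=
  card_lt_card ⟨fun _ h' => mem_filter.2 ⟨(mem_filter.1 h').1, (mem_filter.1 h').2.trans ht⟩,
    fun h' => lt_irrefl _ (mem_filter.1 (h' (mem_filter.2 ⟨h, ht⟩))).2⟩

lemma amp_congr {y y' : V × ℤ → unitInterval} {τ : ℝ} {ω : Om V}
    (h : ∀ ρ ∈ S.R, tm ρ ω < τ → y ρ = y' ρ) : S.amp y τ ω = S.amp y' τ ω := by
  funext ρ
  unfold amp eff
  split_ifs with c
  · rw [h ρ c.1 c.2]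
  · simp

lemma yF_stab (ω : Om V) (k : ℕ) : ∀ ρ, (S.R.filter fun ρ' => tm ρ' ω < tm ρ ω).card < k →
    S.yF G ω (k + 1) ρ = S.yF G ω k ρ := by
  induction k with
  | zero => simp
  | succ k ih =>
    intro ρ h
    rw [yF, yF, amp_congr fun ρ' h1 h2 => ih ρ' (by have := cnt_lt h1 h2; omega)]

lemma yy_eq (ω : Om V) {ρ : V × ℤ} (h : ρ ∈ S.R) :
    S.yy G ω ρ = GI (S.act ρ ω * S.B G (tm ρ ω) ω ρ.1 ρ.1) (ω (uc ρ)) := by
  have := yF_stab (G := G) (S := S) ω S.R.card ρ (card_lt_card ⟨filter_subset _ _,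
    fun h' => lt_irrefl _ (mem_filter.1 (h' h)).2⟩)
  rw [yy, ← this, yF]
  rfl

/-- the state at a given time only depends on the rings that are effective before that time -/
lemma loc {S' : Sys V} (hθ : S.θ = S'.θ) {ω ω' : Om V} {τ τ' : ℝ}
    (h : ∀ ρ, S.eff τ ω ρ = S'.eff τ' ω' ρ ∧
      (S.eff τ ω ρ ≠ 0 → tm ρ ω = tm ρ ω' ∧ ω (uc ρ) = ω' (uc ρ))) :
    S.amp (S.yy G ω) τ ω = S'.amp (S'.yy G ω') τ' ω' ∧ S.St G τ ω = S'.St G τ' ω' := by
  have fin : ∀ {τ τ' : ℝ}, S.amp (S.yy G ω) τ ω = S'.amp (S'.yy G ω') τ' ω' →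
      S.St G τ ω = S'.St G τ' ω' := by
    intro τ τ' e
    refine ell_congr fun ρ => ?_
    have a : ∀ (S : Sys V) y τ ω, (if ρ ∈ S.R then S.amp y τ ω ρ else 0) = S.amp y τ ω ρ := by
      intro S y τ ω
      split_ifs with c
      · rfl
      · simp [amp, eff, c]
    rw [a, a, e]
  suffices S.amp (S.yy G ω) τ ω = S'.amp (S'.yy G ω') τ' ω' from ⟨this, fin this⟩
  generalize hn : (S.R.filter fun ρ' => tm ρ' ω < τ).card = n
  induction n using Nat.strong_induction_on generalizing τ τ' with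
  | _ n ih =>
    funext ρ
    obtain ⟨h1, h2⟩ := h ρ
    by_cases c : S.eff τ ω ρ = 0
    · simp [amp, ← h1, c]
    obtain ⟨h3, h4⟩ := h2 c
    have c1 : ρ ∈ S.R ∧ tm ρ ω < τ := by by_contra d; exact c (if_neg d)
    have c2 : ρ ∈ S'.R ∧ tm ρ ω' < τ' := by by_contra d; exact c (h1.trans (if_neg d))
    have h5 : S.act ρ ω = S'.act ρ ω' := by simpa [eff, c1, c2] using h1
    have key := ih _ (hn ▸ cnt_lt c1.1 c1.2) (τ := tm ρ ω) (τ' := tm ρ ω') (fun σ => ?_) rfl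
    · rw [amp, amp, h1, yy_eq ω c1.1, yy_eq ω' c2.1, B, B, fin key, h4, h5, hθ]
    · have e1 : S.eff (tm ρ ω) ω σ = if tm σ ω < tm ρ ω then S.eff τ ω σ else 0 := by
        unfold eff
        by_cases d : tm σ ω < tm ρ ω
        · simp [d, d.trans c1.2]
        · simp [d]
      have e2 : S'.eff (tm ρ ω') ω' σ = if tm σ ω' < tm ρ ω' then S'.eff τ' ω' σ else 0 := by
        unfold eff
        by_cases d : tm σ ω' < tm ρ ω'
        · simp [d, d.trans c2.2]
        · simp [d]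
      rw [e1, e2, ← (h σ).1]
      by_cases d : S.eff τ ω σ = 0
      · simp [d]
      · exact ⟨by rw [← ((h σ).2 d).1, ← h3], fun _ => (h σ).2 d⟩

lemma St_upd_u (τ : ℝ) (ω : Om V) (ρ : V × ℤ) (h : τ ≤ tm ρ ω) (u : unitInterval) :
    S.St G τ (Function.update ω (uc ρ) u) = S.St G τ ω := by
  refine (loc rfl fun σ => ?_).2
  have a : tm σ (Function.update ω (uc ρ) u) = tm σ ω := by
    simp [tm, Function.update_of_ne (tc_ne_uc _ _)]
  refine ⟨by simp [eff, act, a, Function.update_of_ne (tc_ne_uc _ _)], fun c => ⟨a, ?_⟩⟩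
  refine Function.update_of_ne (fun e => c ?_) _ _
  obtain rfl := uc_inj e
  simp [eff, a, h.not_gt]

lemma St_upd_t (τ : ℝ) (ω : Om V) (ρ : V × ℤ) {x x' : unitInterval} (h : τ ≤ ρ.2 + (x : ℝ))
    (h' : τ ≤ ρ.2 + (x' : ℝ)) :
    S.St G τ (Function.update ω (tc ρ) x) = S.St G τ (Function.update ω (tc ρ) x') := by
  refine (loc rfl fun σ => ?_).2
  by_cases c : σ = ρ
  · subst c
    simp [eff, tm, h.not_gt, h'.not_gt]
  · have c' : tc σ ≠ tc ρ := fun e => c (tc_inj e)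
    simp [eff, tm, act, Function.update_of_ne c', Function.update_of_ne (tc_ne_uc _ _).symm]

section meas
variable {X : Type*} [MeasurableSpace X] (hT : G.IsTree)

lemma _root_.Crest.Agent.H0241.bm_msgF (θ : ℝ) {ℓ : X → V → Bool → ℝ}
    (h : ∀ v s, BM fun x => ℓ x v s) (n : ℕ) : ∀ w v s, BM fun x => msgF G θ (ℓ x) n w v s := by
  induction n with
  | zero => exact fun _ _ _ => BM.const 1
  | succ n ih =>
    exact fun w v s => (h w s).mul (BM.prod _ fun z _ => ((ih z w s).cmul _).add ((ih z w _).cmul _))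

lemma _root_.Crest.Agent.H0241.bm_ell (R : Finset (V × ℤ)) {a : X → V × ℤ → ℝ}
    (h : ∀ ρ, BM fun x => a x ρ) (v : V) (s : Bool) : BM fun x => ell R (a x) v s :=
  BM.prod _ fun ρ _ => (BM.const 1).add ((h ρ).cmul _)

include hT in
lemma _root_.Crest.Agent.H0241.bm_msg (θ : ℝ) (R : Finset (V × ℤ)) {a : X → V × ℤ → ℝ}
    (h : ∀ ρ, BM fun x => a x ρ) {p : V → Bool → ℝ} (hp : Fs p) {w v : V} (he : Ed G w v)
    (s : Bool) : BM fun x => msg G θ (fun v s => ell R (a x) v s * p v s) w v s := by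
  obtain ⟨A, hA⟩ := hp
  obtain ⟨n, hn⟩ := exists_rad (G := G) (R.image Prod.fst ∪ A) w
  have : ∀ x, msg G θ (fun v s => ell R (a x) v s * p v s) w v =
      msgF G θ (fun v s => ell R (a x) v s * p v s) n w v := fun x => msg_eq hT he fun u hu s => by
    have := hn u hu
    rw [mem_union, not_or] at this
    rw [ell_off _ _ this.1, hA u this.2, one_mul]
  simp only [this]
  exact bm_msgF θ (fun v s => (bm_ell R h v s).mul (BM.const _)) n w v s

include hT in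
lemma _root_.Crest.Agent.H0241.bm_msg' (θ : ℝ) (R : Finset (V × ℤ)) {a : X → V × ℤ → ℝ}
    (h : ∀ ρ, BM fun x => a x ρ) {w v : V} (he : Ed G w v)
    (s : Bool) : BM fun x => msg G θ (ell R (a x)) w v s := by
  simpa using bm_msg hT θ R h (p := fun _ _ => 1) ⟨∅, fun _ _ _ => rfl⟩ he s

lemma _root_.Crest.Agent.H0241.bm_mg {L : X → Bool → ℝ} (h : ∀ s, BM fun x => L x s)
    (hp : ∀ x s, 0 < L x s) : BM fun x => mg (L x) :=
  ⟨((h true).1.sub (h false).1).div ((h true).1.add (h false).1), 1,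
    fun x => (abs_mg_lt (hp x)).le⟩

lemma measurable_tm (ρ : V × ℤ) : Measurable (tm ρ) := by unfold tm; fun_prop

lemma bm_act (hS : S.Ok) (ρ : V × ℤ) : BM (S.act ρ) :=
  ⟨(hS.ms _).comp (measurable_pi_apply _), _, fun _ => hS.bd _ _⟩

lemma bm_amp (hS : S.Ok) {y : X → V × ℤ → unitInterval} (hy : ∀ ρ, Measurable fun x => y x ρ)
    {τ : X → ℝ} (hτ : Measurable τ) {w : X → Om V} (hw : Measurable w) (ρ : V × ℤ) :
    BM fun x => S.amp (y x) (τ x) (w x) ρ := by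
  refine ⟨Measurable.mul (Measurable.ite ?_ ((bm_act hS ρ).1.comp hw) measurable_const) ?_, _,
    fun x => amp_bd hS _ _ _ _⟩
  · exact (MeasurableSet.const _).inter (measurableSet_lt ((measurable_tm ρ).comp hw) hτ)
  · have := hy ρ
    fun_prop

include hT in
lemma bm_Bm (hS : S.Ok) {y : X → V × ℤ → unitInterval} (hy : ∀ ρ, Measurable fun x => y x ρ)
    {τ : X → ℝ} (hτ : Measurable τ) {w : X → Om V} (hw : Measurable w) {a b : V} (he : Ed G a b) :
    BM fun x => Bm G S.θ (ell S.R (S.amp (y x) (τ x) (w x))) a b :=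
  bm_mg (bm_msg' hT _ _ (bm_amp hS hy hτ hw) he) fun _ =>
    msg_pos hT hS.h0 hS.h1 (ell_fs _ _) (ell_pos _ (amp_bd hS _ _ _)) he

include hT in
lemma measurable_yy (hS : S.Ok) (ρ : V × ℤ) : Measurable fun ω => S.yy G ω ρ := by
  have : ∀ k ρ, Measurable fun ω => S.yF G ω k ρ := by
    intro k
    induction k with
    | zero => exact fun ρ => measurable_pi_apply _
    | succ k ih =>
      exact fun ρ => measurable_GI ((bm_act hS ρ).1.mul
        (bm_Bm hT hS ih (measurable_tm ρ) measurable_id (ed_root _)).1) (measurable_pi_apply _)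
  exact this _ ρ

include hT in
lemma bm_B (hS : S.Ok) {τ : X → ℝ} (hτ : Measurable τ) {w : X → Om V} (hw : Measurable w)
    {a b : V} (he : Ed G a b) : BM fun x => S.B G (τ x) (w x) a b :=
  bm_Bm hT hS (fun ρ => (measurable_yy hT hS ρ).comp hw) hτ hw he

include hT in
lemma abs_B_lt (hS : S.Ok) (τ : ℝ) (ω : Om V) {a b : V} (he : Ed G a b) : |S.B G τ ω a b| < 1 :=
  abs_Bm_lt hT hS.h0 hS.h1 (St_fs τ ω) (St_pos hS τ ω) he

end meas

end Sys

section aut
variable {G}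

/-- labels transported along an automorphism -/
def tr (g : G ≃g G) (ω : Om V) : Om V := fun p => ω (g p.1, p.2)

lemma tr_mp (g : G ≃g G) : MeasurePreserving (tr g) (PO V) (PO V) :=
  reindex_mp (fun p : V × (ℤ × Bool) => (g p.1, p.2)) fun p q h => by
    simp only [Prod.mk.injEq, EmbeddingLike.apply_eq_iff_eq] at h
    exact Prod.ext h.1 h.2

lemma Sys.B_aut (g : G ≃g G) {S S' : Sys V} (h1 : S.θ = S'.θ) (h2 : S.ef = S'.ef)
    (h3 : ∀ v n, (g v, n) ∈ S.R ↔ (v, n) ∈ S'.R) (τ : ℝ) (ω : Om V) (a b : V) :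
    S.B G τ ω (g a) (g b) = S'.B G τ (tr g ω) a b := by
  let e : V × ℤ ≃ V × ℤ := Equiv.prodCongr g.toEquiv (Equiv.refl _)
  have hell : ∀ (c c' : V × ℤ → ℝ), (∀ v n, c (g v, n) = c' (v, n)) →
      (fun v => ell S.R c (g v)) = ell S'.R c' := by
    intro c c' h
    funext v s
    symm
    refine prod_equiv e (fun ρ => ?_) fun ρ _ => ?_
    · simp [e, ← h3, Prod.map]
    · exact congrArg _ (congrArg _ (h ρ.1 ρ.2).symm)
  have hamp : ∀ (y y' : V × ℤ → unitInterval) τ, (∀ v n, y (g v, n) = y' (v, n)) →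
      ∀ v n, S.amp y τ ω (g v, n) = S'.amp y' τ (tr g ω) (v, n) := by
    intro y y' τ h v n
    simp only [Sys.amp, Sys.eff, Sys.act, h, h3, h2]
    rfl
  have hB : ∀ (y y' : V × ℤ → unitInterval) τ, (∀ v n, y (g v, n) = y' (v, n)) → ∀ a b,
      Bm G S.θ (ell S.R (S.amp y τ ω)) (g a) (g b) =
        Bm G S'.θ (ell S'.R (S'.amp y' τ (tr g ω))) a b := by
    intro y y' τ h a b
    rw [Bm, Bm, msg_aut, hell _ _ (hamp y y' τ h), h1]
  have hy : ∀ k v n, S.yF G ω k (g v, n) = S'.yF G (tr g ω) k (v, n) := by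
    intro k
    induction k with
    | zero => intros; rfl
    | succ k ih =>
      intro v n
      simp only [Sys.yF, hB _ _ _ ih, Sys.act, h2]
      rfl
  have hc : S.R.card = S'.R.card :=
    (card_equiv e fun ρ => by simp [e, ← h3, Prod.map]).symm
  exact hB _ _ τ (fun v n => by rw [Sys.yy, Sys.yy, hc, hy]) a b

end aut

end

end Crest.Agent.H0241
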