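import Mathlib

/-! The automorphism group of a regular tree is transitive on darts. -/

set_option autoImplicit false

namespace Crest.Agent.H0241

open SimpleGraph

section
variable {V : Type*} {G : SimpleGraph V}

theorem aut_par_unique (hT : G.IsTree) {a v w w' : V} (h : G.Adj w v) (h' : G.Adj w' v)
    (hd : G.dist a w + 1 = G.dist a v) (hd' : G.dist a w' + 1 = G.dist a v) : w = w' := by
  obtain ⟨p, hp⟩ := hT.connected.exists_walk_length_eq_dist a w
  obtain ⟨p', hp'⟩ := hT.connected.exists_walk_length_eq_dist a w'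
  have h1 : (p.concat h).IsPath :=
    Walk.isPath_of_length_eq_dist _ (by rw [Walk.length_concat, hp, hd])
  have h2 : (p'.concat h').IsPath :=
    Walk.isPath_of_length_eq_dist _ (by rw [Walk.length_concat, hp', hd'])
  have h3 : p.concat h = p'.concat h' :=
    Subtype.mk.inj <| hT.isAcyclic.subsingleton_path a v |>.elim ⟨_, h1⟩ ⟨_, h2⟩
  have h4 := congrArg Walk.penultimate h3
  simpa using h4

theorem aut_par_exists (hT : G.IsTree) {a v : V} (hv : v ≠ a) :
    ∃ w, G.Adj v w ∧ G.dist a w + 1 = G.dist a v := by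
  obtain ⟨p, hp⟩ := hT.connected.exists_walk_length_eq_dist v a
  cases p with
  | nil => exact absurd rfl hv
  | @cons _ w _ h q =>
    refine ⟨w, h, ?_⟩
    have h1 := dist_le q
    rw [Walk.length_cons] at hp
    rw [dist_comm] at hp h1
    rcases hT.dist_eq_dist_add_one_of_adj a h with h2 | h2
    · exact h2.symm
    · omega

theorem aut_exists_par (hT : G.IsTree) {a b : V} (h : G.Adj a b) :
    ∃ par : V → V, par a = b ∧ (∀ v, G.Adj v (par v)) ∧
      (∀ v, v ≠ a → G.dist a (par v) + 1 = G.dist a v) ∧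
      ∀ v w, G.Adj v w → (v ≠ a ∧ w = par v) ∨
        (w ≠ a ∧ par w = v ∧ G.dist a w = G.dist a v + 1) := by
  classical
  let par : V → V := fun v => if hv : v = a then b else (aut_par_exists hT hv).choose
  have h1 : ∀ v, v ≠ a → G.Adj v (par v) ∧ G.dist a (par v) + 1 = G.dist a v := by
    intro v hv
    simp only [par, hv, dif_neg, not_false_eq_true]
    exact (aut_par_exists hT hv).choose_spec
  have h0 : par a = b := by simp [par]
  refine ⟨par, h0, fun v => ?_, fun v hv => (h1 v hv).2, fun v w hvw => ?_⟩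
  · by_cases hv : v = a
    · rw [hv, h0]; exact h
    · exact (h1 v hv).1
  · rcases hT.dist_eq_dist_add_one_of_adj a hvw with h2 | h2
    · have hv : v ≠ a := by rintro rfl; simp at h2
      exact Or.inl ⟨hv, aut_par_unique hT hvw.symm (h1 v hv).1.symm h2.symm (h1 v hv).2⟩
    · have hw : w ≠ a := by rintro rfl; simp at h2
      exact Or.inr ⟨hw, aut_par_unique hT (h1 w hw).1.symm hvw (h1 w hw).2 h2.symm, h2⟩

theorem aut_local [G.LocallyFinite] {d : ℕ} (hreg : G.IsRegularOfDegree d) (u p u' p' : V) :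
    ∃ τ : V → V, G.Adj u p → G.Adj u' p' → τ p = p' ∧ (∀ w, G.Adj u w → G.Adj u' (τ w)) ∧
      (∀ w w', G.Adj u w → G.Adj u w' → τ w = τ w' → w = w') ∧
      ∀ w', G.Adj u' w' → ∃ w, G.Adj u w ∧ τ w = w' := by
  classical
  by_cases h : G.Adj u p ∧ G.Adj u' p'
  swap
  · exact ⟨id, fun h1 h2 => absurd ⟨h1, h2⟩ h⟩
  have hc : Fintype.card (G.neighborSet u) = Fintype.card (G.neighborSet u') := by
    rw [card_neighborSet_eq_degree, card_neighborSet_eq_degree, hreg u, hreg u']
  let e0 := Fintype.equivOfCardEq hc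
  let e := e0.trans (Equiv.swap (e0 ⟨p, h.1⟩) ⟨p', h.2⟩)
  let τ : V → V := fun w => if hw : G.Adj u w then (e ⟨w, hw⟩ : V) else w
  have hτ : ∀ w (hw : G.Adj u w), τ w = e ⟨w, hw⟩ := fun w hw => by simp [τ, hw]
  refine ⟨τ, fun _ _ => ⟨?_, fun w hw => ?_, fun w w' hw hw' hh => ?_, fun w' hw' => ?_⟩⟩
  · rw [hτ p h.1]; simp [e]
  · rw [hτ w hw]; exact (e ⟨w, hw⟩).2
  · rw [hτ w hw, hτ w' hw'] at hh
    exact congrArg Subtype.val (e.injective (Subtype.ext hh))
  · refine ⟨e.symm ⟨w', hw'⟩, (e.symm ⟨w', hw'⟩).2, ?_⟩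
    rw [hτ _ (e.symm ⟨w', hw'⟩).2]
    simp

/-- iterated images of the darts towards the root -/
def autD (par : V → V) (τ : V → V → V → V → V → V) (a' b' : V) : ℕ → V → V × V
  | 0, _ => (a', b')
  | n + 1, v => (τ (par v) (par (par v)) (autD par τ a' b' n (par v)).1
      (autD par τ a' b' n (par v)).2 v, (autD par τ a' b' n (par v)).1)

end

theorem exists_aut {V : Type*} (G : SimpleGraph V) [G.LocallyFinite] (hT : G.IsTree) {d : ℕ}
    (hreg : G.IsRegularOfDegree d) {a b a' b' : V} (h : G.Adj a b) (h' : G.Adj a' b') :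
    ∃ g : G ≃g G, g a = a' ∧ g b = b' := by
  obtain ⟨par, p0, p1, p2, p3⟩ := aut_exists_par hT h
  obtain ⟨par', -, q1, q2, q3⟩ := aut_exists_par hT h'
  choose τ hτ using aut_local hreg
  let D : V → V × V := fun v => autD par τ a' b' (G.dist a v) v
  have D0 : D a = (a', b') := by simp [D, autD]
  have D1 : ∀ v, v ≠ a → D v = (τ (par v) (par (par v)) (D (par v)).1 (D (par v)).2 v,
      (D (par v)).1) := by
    intro v hv
    simp only [D, ← p2 v hv, autD]
  have hz : ∀ v, G.dist a v = 0 → v = a := fun v hv => (hT.connected.dist_eq_zero_iff.1 hv).symm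
  have Dadj : ∀ n v, G.dist a v = n → G.Adj (D v).1 (D v).2 := by
    intro n
    induction n with
    | zero => intro v hv; rw [hz v hv, D0]; exact h'
    | succ n ih =>
      intro v hv
      have hva : v ≠ a := by rintro rfl; simp at hv
      have := p2 v hva
      rw [D1 v hva]
      exact ((hτ _ _ _ _ (p1 _) (ih (par v) (by omega))).2.1 v (p1 v).symm).symm
  have Dτ := fun v => hτ v (par v) (D v).1 (D v).2 (p1 v) (Dadj _ v rfl)
  have hf : ∀ v w, G.Adj v w → (D w).1 = τ v (par v) (D v).1 (D v).2 w := by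
    intro v w hvw
    rcases p3 v w hvw with ⟨hv, rfl⟩ | ⟨hw, rfl, -⟩
    · rw [(Dτ v).1, D1 v hv]
    · rw [D1 w hw]
  have f1 : ∀ v w, G.Adj v w → G.Adj (D v).1 (D w).1 := fun v w hvw => by
    rw [hf v w hvw]; exact (Dτ v).2.1 w hvw
  have f2 : ∀ v w w', G.Adj v w → G.Adj v w' → (D w).1 = (D w').1 → w = w' :=
    fun v w w' h1 h2 h3 => (Dτ v).2.2.1 w w' h1 h2 (by rw [← hf v w h1, ← hf v w' h2, h3])
  have f3 : ∀ v w', G.Adj (D v).1 w' → ∃ w, G.Adj v w ∧ (D w).1 = w' := fun v w' h1 => by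
    obtain ⟨w, h2, h3⟩ := (Dτ v).2.2.2 w' h1
    exact ⟨w, h2, by rw [hf v w h2, h3]⟩
  have lev : ∀ n v, G.dist a v = n →
      G.dist a' (D v).1 = n ∧ (v ≠ a → par' (D v).1 = (D (par v)).1) := by
    intro n
    induction n with
    | zero => intro v hv; rw [hz v hv, D0]; simp
    | succ n ih =>
      intro v hv
      have hva : v ≠ a := by rintro rfl; simp at hv
      have h1 := p2 v hva
      obtain ⟨i1, i2⟩ := ih (par v) (by omega)
      rcases q3 _ _ (f1 _ _ (p1 v).symm) with ⟨h2, h3⟩ | ⟨-, h2, h3⟩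
      · exfalso
        have h4 : par v ≠ a := by
          intro h5; rw [h5, D0] at h2; exact h2 rfl
        rw [i2 h4] at h3
        have h5 := f2 _ _ _ (p1 v).symm (p1 (par v)) h3
        have h6 := p2 _ h4
        rw [← h5] at h6
        omega
      · exact ⟨by rw [h3, i1], fun _ => h2⟩
  have inj : ∀ n u v, G.dist a u = n → (D u).1 = (D v).1 → u = v := by
    intro n
    induction n with
    | zero =>
      intro u v hu huv
      have h1 := (lev _ u hu).1
      rw [huv, (lev _ v rfl).1] at h1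
      rw [hz u hu, hz v h1]
    | succ n ih =>
      intro u v hu huv
      have h1 := (lev _ u hu).1
      rw [huv, (lev _ v rfl).1] at h1
      have hua : u ≠ a := by rintro rfl; simp at hu
      have hva : v ≠ a := by rintro rfl; simp at h1
      have h2 := p2 u hua
      have h3 : par u = par v := ih _ _ (by omega) (by
        rw [← (lev _ u rfl).2 hua, ← (lev _ v rfl).2 hva, huv])
      exact f2 (par u) u v (p1 u).symm (h3 ▸ (p1 v).symm) huv
  have surj : ∀ x y : V, G.Walk x y → (∃ u, (D u).1 = x) → ∃ u, (D u).1 = y := by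
    intro x y p
    induction p with
    | nil => exact id
    | cons hxy _ ih =>
      rintro ⟨u, rfl⟩
      obtain ⟨w, -, hw⟩ := f3 u _ hxy
      exact ih ⟨w, hw⟩
  have bij : Function.Bijective fun v => (D v).1 :=
    ⟨fun u v huv => inj _ u v rfl huv, fun y =>
      surj a' y (hT.connected a' y).some ⟨a, by rw [D0]⟩⟩
  refine ⟨⟨Equiv.ofBijective _ bij, ?_⟩, ?_, ?_⟩
  · intro u v
    refine ⟨fun huv => ?_, f1 u v⟩
    obtain ⟨w, h1, h2⟩ := f3 u _ huv
    rwa [← bij.1 h2]
  · show (D a).1 = a'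
    rw [D0]
  · show (D b).1 = b'
    rw [hf a b h, ← p0, (Dτ a).1, D0]

end Crest.Agent.H0241
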