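import Crest.Agent.H0241.Edge

set_option autoImplicit false
set_option linter.unusedSectionVars false
open Finset Filter MeasureTheory

namespace Crest.Agent.H0241

noncomputable section
open Classical

lemma gron {x p q : ℕ → ℝ} (hx : 0 ≤ x 0) (hp : ∀ i, 0 ≤ p i ∧ p i ≤ 1 / 2) (hq : ∀ i, 0 ≤ q i)
    (n : ℕ) (h : ∀ i < n, x (i + 1) - x i ≤ p i * x (i + 1) + q i) :
    x n ≤ Real.exp (2 * ∑ i ∈ range n, p i) * (x 0 + ∑ i ∈ range n, q i) := by
  induction n with
  | zero => simp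
  | succ n ih =>
    have a := ih fun i hi => h i (by omega)
    have b := h n (by omega)
    obtain ⟨p0, p1⟩ := hp n
    have E1 : 1 ≤ Real.exp (2 * ∑ i ∈ range n, p i) :=
      Real.one_le_exp (mul_nonneg zero_le_two (sum_nonneg fun i _ => (hp i).1))
    have Q : 0 ≤ ∑ i ∈ range n, q i := sum_nonneg fun i _ => hq i
    rw [sum_range_succ, sum_range_succ, mul_add 2, Real.exp_add, ← add_assoc]
    set E := Real.exp (2 * ∑ i ∈ range n, p i)
    set Y := E * (x 0 + ∑ i ∈ range n, q i + q n) with hY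
    have c : x (n + 1) * (1 - p n) ≤ Y := by nlinarith [hq n]
    have Y0 : 0 ≤ Y := by have := hq n; positivity
    have d : x (n + 1) ≤ (1 + 2 * p n) * Y := by
      refine le_of_mul_le_mul_right (c.trans ?_) (by linarith : 0 < 1 - p n)
      nlinarith [mul_nonneg (mul_nonneg p0 (by linarith : 0 ≤ 1 - 2 * p n)) Y0]
    calc _ ≤ (1 + 2 * p n) * Y := d
      _ ≤ Real.exp (2 * p n) * Y :=
        mul_le_mul_of_nonneg_right (by linarith [Real.add_one_le_exp (2 * p n)]) Y0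
      _ = _ := by rw [hY]; ring

lemma ae_summable {X : Type*} [MeasurableSpace X] (μ : Measure X) [IsFiniteMeasure μ]
    {F : ℕ → X → ℝ} (hF : ∀ n, BM (F n)) {C p : ℝ} (p0 : 0 ≤ p) (p1 : p < 1)
    (h : ∀ n, ∫ x, F n x ^ 2 ∂μ ≤ C * p ^ n) : ∀ᵐ x ∂μ, Summable fun n => |F n x| := by
  set r := (1 + p) / 2 with hr
  have r0 : 0 < r := by linarith
  have r1 : r < 1 := by linarith
  have b : ∀ n, BM fun x => F n x ^ 2 / r ^ n := fun n => ((hF n).pow 2).div_const _
  have hs : Summable fun n => C * (p / r) ^ n :=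
    (summable_geometric_of_lt_one (by positivity) ((div_lt_one r0).2 (by linarith))).mul_left C
  have m : ∀ n, Measurable fun x => ENNReal.ofReal (F n x ^ 2 / r ^ n) := fun n =>
    (b n).1.ennreal_ofReal
  have : ∫⁻ x, ∑' n, ENNReal.ofReal (F n x ^ 2 / r ^ n) ∂μ ≠ ⊤ := by
    rw [lintegral_tsum fun n => (m n).aemeasurable]
    refine ne_top_of_le_ne_top hs.tsum_ofReal_ne_top (ENNReal.tsum_le_tsum fun n => ?_)
    rw [← ofReal_integral_eq_lintegral_ofReal ((b n).integrable μ)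
      (Eventually.of_forall fun x => by positivity), integral_div, div_pow p, ← mul_div_assoc]
    exact ENNReal.ofReal_le_ofReal (div_le_div_of_nonneg_right (h n) (by positivity))
  filter_upwards [ae_lt_top (Measurable.tsum m) this] with x hx
  have s1 := ENNReal.summable_toReal hx.ne
  simp only [fun n => ENNReal.toReal_ofReal (show 0 ≤ F n x ^ 2 / r ^ n by positivity)] at s1
  refine Summable.of_nonneg_of_le (fun n => abs_nonneg _) (fun n => ?_)
    (s1.add (summable_geometric_of_lt_one r0.le r1))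
  have : 0 < r ^ n := by positivity
  rw [div_add' _ _ _ this.ne', le_div_iff₀ this, ← sq_abs]
  nlinarith [sq_nonneg (|F n x| - r ^ n), abs_nonneg (F n x)]

lemma kf_pt {x x' P P' T Q E M : ℝ} (hx : |x| ≤ 1) (hx' : |x'| ≤ 1) (p0 : 0 ≤ P) (p1 : P ≤ T)
    (p0' : 0 ≤ P') (p1' : P' ≤ T) (q2 : T ^ 2 ≤ Q) (M0 : 0 ≤ M) (E0 : 0 ≤ E) {p p' : Prop}
    [Decidable p] [Decidable p'] (h : (p ↔ p') ∨ 1 ≤ E) :
    8 * ((if p then (1 - x ^ 2) * P else 0) - if p' then (1 - x' ^ 2) * P' else 0) ^ 2 +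
      32 * ((if p' then (1 - x' ^ 2) * P' else 0) ^ 2 * M) ≤
      16 * (P - P') ^ 2 + Q * (64 * (x - x') ^ 2 + 32 * M + 8 * E) := by
  have m1 := sq_le_one_of hx
  have m1' := sq_le_one_of hx'
  have Q0 : 0 ≤ Q := (sq_nonneg T).trans q2
  have k1 : 0 ≤ (1 - x ^ 2) * P ∧ (1 - x ^ 2) * P ≤ T :=
    ⟨mul_nonneg (by linarith) p0, by nlinarith [sq_nonneg x]⟩
  have k2 : 0 ≤ (1 - x' ^ 2) * P' ∧ (1 - x' ^ 2) * P' ≤ T :=
    ⟨mul_nonneg (by linarith) p0', by nlinarith [sq_nonneg x']⟩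
  have k3 : ∀ {y : ℝ}, |y| ≤ T → y ^ 2 ≤ Q := fun h =>
    (sq_abs _).ge.trans ((pow_le_pow_left₀ (abs_nonneg _) h 2).trans q2)
  have k4 : (if p' then (1 - x' ^ 2) * P' else 0) ^ 2 ≤ Q :=
    k3 (by split_ifs <;> rw [abs_le] <;> constructor <;> linarith)
  have z1 : 0 ≤ Q * (x - x') ^ 2 := by positivity
  have z2 : 0 ≤ Q * E := by positivity
  have k5 : ((if p then (1 - x ^ 2) * P else 0) - if p' then (1 - x' ^ 2) * P' else 0) ^ 2 ≤
      2 * (P - P') ^ 2 + 8 * (Q * (x - x') ^ 2) + Q * E := by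
    rcases h with h | h
    · simp only [h]
      split_ifs
      · have f1 : ((1 - x ^ 2) * (P - P')) ^ 2 ≤ (P - P') ^ 2 := by
          rw [mul_pow]
          exact mul_le_of_le_one_left (sq_nonneg _) (by nlinarith [sq_nonneg x])
        have f2 : ((x' ^ 2 - x ^ 2) * P') ^ 2 ≤ Q * (4 * (x - x') ^ 2) := by
          rw [mul_pow, mul_comm]
          refine mul_le_mul (k3 (by rwa [abs_of_nonneg p0'])) ?_ (sq_nonneg _) Q0
          have : (x + x') ^ 2 ≤ 4 := by nlinarith [sq_nonneg (x - x')]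
          calc _ = (x + x') ^ 2 * (x - x') ^ 2 := by ring
            _ ≤ _ := mul_le_mul_of_nonneg_right this (sq_nonneg _)
        nlinarith [sq_nonneg ((1 - x ^ 2) * (P - P') - (x' ^ 2 - x ^ 2) * P')]
      · nlinarith [sq_nonneg (P - P')]
    · have f2 := k3 (y := (if p then (1 - x ^ 2) * P else 0) - if p' then (1 - x' ^ 2) * P' else 0)
        (by split_ifs <;> rw [abs_le] <;> constructor <;> linarith)
      linarith [sq_nonneg (P - P'), mul_le_mul_of_nonneg_left h Q0]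
  linarith [mul_le_mul_of_nonneg_right k4 M0]

variable {V : Type*} {G : SimpleGraph V} [G.LocallyFinite]

def en (n : ℤ) : ℝ := (1 / 16) ^ (-n).toNat / 2

lemma en_pos (n : ℤ) : 0 < en n := by unfold en; positivity

lemma en_le (n : ℤ) : en n ≤ 1 / 2 := by
  unfold en
  linarith [pow_le_one₀ (n := (-n).toNat) (by norm_num : (0 : ℝ) ≤ 1 / 16) (by norm_num)]

/-- the finite systems -/
def Sy (G : SimpleGraph V) [G.LocallyFinite] (θ : ℝ) (N : ℕ) (c : V) (R : ℕ) : Sys V :=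
  ⟨θ, bl G R c c ×ˢ Icc (-N : ℤ) N, efn en⟩

lemma Sy_ok {θ : ℝ} (h0 : 0 ≤ θ) (h1 : θ < 1) (N : ℕ) (c : V) (R : ℕ) : (Sy G θ N c R).Ok := by
  refine ⟨h0, h1, fun n x => ?_, fun n => Measurable.ite
    (measurableSet_lt measurable_subtype_coe measurable_const) measurable_const measurable_const⟩
  simp only [Sy, efn]
  split_ifs
  · rw [abs_of_pos (en_pos n)]; exact en_le n
  · norm_num

lemma Sys.energy_sup (hT : G.IsTree) {S S' : Sys V} (hS : S.Ok) (hS' : S'.Ok) {e : ℤ → ℝ}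
    (he : S.ef = efn e) (he' : S'.ef = efn e) {A : Finset V} (hA : ∀ ρ ∈ S.R, ρ.1 ∈ A)
    (hA' : ∀ ρ ∈ S'.R, ρ.1 ∈ A) (o : V) {n : ℤ} {s t : ℝ} (hs : n ≤ s) (hst : s ≤ t)
    (ht : t ≤ n + 1) {K : ℝ} (hK : 0 ≤ K)
    (h : ∀ τ, s ≤ τ → τ < t → ∫ ω, ∑ u ∈ A, Sys.Kf G S S' o (u, n) τ ω ∂PO V ≤ K) :
    ∫ ω, (S.B G t ω o o - S'.B G t ω o o) ^ 2 ∂PO V -
      ∫ ω, (S.B G s ω o o - S'.B G s ω o o) ^ 2 ∂PO V ≤ (t - s) * (2 * e n ^ 2 * K) := by
  obtain ⟨m, C, hC⟩ := ((BM.sum A fun u _ => Sys.bm_Kf hT hS hS' o (u, n)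
    (τ := fun q : unitInterval × Om V => n + q.1) (by fun_prop) measurable_snd).integral_right
      (PO V)).cmul (2 * e n ^ 2)
  exact lim_int (ms_int n s t) (vol_int n s t hst) (by positivity) (fun _ => m) (fun _ => hC)
    (fun x hx => ⟨_, mul_le_mul_of_nonneg_left (h _ hx.1 hx.2) (by positivity), tendsto_const_nhds⟩)
    (Eventually.of_forall fun _ => Sys.energy_le hT hS hS' he he' hA hA' o hs hst ht)
    tendsto_const_nhds

variable {d : ℕ} (H : TR G d)
include H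

lemma TR.half {θ : ℝ} (h : ((d : ℝ) - 1) * θ ^ 2 ≤ 1) : θ ^ 2 ≤ 1 / 2 := by
  have : (3 : ℝ) ≤ d := by exact_mod_cast H.hd
  nlinarith [sq_nonneg θ]

lemma TR.countable : Countable V := by
  obtain ⟨c⟩ := H.tree.connected.nonempty
  refine Set.countable_univ_iff.1 ((Set.countable_iUnion fun n : ℕ =>
    (bl G n c c).countable_toSet).mono fun u _ => ?_)
  exact Set.mem_iUnion.2 ⟨_, (mem_ball H.tree).2 (Nat.lt_succ_self _)⟩

lemma wsum {q l K : ℝ} (hq : 0 ≤ q) (hl : 1 ≤ l) (h : ((d : ℝ) - 1) * (q * l) < 1) (hK : 0 ≤ K)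
    (o : V) {F : V → ℝ} (hF : ∀ u, F u ≤ K * l ^ G.dist u o) (A : Finset V) (w : V) :
    ∑ u ∈ A, q ^ G.dist u w * F u ≤ K * l ^ G.dist w o * (2 / (1 - ((d : ℝ) - 1) * (q * l))) := by
  refine le_trans ?_ (mul_le_mul_of_nonneg_left
    (sum_geo H.tree H.reg H.hd (by positivity) h A w) (by positivity))
  rw [mul_sum]
  refine sum_le_sum fun u _ => (mul_le_mul_of_nonneg_left (hF u) (by positivity)).trans ?_
  have := pow_le_pow_right₀ hl (H.tree.connected.dist_triangle (u := u) (v := w) (w := o))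
  rw [pow_add] at this
  calc q ^ G.dist u w * (K * l ^ G.dist u o) ≤ q ^ G.dist u w * (K * (l ^ G.dist u w * l ^ G.dist w o)) := by
        gcongr
    _ = _ := by rw [mul_pow]; ring

lemma path_sq {θ a : ℝ} (ha : 1 < a) (h : ((d : ℝ) - 1) * θ ^ 2 < 1)
    {r r' : V → V → ℝ} (hr : Bd G r θ) (hr' : Bd G r' θ) (n : ℕ) : ∀ w v,
    ∑ u ∈ bl G n w v, (PP G r w u - PP G r' w u) ^ 2 ≤ DS G (fun _ _ => a * θ ^ 2)
      (fun u => a / (a - 1) * (2 / (1 - ((d : ℝ) - 1) * θ ^ 2)) *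
        ∑ z ∈ ch G u u, (r z u - r' z u) ^ 2) n w v := by
  have a1 : 0 < a - 1 := by linarith
  have c0 : 0 ≤ a / (a - 1) * (2 / (1 - ((d : ℝ) - 1) * θ ^ 2)) :=
    mul_nonneg (by positivity) (div_nonneg zero_le_two (by linarith))
  induction n with
  | zero => simp [bl, DS]
  | succ n ih =>
    intro w v
    rw [sum_bl H.tree, DS, PP_self, PP_self, sub_self, zero_pow two_ne_zero, zero_add]
    refine le_trans ?_ (add_le_add_left (mul_le_mul_of_nonneg_left
      (sum_le_sum_of_subset_of_nonneg (s := ch G w v)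
        (fun z hz => by rw [ch_root]; simpa using (ch_adj hz).symm) fun _ _ _ => sq_nonneg _) c0) _)
    rw [mul_sum, ← sum_add_distrib]
    refine sum_le_sum fun z hz => ?_
    have g := sum_geo H.tree H.reg H.hd (sq_nonneg θ) h (bl G n z w) z
    have : ∀ u ∈ bl G n z w, (PP G r w u - PP G r' w u) ^ 2 ≤
        a / (a - 1) * (r z w - r' z w) ^ 2 * (θ ^ 2) ^ G.dist u z +
          a * θ ^ 2 * (PP G r z u - PP G r' z u) ^ 2 := fun u hu => by
      have s := ((mem_bl H.tree (ch_ed hz)).1 hu).1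
      rw [PP_step H.tree _ (ch_adj hz) s, PP_step H.tree _ (ch_adj hz) s]
      obtain ⟨p0, p1⟩ := PP_bd H.tree hr' z u
      obtain ⟨r0, r1⟩ := hr z w (ch_adj hz)
      have p2 : PP G r' z u ^ 2 ≤ (θ ^ 2) ^ G.dist u z := by
        rw [← pow_mul, mul_comm, pow_mul]; exact pow_le_pow_left₀ p0 p1 2
      have r2 : r z w ^ 2 ≤ θ ^ 2 := pow_le_pow_left₀ r0 r1 2
      set x := r z w * (PP G r z u - PP G r' z u) with hx
      set y := (r z w - r' z w) * PP G r' z u with hy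
      have e : r z w * PP G r z u - r' z w * PP G r' z u = x + y := by rw [hx, hy]; ring
      have i : (x + y) ^ 2 ≤ a * x ^ 2 + a / (a - 1) * y ^ 2 := by
        have : a * x ^ 2 + a / (a - 1) * y ^ 2 - (x + y) ^ 2 = ((a - 1) * x - y) ^ 2 / (a - 1) := by
          field_simp; ring
        have := div_nonneg (sq_nonneg ((a - 1) * x - y)) a1.le
        linarith
      rw [e]
      refine i.trans ?_
      rw [hx, hy, mul_pow, mul_pow, add_comm, mul_assoc, mul_assoc]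
      gcongr
    refine (sum_le_sum this).trans ?_
    rw [sum_add_distrib, ← mul_sum, ← mul_sum]
    have := mul_le_mul_of_nonneg_left g (mul_nonneg (div_nonneg (by linarith) a1.le : 0 ≤ a / (a - 1))
      (sq_nonneg (r z w - r' z w)))
    have := mul_le_mul_of_nonneg_left (ih z w) (by positivity : 0 ≤ a * θ ^ 2)
    nlinarith

lemma Kf_bound {θ : ℝ} (h0 : 0 ≤ θ) (h : ((d : ℝ) - 1) * θ ^ 2 < 1) :
    ∃ C l, 0 ≤ C ∧ 1 < l ∧ ∀ (S S' : Sys V), S.Ok → S'.Ok → S.θ = θ → S'.θ = θ →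
      ∀ (n : ℤ) (o₀ : V) (ρ : ℕ), (∀ u, G.dist u o₀ < ρ → ((u, n) ∈ S.R ↔ (u, n) ∈ S'.R)) →
      ∀ (τ φ : ℝ), 0 ≤ φ → (∀ u, ∫ ω, (S.B G τ ω u u - S'.B G τ ω u u) ^ 2 ∂PO V ≤
        φ * l ^ G.dist u o₀) → ∀ (A : Finset V) (o : V),
      ∫ ω, ∑ u ∈ A, Sys.Kf G S S' o (u, n) τ ω ∂PO V ≤ C * (φ + (1 / l) ^ ρ) * l ^ G.dist o o₀ := by
  have hd : (3 : ℝ) ≤ d := by exact_mod_cast H.hd
  set t := ((d : ℝ) - 1) * θ ^ 2 with ht
  have t0 : 0 ≤ t := mul_nonneg (by linarith) (sq_nonneg θ)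
  set a := 2 / (1 + t) with ha
  have a1 : 1 < a := by rw [ha, lt_div_iff₀ (by linarith)]; linarith
  have a2 : ((d : ℝ) - 1) * (a * θ ^ 2 * a) < 1 := by
    have : ((d : ℝ) - 1) * (a * θ ^ 2 * a) = 4 * t / (1 + t) ^ 2 := by
      rw [ha, ht]; field_simp; ring
    rw [this, div_lt_one (by positivity)]
    nlinarith [sq_pos_of_pos (by linarith : 0 < 1 - t)]
  set q := a * θ ^ 2 with hq
  have q0 : 0 ≤ q := by positivity
  have q1 : θ ^ 2 ≤ q := le_mul_of_one_le_left (sq_nonneg θ) a1.le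
  set c := a / (a - 1) * (2 / (1 - t)) with hc
  have c0 : 0 ≤ c := mul_nonneg (div_nonneg (by linarith) (by linarith))
    (div_nonneg zero_le_two (by linarith))
  set g := 2 / (1 - ((d : ℝ) - 1) * (q * a)) with hg
  have g0 : 0 ≤ g := div_nonneg zero_le_two (by linarith)
  have hh := H.half h.le
  clear_value g c q a t
  refine ⟨(16 * c * (d * (32 * 147 * 2 * a)) + 64 + 32 + 8) * g, a, by positivity, a1, ?_⟩
  intro S S' hS hS' e e' n o₀ ρ hR τ φ φ0 hφ A o
  obtain ⟨m, hm⟩ := exists_rad (G := G) A o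
  have bB := fun a b (h : Ed G a b) => Sys.bm_B H.tree hS (measurable_const (a := τ)) measurable_id' h
  have bB' := fun a b (h : Ed G a b) =>
    Sys.bm_B H.tree hS' (measurable_const (a := τ)) measurable_id' h
  set M : V → Om V → ℝ := fun u ω => (S.B G τ ω u u - S'.B G τ ω u u) ^ 2 with hM
  have bM : ∀ u, BM (M u) := fun u => ((bB _ _ (ed_root u)).sub (bB' _ _ (ed_root u))).pow 2
  set W : V → Om V → ℝ := fun u ω => 16 * c * (∑ z ∈ ch G u u, 32 * 147 * (M z ω + M u ω)) +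
    64 * M o ω + 32 * M u ω + 8 * ((1 / a) ^ ρ * a ^ G.dist u o₀) with hW
  have bW : ∀ u, BM (W u) := fun u =>
    ((((BM.sum _ fun z _ => ((bM z).add (bM u)).cmul _).cmul _).add ((bM o).cmul _)).add
      ((bM u).cmul _)).add (BM.const _)
  have key : ∀ ω, ∑ u ∈ A, Sys.Kf G S S' o (u, n) τ ω ≤
      ∑ u ∈ bl G m o o, q ^ G.dist u o * W u ω := by
    intro ω
    have E := Sys.edgeOK H.tree hS τ ω
    have E' := Sys.edgeOK H.tree hS' τ ω
    rw [e] at E
    rw [e'] at E'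
    have hr : Bd G (fun a b => rr θ (S.B G τ ω a b)) θ := fun a b c =>
      Sys.rr_bd h0 (lt_one_of_sq hh) (E.bd _ _ (Or.inl c))
    have hr' : Bd G (fun a b => rr θ (S'.B G τ ω a b)) θ := fun a b c =>
      Sys.rr_bd h0 (lt_one_of_sq hh) (E'.bd _ _ (Or.inl c))
    have p := path_sq H a1 (ht ▸ h) hr hr' m o o
    rw [DS_eq H.tree, ← ht, ← hc, ← hq] at p
    refine (sum_le_sum_of_subset_of_nonneg (t := bl G m o o)
      (fun u hu => (mem_ball H.tree).2 (by by_contra c; exact hm u (not_lt.1 c) hu))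
      fun u _ _ => by unfold Sys.Kf; positivity).trans ?_
    have s1 : ∀ u ∈ bl G m o o, Sys.Kf G S S' o (u, n) τ ω ≤
        16 * (PP G (fun a b => rr θ (S.B G τ ω a b)) o u -
          PP G (fun a b => rr θ (S'.B G τ ω a b)) o u) ^ 2 + q ^ G.dist u o *
          (64 * M o ω + 32 * M u ω + 8 * ((1 / a) ^ ρ * a ^ G.dist u o₀)) := by
      intro u _
      obtain ⟨p0, p1⟩ := PP_bd H.tree hr o u
      obtain ⟨p0', p1'⟩ := PP_bd H.tree hr' o u
      have q2 : (θ ^ G.dist u o) ^ 2 ≤ q ^ G.dist u o := by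
        rw [← pow_mul, mul_comm, pow_mul]; exact pow_le_pow_left₀ (sq_nonneg θ) q1 _
      simp only [Sys.Kf, Sys.cv, Cv, e, e']
      refine kf_pt (E.bd _ _ (ed_root o)) (E'.bd _ _ (ed_root o)) p0 p1 p0' p1' q2 (sq_nonneg _)
        (by positivity) ((lt_or_ge _ _).imp (hR u) fun c1 => ?_)
      rw [one_div, inv_pow, ← div_eq_inv_mul, one_le_div (by positivity)]
      exact pow_le_pow_right₀ a1.le c1
    refine (sum_le_sum s1).trans ?_
    rw [sum_add_distrib, ← mul_sum]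
    refine (add_le_add_left (mul_le_mul_of_nonneg_left p (by norm_num)) _).trans ?_
    rw [mul_sum, ← sum_add_distrib]
    refine sum_le_sum fun u _ => ?_
    have s2 : ∑ z ∈ ch G u u, (rr θ (S.B G τ ω z u) - rr θ (S'.B G τ ω z u)) ^ 2 ≤
        ∑ z ∈ ch G u u, 32 * 147 * (M z ω + M u ω) := sum_le_sum fun z hz => by
      have b1 := E.bd _ _ (ch_ed hz)
      have b2 := E'.bd _ _ (ch_ed hz)
      have f1 := rr_diff h0 hh h0 hh b1 b2
      have f2 := E.diff E' h0 hh h0 hh (ch_adj hz)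
      have f3 := mul_le_mul_of_nonneg_right (add_le_add (sq_le_one_of b1) (sq_le_one_of b2))
        (sq_nonneg (S.B G τ ω z u - S'.B G τ ω z u))
      simp only [hM]
      simp only [sub_self] at f1 f2
      linarith
    have s3 := mul_le_mul (PP_bound H.tree (fun _ _ => q) (fun _ _ => ⟨q0, le_rfl⟩) o u).2
      (mul_le_mul_of_nonneg_left s2 c0) (by positivity) (by positivity)
    simp only [hW]
    linear_combination 16 * s3
  refine ((BM.sum _ fun u _ => Sys.bm_Kf H.tree hS hS' o (u, n) measurable_const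
    measurable_id').mono (BM.sum _ fun u _ => (bW u).cmul _) _ key).trans ?_
  rw [BM.int_sum _ fun u _ => (bW u).cmul _]
  simp only [integral_const_mul]
  have hl : ∀ u w, G.dist u o₀ ≤ G.dist w o₀ + 1 → ∫ ω, M u ω ∂PO V ≤ a * φ * a ^ G.dist w o₀ :=
    fun u w h => (hφ u).trans (by
      have := pow_le_pow_right₀ a1.le h
      rw [pow_succ] at this
      nlinarith)
  have eW : ∀ u, ∫ ω, W u ω ∂PO V = (16 * c * (∑ z ∈ ch G u u, 32 * 147 * (∫ ω, M z ω ∂PO V +
      ∫ ω, M u ω ∂PO V)) + 32 * ∫ ω, M u ω ∂PO V + 8 * ((1 / a) ^ ρ * a ^ G.dist u o₀)) +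
      64 * ∫ ω, M o ω ∂PO V := fun u => by
    have b1 := BM.sum (ch G u u) fun z _ => ((bM z).add (bM u)).cmul (32 * 147)
    simp only [hW]
    rw [BM.int_add (((b1.cmul _).add ((bM o).cmul _)).add ((bM u).cmul _)) (BM.const _),
      BM.int_add ((b1.cmul _).add ((bM o).cmul _)) ((bM u).cmul _),
      BM.int_add (b1.cmul _) ((bM o).cmul _), integral_const_mul, integral_const_mul,
      integral_const_mul, BM.int_sum _ fun z _ => ((bM z).add (bM u)).cmul _]
    simp only [integral_const_mul, (bM _).int_add (bM u), integral_const, probReal_univ, one_smul]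
    ring
  simp only [eW]
  rw [sum_congr rfl fun u _ => mul_add _ _ _, sum_add_distrib]
  have i1 := wsum H q0 a1.le a2
    (K := (16 * c * (d * (32 * 147 * 2 * a)) + 32 + 8) * (φ + (1 / a) ^ ρ)) (by positivity) o₀
    (F := fun u => 16 * c * (∑ z ∈ ch G u u, 32 * 147 * (∫ ω, M z ω ∂PO V +
      ∫ ω, M u ω ∂PO V)) + 32 * ∫ ω, M u ω ∂PO V + 8 * ((1 / a) ^ ρ * a ^ G.dist u o₀))
    (fun u => by
      have f1 := sum_le_sum (s := ch G u u) (g := fun _ => 32 * 147 * (2 * (a * φ * a ^ G.dist u o₀)))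
        (f := fun z => 32 * 147 * (∫ ω, M z ω ∂PO V + ∫ ω, M u ω ∂PO V)) fun z hz => by
          have := hl z u ((H.tree.connected.dist_triangle (v := u)).trans (by
            rw [SimpleGraph.dist_eq_one_iff_adj.2 (ch_adj hz)]; omega))
          have := hl u u (by omega)
          linarith
      rw [sum_const, card_ch_root H.reg, nsmul_eq_mul] at f1
      have f2 := mul_le_mul_of_nonneg_left f1 (by positivity : 0 ≤ 16 * c)
      have f3 := hφ u
      have f4 : 0 ≤ (16 * c * (d * (32 * 147 * 2 * a)) + 32) * ((1 / a) ^ ρ * a ^ G.dist u o₀) := by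
        positivity
      have f5 : 0 ≤ φ * a ^ G.dist u o₀ := by positivity
      have f6 := mul_le_mul_of_nonneg_left f3 (by norm_num : (0 : ℝ) ≤ 32)
      change 32 * ∫ ω, M u ω ∂PO V ≤ _ at f6
      linear_combination f2 + f6 + f4 + 8 * f5) (bl G m o o) o
  have i2 := wsum H q0 a1.le a2 (K := 64 * (φ * a ^ G.dist o o₀)) (by positivity) o
    (F := fun _ => 64 * ∫ ω, M o ω ∂PO V) (fun u => by
      have := one_le_pow₀ (n := G.dist u o) a1.le
      have f5 : 0 ≤ φ * a ^ G.dist o o₀ := by positivity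
      nlinarith [hφ o]) (bl G m o o) o
  rw [SimpleGraph.dist_self, pow_zero, ← hg] at i2
  rw [← hg] at i1
  have : 0 ≤ 64 * g * ((1 / a) ^ ρ * a ^ G.dist o o₀) := by positivity
  nlinarith

end

end Crest.Agent.H0241
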