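import Crest.Agent.H0241.Fix

set_option autoImplicit false
set_option linter.unusedSectionVars false
open Finset Filter MeasureTheory

namespace Crest.Agent.H0241

noncomputable section
open Classical

variable {V : Type*} {G : SimpleGraph V} [G.LocallyFinite]

structure Fld (G : SimpleGraph V) (d : ℕ) (θ : ℝ) (B : Om V → V → V → ℝ) : Prop where
  h0 : 0 ≤ θ
  h1 : ((d : ℝ) - 1) * θ ^ 2 < 1
  ms : ∀ a b, Ed G a b → Measurable fun ω => B ω a b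
  bd : ∀ ω a b, Ed G a b → |B ω a b| ≤ 1
  eqv : Eqv G B
  ok : ∀ᵐ ω ∂PO V, EdgeOK G θ (B ω)

def gamI (G : SimpleGraph V) [G.LocallyFinite] (θ θ' : ℝ) (B B' : V → V → ℝ) (w v : V) : ℝ :=
  DI G (fun a b => rr θ (B a b) * rr θ' (B' a b)) (fun _ => 1) w v

def jI (G : SimpleGraph V) [G.LocallyFinite] (θ' : ℝ) (B B' : V → V → ℝ) (w v : V) : ℝ :=
  DI G (fun a b => rr θ' (B' a b) ^ 2) (fun u => (B u u - B' u u) ^ 2) w v

def KI (G : SimpleGraph V) [G.LocallyFinite] (θ θ' : ℝ) (B B' : V → V → ℝ) (o : V) : ℝ :=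
  8 * ((1 - B o o ^ 2) ^ 2 * chiI G θ B o o + (1 - B' o o ^ 2) ^ 2 * chiI G θ' B' o o -
    2 * ((1 - B o o ^ 2) * (1 - B' o o ^ 2)) * gamI G θ θ' B B' o o) +
    32 * ((1 - B' o o ^ 2) ^ 2 * jI G θ' B B' o o)

lemma bd_rr11 {θ θ' : ℝ} (h0 : 0 ≤ θ) (h1 : θ < 1) (h0' : 0 ≤ θ') (h1' : θ' < 1) {B B' : V → V → ℝ}
    (h : ∀ a b, Ed G a b → |B a b| ≤ 1) (h' : ∀ a b, Ed G a b → |B' a b| ≤ 1) :
    Bd G (fun a b => rr θ (B a b) * rr θ' (B' a b)) (θ * θ') := fun a b c =>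
  have p := Sys.rr_bd h0 h1 (h a b (Or.inl c))
  have q := Sys.rr_bd h0' h1' (h' a b (Or.inl c))
  ⟨mul_nonneg p.1 q.1, mul_le_mul p.2 q.2 q.1 h0⟩

lemma sq_diff_le {a b : ℝ} (ha : |a| ≤ 1) (hb : |b| ≤ 1) : |(a - b) ^ 2| ≤ 4 := by
  rw [abs_of_nonneg (sq_nonneg _)]; nlinarith [abs_le.1 ha, abs_le.1 hb]

lemma cmp_pt {Γ J r r' x x' y y' z z' m m' : ℝ} (c1 : z' ≤ x' + y') (c2 : z = y + r ^ 2 * x)
    (c3 : z' = y' + r' ^ 2 * x') (r0 : 0 ≤ r) (r1 : r ≤ 1) (r0' : 0 ≤ r') (r1' : r' ≤ 1)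
    (m1 : |m| ≤ 1) (m2 : |m'| ≤ 1) (c5 : 0 ≤ x') (c6 : 0 ≤ y') :
    8 * ((1 - m ^ 2) ^ 2 * z + (1 - m' ^ 2) ^ 2 * z' - 2 * ((1 - m ^ 2) * (1 - m' ^ 2)) * Γ) + 32 * J ≤
      8 * ((1 - m ^ 2) * (1 - m' ^ 2) * (z + z' - 2 * Γ)) + 32 * J +
        32 * ((1 + x' + y') * (m - m') ^ 2) + 8 * (y - y') ^ 2 + 16 * (x - x') ^ 2 +
        64 * ((x ^ 2 + x' ^ 2 + y ^ 2 + y' ^ 2) * (r - r') ^ 2) := by
  have p1 : (m' ^ 2 - m ^ 2) ^ 2 ≤ 4 * (m - m') ^ 2 := by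
    have : (m + m') ^ 2 ≤ 4 := by nlinarith [abs_le.1 m1, abs_le.1 m2]
    nlinarith [mul_le_mul_of_nonneg_right this (sq_nonneg (m - m'))]
  have p2 : ((1 - m ^ 2) * (z - z')) ^ 2 ≤ (z - z') ^ 2 := by
    rw [mul_pow]
    exact mul_le_of_le_one_left (sq_nonneg _) (by nlinarith [sq_le_one_of m1, sq_nonneg m])
  have p3 : (r ^ 2 * (x - x')) ^ 2 ≤ (x - x') ^ 2 := by
    rw [mul_pow]
    exact mul_le_of_le_one_left (sq_nonneg _) (pow_le_one₀ (sq_nonneg _) (pow_le_one₀ r0 r1))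
  have p4 : (x' * (r ^ 2 - r' ^ 2)) ^ 2 ≤
      4 * ((x ^ 2 + x' ^ 2 + y ^ 2 + y' ^ 2) * (r - r') ^ 2) := by
    rw [sq_sub_sq, mul_pow, mul_pow, mul_left_comm]
    gcongr
    · nlinarith
    · nlinarith [sq_nonneg x, sq_nonneg y, sq_nonneg y']
  have p5 : (z - z') ^ 2 ≤ 2 * (y - y') ^ 2 + 4 * (r ^ 2 * (x - x')) ^ 2 +
      4 * (x' * (r ^ 2 - r' ^ 2)) ^ 2 := by
    rw [show z - z' = (y - y') + (r ^ 2 * (x - x') + x' * (r ^ 2 - r' ^ 2)) by rw [c2, c3]; ring]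
    linear_combination sq_nonneg ((y - y') - (r ^ 2 * (x - x') + x' * (r ^ 2 - r' ^ 2))) +
      2 * sq_nonneg (r ^ 2 * (x - x') - x' * (r ^ 2 - r' ^ 2))
  have p6 := mul_le_mul c1 p1 (sq_nonneg _) (by linarith)
  have p7 := sq_nonneg ((m' ^ 2 - m ^ 2) - (1 - m ^ 2) * (z - z'))
  linear_combination 4 * p7 + 4 * p1 + 4 * p2 + 4 * p5 + 16 * p3 + 16 * p4 + 8 * p6 +
    16 * sq_nonneg (m - m')

variable {d : ℕ} (H : TR G d)
include H

lemma fld_Bl {θ : ℝ} (h0 : 0 ≤ θ) (h : ((d : ℝ) - 1) * θ ^ 2 < 1) (N : ℕ) (τ : ℝ) :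
    Fld G d θ (Bl G θ N τ) :=
  ⟨h0, h, fun _ _ e => (bm_Bl H h0 h N τ e).1, fun ω _ _ => abs_Bl H h0 h N τ ω,
    fun g ω a b => Bl_aut g θ N τ ω a b, ae_edgeOK H h0 h N τ⟩

lemma sub_mul_lt {θ θ' : ℝ} (h : ((d : ℝ) - 1) * θ ^ 2 < 1) (h' : ((d : ℝ) - 1) * θ' ^ 2 < 1) :
    ((d : ℝ) - 1) * (θ * θ') < 1 := by
  have hd : (3 : ℝ) ≤ d := by exact_mod_cast H.hd
  nlinarith [mul_nonneg (by linarith : 0 ≤ (d : ℝ) - 1) (sq_nonneg (θ - θ'))]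

namespace Fld
variable {θ θ' : ℝ} {B B' : Om V → V → V → ℝ} (F : Fld G d θ B)
include F

lemma hh : θ ^ 2 ≤ 1 / 2 := H.half F.h1.le

lemma l1 : θ < 1 := lt_one_of_sq (F.hh H)

omit H in
lemma bm {a b : V} (e : Ed G a b) : BM fun ω => B ω a b := ⟨F.ms a b e, 1, fun ω => F.bd ω a b e⟩

lemma bmr {a b : V} (e : G.Adj a b) : BM fun ω => rr θ (B ω a b) :=
  Sys.bm_rr F.h0 (F.l1 H) (F.ms a b (Or.inl e)) fun ω => F.bd ω a b (Or.inl e)

lemma rbd (ω : Om V) {a b : V} (e : G.Adj a b) : 0 ≤ rr θ (B ω a b) ∧ rr θ (B ω a b) ≤ 1 :=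
  have p := Sys.rr_bd F.h0 (F.l1 H) (F.bd ω a b (Or.inl e))
  ⟨p.1, p.2.trans (F.l1 H).le⟩

lemma bd2 (ω : Om V) : Bd G (fun a b => rr θ (B ω a b) ^ 2) (θ ^ 2) := bd_rr2 F.h0 (F.l1 H) (F.bd ω)

lemma bmchi {a b : V} (e : Ed G a b) : BM fun ω => chiI G θ (B ω) a b :=
  bm_DI H (sq_nonneg θ) F.h1 (F.bd2 H) (C := 1) (fun _ _ => by simp)
    (fun _ _ c => (F.bmr H c).1.pow_const 2) (fun _ => measurable_const) e

lemma chi_rec (ω : Om V) {w v : V} (e : Ed G w v) :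
    chiI G θ (B ω) w v = 1 + ∑ z ∈ ch G w v, rr θ (B ω z w) ^ 2 * chiI G θ (B ω) z w :=
  DI_rec H (sq_nonneg θ) F.h1 (F.bd2 H ω) (C := 1) (fun _ => by simp) e

lemma chi0 (ω : Om V) {w v : V} (e : Ed G w v) : 0 ≤ chiI G θ (B ω) w v :=
  DI_nonneg H (sq_nonneg θ) F.h1 (F.bd2 H ω) (C := 1) (fun _ => by simp) (fun _ => zero_le_one) e

omit H in
lemma echi : Eqv G fun ω => chiI G θ (B ω) := fun g ω a b => by
  simp only [chiI, DI_aut, F.eqv g]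

lemma chi_root (ω : Om V) {o w : V} (e : G.Adj o w) : chiI G θ (B ω) o o =
    chiI G θ (B ω) o w + rr θ (B ω w o) ^ 2 * chiI G θ (B ω) w o := by
  rw [F.chi_rec H ω (ed_root o), F.chi_rec H ω (Or.inl e), ch_root_eq e, sum_insert (not_mem_ch _ _)]
  ring

variable (F' : Fld G d θ' B')
include F'

lemma bd11 (ω : Om V) : Bd G (fun a b => rr θ (B ω a b) * rr θ' (B' ω a b)) (θ * θ') :=
  bd_rr11 F.h0 (F.l1 H) F'.h0 (F'.l1 H) (F.bd ω) (F'.bd ω)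

lemma bmgam {a b : V} (e : Ed G a b) : BM fun ω => gamI G θ θ' (B ω) (B' ω) a b :=
  bm_DI H (mul_nonneg F.h0 F'.h0) (sub_mul_lt H F.h1 F'.h1) (F.bd11 H F') (C := 1)
    (fun _ _ => by simp) (fun _ _ c => (F.bmr H c).1.mul (F'.bmr H c).1)
    (fun _ => measurable_const) e

lemma gam_rec (ω : Om V) {w v : V} (e : Ed G w v) : gamI G θ θ' (B ω) (B' ω) w v =
    1 + ∑ z ∈ ch G w v, rr θ (B ω z w) * rr θ' (B' ω z w) * gamI G θ θ' (B ω) (B' ω) z w :=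
  DI_rec H (mul_nonneg F.h0 F'.h0) (sub_mul_lt H F.h1 F'.h1) (F.bd11 H F' ω) (C := 1)
    (fun _ => by simp) e

lemma gam_bd (ω : Om V) {w v : V} (e : Ed G w v) : 0 ≤ gamI G θ θ' (B ω) (B' ω) w v ∧
    2 * gamI G θ θ' (B ω) (B' ω) w v ≤ chiI G θ (B ω) w v + chiI G θ' (B' ω) w v :=
  ⟨DI_nonneg H (mul_nonneg F.h0 F'.h0) (sub_mul_lt H F.h1 F'.h1) (F.bd11 H F' ω) (C := 1)
    (fun _ => by simp) (fun _ => zero_le_one) e, le_of_tendsto_of_tendsto'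
    ((DI_lim H (mul_nonneg F.h0 F'.h0) (sub_mul_lt H F.h1 F'.h1) (F.bd11 H F' ω) (C := 1)
      (fun _ => by simp) e).const_mul 2)
    ((DI_lim H (sq_nonneg θ) F.h1 (F.bd2 H ω) (C := 1) (fun _ => by simp) e).add
      (DI_lim H (sq_nonneg θ') F'.h1 (F'.bd2 H ω) (C := 1) (fun _ => by simp) e))
    fun m => by simpa using DS_cs (fun a b => rr θ (B ω a b)) (fun a b => rr θ' (B' ω a b)) m w v 1 1⟩

lemma bmM (u : V) : BM fun ω => (B ω u u - B' ω u u) ^ 2 :=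
  ((F.bm (ed_root u)).sub (F'.bm (ed_root u))).pow 2

lemma bmj {a b : V} (e : Ed G a b) : BM fun ω => jI G θ' (B ω) (B' ω) a b :=
  bm_DI H (sq_nonneg θ') F'.h1 (F'.bd2 H) (C := 4)
    (fun ω u => sq_diff_le (F.bd ω u u (ed_root u)) (F'.bd ω u u (ed_root u)))
    (fun _ _ c => (F'.bmr H c).1.pow_const 2) (fun u => (F.bmM H F' u).1) e

lemma j_term (o : V) : ∫ ω, (1 - B' ω o o ^ 2) ^ 2 * jI G θ' (B ω) (B' ω) o o ∂PO V ≤
    ∫ ω, chiI G θ' (B' ω) o o * (B ω o o - B' ω o o) ^ 2 ∂PO V := by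
  have bα := fun a => ((BM.const 1).sub ((F'.bm (ed_root a)).pow 2)).pow 2
  rw [mass H (ρ := fun ω a b => rr θ' (B' ω a b) ^ 2) (F := fun ω => jI G θ' (B ω) (B' ω))
    (f := fun ω a _ => (B ω a a - B' ω a a) ^ 2) (Γ := fun ω => chiI G θ' (B' ω))
    (α := fun ω a => (1 - B' ω a a ^ 2) ^ 2) (fun g ω a b => by simp only [F'.eqv g])
    (fun g ω a b => by simp only [jI, DI_aut, F.eqv g, F'.eqv g]) F'.echi
    (fun g ω a b => by simp only [F'.eqv g]) (fun a b c => (F'.bmr H c).pow 2)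
    (fun a b c => F.bmj H F' c) (fun a b _ => F.bmM H F' a) (fun a b c => F'.bmchi H (Or.inl c)) bα
    (fun ω w v e => DI_rec H (sq_nonneg θ') F'.h1 (F'.bd2 H ω)
      (fun u => sq_diff_le (F.bd ω u u (ed_root u)) (F'.bd ω u u (ed_root u))) e)
    (fun ω w v e => F'.chi_rec H ω (Or.inl e)) (by
      filter_upwards [F'.ok] with ω hω w v e
      rw [← mul_pow, ← mul_pow, hω.rev F'.h0 (F'.hh H) e]) o]
  have e : ∀ ω, (B ω o o - B' ω o o) ^ 2 + ∑ z ∈ ch G o o,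
      rr θ' (B' ω z o) ^ 2 * chiI G θ' (B' ω) z o * (B ω o o - B' ω o o) ^ 2 =
      chiI G θ' (B' ω) o o * (B ω o o - B' ω o o) ^ 2 := fun ω => by
    rw [← sum_mul, F'.chi_rec H ω (ed_root o)]; ring
  simp only [e]
  have b := (F'.bmchi H (ed_root o)).mul (F.bmM H F' o)
  refine ((bα o).mul b).mono b _ fun ω => mul_le_of_le_one_left
    (mul_nonneg (F'.chi0 H ω (ed_root o)) (sq_nonneg _)) ?_
  nlinarith [sq_le_one_of (F'.bd ω o o (ed_root o)), sq_nonneg (B' ω o o)]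

/-- the weight of the edge terms -/
def WW (G : SimpleGraph V) [G.LocallyFinite] (θ θ' : ℝ) (B B' : V → V → ℝ) (w v : V) : ℝ :=
  (chiI G θ B w v ^ 2 + chiI G θ' B' w v ^ 2 + chiI G θ B v w ^ 2 + chiI G θ' B' v w ^ 2) *
    (rr θ (B w v) - rr θ' (B' w v)) ^ 2

lemma bmW {a b : V} (e : G.Adj a b) : BM fun ω => WW G θ θ' (B ω) (B' ω) a b :=
  (((((F.bmchi H (Or.inl e)).pow 2).add ((F'.bmchi H (Or.inl e)).pow 2)).add
    ((F.bmchi H (Or.inl e.symm)).pow 2)).add ((F'.bmchi H (Or.inl e.symm)).pow 2)).mul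
    (((F.bmr H e).sub (F'.bmr H e)).pow 2)

lemma bmD {a b : V} (e : Ed G a b) : BM fun ω => chiI G θ (B ω) a b - chiI G θ' (B' ω) a b :=
  (F.bmchi H e).sub (F'.bmchi H e)

lemma d_term {w o : V} (e : G.Adj w o) : ∫ ω, (1 - B ω o o ^ 2) * (1 - B' ω o o ^ 2) *
    (chiI G θ (B ω) o o + chiI G θ' (B' ω) o o - 2 * gamI G θ θ' (B ω) (B' ω) o o) ∂PO V ≤
    d * (∫ ω, WW G θ θ' (B ω) (B' ω) w o ∂PO V +
      1 / 2 * ∫ ω, (chiI G θ (B ω) w o - chiI G θ' (B' ω) w o) ^ 2 ∂PO V) := by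
  have bα := fun a => ((BM.const 1).sub ((F.bm (ed_root a)).pow 2)).mul
    ((BM.const 1).sub ((F'.bm (ed_root a)).pow 2))
  set s : Om V → V → V → ℝ := fun ω z w => (rr θ (B ω z w) - rr θ' (B' ω z w)) *
    (rr θ (B ω z w) * chiI G θ (B ω) z w - rr θ' (B' ω z w) * chiI G θ' (B' ω) z w) with hs
  have bs : ∀ a b, G.Adj a b → BM fun ω => s ω a b := fun a b c =>
    ((F.bmr H c).sub (F'.bmr H c)).mul (((F.bmr H c).mul (F.bmchi H (Or.inl c))).sub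
      ((F'.bmr H c).mul (F'.bmchi H (Or.inl c))))
  have eΓ : Eqv G fun ω => gamI G θ θ' (B ω) (B' ω) := fun g ω a b => by
    simp only [gamI, DI_aut, F.eqv g, F'.eqv g]
  rw [mass H (ρ := fun ω a b => rr θ (B ω a b) * rr θ' (B' ω a b))
    (F := fun ω a b => chiI G θ (B ω) a b + chiI G θ' (B' ω) a b - 2 * gamI G θ θ' (B ω) (B' ω) a b)
    (f := fun ω a b => ∑ z ∈ ch G a b, s ω z a) (Γ := fun ω => gamI G θ θ' (B ω) (B' ω))
    (α := fun ω a => (1 - B ω a a ^ 2) * (1 - B' ω a a ^ 2))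
    (fun g ω a b => by simp only [F.eqv g, F'.eqv g])
    (fun g ω a b => by simp only [F.echi g ω, F'.echi g ω, eΓ g ω]) eΓ
    (fun g ω a b => by simp only [F.eqv g, F'.eqv g]) (fun a b c => (F.bmr H c).mul (F'.bmr H c))
    (fun a b c => ((F.bmchi H c).add (F'.bmchi H c)).sub ((F.bmgam H F' c).cmul 2))
    (fun a b _ => BM.sum _ fun z hz => bs _ _ (ch_adj hz)) (fun a b c => F.bmgam H F' (Or.inl c)) bα
    (fun ω w v e => by
      rw [F.chi_rec H ω e, F'.chi_rec H ω e, F.gam_rec H F' ω e, ← sum_add_distrib, mul_add, mul_sum,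
        show ∀ a b c : ℝ, 1 + a + (1 + b) - (2 * 1 + c) = a + b - c from fun _ _ _ => by ring,
        ← sum_add_distrib, ← sum_sub_distrib]
      exact sum_congr rfl fun z _ => by simp only [hs]; ring)
    (fun ω w v e => F.gam_rec H F' ω (Or.inl e)) (by
      filter_upwards [F.ok, F'.ok] with ω hω hω' w v e
      rw [mul_mul_mul_comm, hω.rev F.h0 (F.hh H) e, hω'.rev F'.h0 (F'.hh H) e, mul_mul_mul_comm]) o]
  have bT : ∀ a b, G.Adj a b → BM fun ω => WW G θ θ' (B ω) (B' ω) a b +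
      1 / 2 * (chiI G θ (B ω) a b - chiI G θ' (B' ω) a b) ^ 2 := fun a b c =>
    (F.bmW H F' c).add (((F.bmD H F' (Or.inl c)).pow 2).cmul _)
  have := int_sum_tr H (fun g ω a b => by
    simp only [WW, F.echi g ω, F'.echi g ω, F.eqv g, F'.eqv g]) bT e o o
  rw [card_ch_root H.reg, (F.bmW H F' e).int_add (((F.bmD H F' (Or.inl e)).pow 2).cmul _),
    integral_const_mul] at this
  rw [← this]
  refine ((bα o).mul ((BM.sum _ fun z hz => bs _ _ (ch_adj hz)).add (BM.sum _ fun z hz =>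
    (((F.bmr H (ch_adj hz)).mul (F'.bmr H (ch_adj hz))).mul (F.bmgam H F' (ch_ed hz))).mul
      (BM.sum _ fun y hy => bs _ _ (ch_adj hy))))).mono (BM.sum _ fun z hz => bT _ _ (ch_adj hz)) _
    fun ω => ?_
  simp only [mul_sum (ch G o _)]
  rw [dsum_comm, ← sum_add_distrib, mul_sum]
  refine sum_le_sum fun z hz => ?_
  have a := ch_adj hz
  rw [← sum_mul, ← one_add_mul, ← F.gam_rec H F' ω (Or.inl a.symm)]
  obtain ⟨g0, g1⟩ := F.gam_bd H F' ω (Or.inl a.symm)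
  obtain ⟨r0, r1⟩ := F.rbd H ω a
  have α0 : 0 ≤ (1 - B ω o o ^ 2) * (1 - B' ω o o ^ 2) ∧ (1 - B ω o o ^ 2) * (1 - B' ω o o ^ 2) ≤ 1 := by
    have := sq_le_one_of (F.bd ω o o (ed_root o))
    have := sq_le_one_of (F'.bd ω o o (ed_root o))
    exact ⟨mul_nonneg (by linarith) (by linarith), mul_le_one₀ (by linarith [sq_nonneg (B ω o o)])
      (by linarith) (by linarith [sq_nonneg (B' ω o o)])⟩
  simp only [hs, WW]
  generalize (1 - B ω o o ^ 2) * (1 - B' ω o o ^ 2) = α at *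
  generalize gamI G θ θ' (B ω) (B' ω) o z = Γ at *
  generalize rr θ (B ω z o) = r at *
  generalize rr θ' (B' ω z o) = r' at *
  generalize chiI G θ (B ω) z o = x at *
  generalize chiI G θ' (B' ω) z o = x' at *
  generalize chiI G θ (B ω) o z = y at *
  generalize chiI G θ' (B' ω) o z = y' at *
  have p : Γ * ((r - r') * (r * x - r' * x')) ≤
      (x ^ 2 + x' ^ 2 + y ^ 2 + y' ^ 2) * (r - r') ^ 2 + 1 / 2 * (x - x') ^ 2 := by
    have q1 : Γ ^ 2 ≤ y ^ 2 + y' ^ 2 := by nlinarith [sq_nonneg (y - y')]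
    have q2 : (r * (x - x')) ^ 2 ≤ (x - x') ^ 2 := by
      rw [mul_pow]; exact mul_le_of_le_one_left (sq_nonneg _) (by nlinarith)
    nlinarith [sq_nonneg (Γ * (r - r') - r * (x - x')), sq_nonneg ((Γ - x') * (r - r')),
      mul_le_mul_of_nonneg_right q1 (sq_nonneg (r - r')), sq_nonneg (x * (r - r')),
      sq_nonneg (x' * (r - r'))]
  refine (mul_le_mul_of_nonneg_left p α0.1).trans (mul_le_of_le_one_left (by positivity) α0.2)

lemma fix_both {w o : V} (e : G.Adj w o) :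
    (∫ ω, (chiI G θ (B ω) w o - chiI G θ' (B' ω) w o) ^ 2 ∂PO V ≤
      2 * (∫ ω, chiI G θ (B ω) w o ∂PO V - ∫ ω, chiI G θ' (B' ω) w o ∂PO V) ^ 2 +
      24 * (546 + 108 * ((d : ℝ) - 1) ^ 2) ^ 2 * ((d : ℝ) - 1) ^ 2 *
        ∫ ω, chiI G θ' (B' ω) w o ^ 2 * (rr θ (B ω w o) - rr θ' (B' ω w o)) ^ 2 ∂PO V) ∧
    ∀ κ, 0 < κ → κ ≤ 1 → κ ≤ ∫ ω, (1 - (((d : ℝ) - 1) * rr θ (B ω w o) ^ 2) ^ 2) ∂PO V →
      κ ^ 2 * (∫ ω, chiI G θ (B ω) w o ∂PO V - ∫ ω, chiI G θ' (B' ω) w o ∂PO V) ^ 2 ≤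
      80 * (546 + 108 * ((d : ℝ) - 1) ^ 2) ^ 2 * ((d : ℝ) - 1) ^ 2 *
        ∫ ω, chiI G θ' (B' ω) w o ^ 2 * (rr θ (B ω w o) - rr θ' (B' ω w o)) ^ 2 ∂PO V := by
  have hd : (3 : ℝ) ≤ d := by exact_mod_cast H.hd
  have eD : Eqv G fun ω a b => chiI G θ (B ω) a b - chiI G θ' (B' ω) a b := fun g ω a b => by
    simp only [F.echi g ω, F'.echi g ω]
  have ex : Eqv G fun ω a b => rr θ (B ω a b) ^ 2 := fun g ω a b => by simp only [F.eqv g]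
  have es : Eqv G fun ω a b => chiI G θ' (B' ω) a b * (rr θ (B ω a b) ^ 2 - rr θ' (B' ω a b) ^ 2) :=
    fun g ω a b => by simp only [F'.echi g ω, F.eqv g, F'.eqv g]
  have bs : ∀ a b, G.Adj a b →
      BM fun ω => chiI G θ' (B' ω) a b * (rr θ (B ω a b) ^ 2 - rr θ' (B' ω a b) ^ 2) := fun a b c =>
    (F'.bmchi H (Or.inl c)).mul (((F.bmr H c).pow 2).sub ((F'.bmr H c).pow 2))
  have hD : ∀ ω v w, G.Adj v w → chiI G θ (B ω) v w - chiI G θ' (B' ω) v w = ∑ z ∈ ch G v w,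
      (rr θ (B ω z v) ^ 2 * (chiI G θ (B ω) z v - chiI G θ' (B' ω) z v) +
        chiI G θ' (B' ω) z v * (rr θ (B ω z v) ^ 2 - rr θ' (B' ω z v) ^ 2)) := fun ω v w c => by
    rw [F.chi_rec H ω (Or.inl c), F'.chi_rec H ω (Or.inl c), add_sub_add_left_eq_sub,
      ← sum_sub_distrib]
    exact sum_congr rfl fun z _ => by ring
  have hx : ∀ ω a b, G.Adj a b → 0 ≤ rr θ (B ω a b) ^ 2 ∧ ((d : ℝ) - 1) * rr θ (B ω a b) ^ 2 ≤ 1 :=
    fun ω a b c => ⟨sq_nonneg _,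
      (mul_le_mul_of_nonneg_left (F.bd2 H ω a b c).2 (by linarith)).trans F.h1.le⟩
  have a1 := gapfix₁ H eD ex es (fun a b c => F.bmD H F' (Or.inl c))
    (fun a b c => (F.bmr H c).pow 2) bs (fun _ _ _ => rfl) hD hx e
  have a2 := fun κ => gapfix₂ H eD ex es (fun a b c => F.bmD H F' (Or.inl c))
    (fun a b c => (F.bmr H c).pow 2) bs (fun _ _ _ => rfl) hD hx e (κ := κ)
  rw [(F.bmchi H (Or.inl e)).int_sub (F'.bmchi H (Or.inl e))] at a1 a2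
  have a3 := ((bs w o e).pow 2).mono ((((F'.bmchi H (Or.inl e)).pow 2).mul
    (((F.bmr H e).sub (F'.bmr H e)).pow 2)).cmul 4) (PO V) fun ω => by
      obtain ⟨r0, r1⟩ := F.rbd H ω e
      obtain ⟨r0', r1'⟩ := F'.rbd H ω e
      rw [mul_pow, mul_left_comm, sq_sub_sq, mul_pow]
      gcongr
      nlinarith
  rw [integral_const_mul] at a3
  have a4 := mul_le_mul_of_nonneg_left a3
    (by positivity : 0 ≤ (546 + 108 * ((d : ℝ) - 1) ^ 2) ^ 2 * ((d : ℝ) - 1) ^ 2)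
  exact ⟨by linarith, fun κ a b c => by linarith [a2 κ a b c]⟩

lemma bmK (o : V) : BM fun ω => KI G θ θ' (B ω) (B' ω) o :=
  have b := (BM.const 1).sub ((F.bm (ed_root o)).pow 2)
  have b' := (BM.const 1).sub ((F'.bm (ed_root o)).pow 2)
  (((((b.pow 2).mul (F.bmchi H (ed_root o))).add ((b'.pow 2).mul (F'.bmchi H (ed_root o)))).sub
    (((b.mul b').cmul 2).mul (F.bmgam H F' (ed_root o)))).cmul 8).add
    (((b'.pow 2).mul (F.bmj H F' (ed_root o))).cmul 32)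

omit F F' in
lemma cmp : ∃ C, 0 ≤ C ∧ ∀ {θ θ' : ℝ} {B B' : Om V → V → V → ℝ}, Fld G d θ B → Fld G d θ' B' →
    ∀ {w o : V}, G.Adj w o → ∫ ω, KI G θ θ' (B ω) (B' ω) o ∂PO V ≤
      C * (∫ ω, WW G θ θ' (B ω) (B' ω) w o ∂PO V +
        ∫ ω, (1 + chiI G θ' (B' ω) w o + chiI G θ' (B' ω) o w) * (B ω o o - B' ω o o) ^ 2 ∂PO V +
        (∫ ω, chiI G θ (B ω) w o ∂PO V - ∫ ω, chiI G θ' (B' ω) w o ∂PO V) ^ 2) := by
  obtain ⟨c, hc⟩ : ∃ c, c = 24 * (546 + 108 * ((d : ℝ) - 1) ^ 2) ^ 2 * ((d : ℝ) - 1) ^ 2 := ⟨_, rfl⟩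
  have c0 : 0 ≤ c := by rw [hc]; positivity
  refine ⟨8 * d + 64 + (4 * d + 24) * (c + 2), by positivity, fun {θ θ' B B'} F F' w o e => ?_⟩
  have a1 := F.j_term H F' o
  have a2 := F.d_term H F' e
  have a3 := (F.fix_both H F' e).1
  rw [← hc] at a3
  have b := (BM.const 1).sub ((F.bm (ed_root o)).pow 2)
  have b' := (BM.const 1).sub ((F'.bm (ed_root o)).pow 2)
  have bW := F.bmW H F' e
  have bQ := (((BM.const 1).add (F'.bmchi H (Or.inl e))).add (F'.bmchi H (Or.inl e.symm))).mul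
    (F.bmM H F' o)
  have bD := (F.bmD H F' (Or.inl e)).pow 2
  have bD' := (F.bmD H F' (Or.inl e.symm)).pow 2
  have a4 := int_tr H (F := fun ω a b => (chiI G θ (B ω) a b - chiI G θ' (B' ω) a b) ^ 2)
    (fun g ω a b => by simp only [F.echi g ω, F'.echi g ω]) e e.symm bD
  have a5 := (((F'.bmchi H (Or.inl e)).pow 2).mul (((F.bmr H e).sub (F'.bmr H e)).pow 2)).mono bW
    (PO V) fun ω => mul_le_mul_of_nonneg_right (by
      linarith [sq_nonneg (chiI G θ (B ω) w o), sq_nonneg (chiI G θ (B ω) o w),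
        sq_nonneg (chiI G θ' (B' ω) o w)]) (sq_nonneg _)
  have hχ : ∀ ω, chiI G θ' (B' ω) o o ≤ chiI G θ' (B' ω) w o + chiI G θ' (B' ω) o w := fun ω => by
    have r := F'.rbd H ω e
    have := mul_le_of_le_one_left (F'.chi0 H ω (Or.inl e)) (by nlinarith : rr θ' (B' ω w o) ^ 2 ≤ 1)
    linarith [F'.chi_root H ω e.symm]
  have a6 := ((F'.bmchi H (ed_root o)).mul (F.bmM H F' o)).mono bQ (PO V) fun ω =>
    mul_le_mul_of_nonneg_right (by linarith [hχ ω]) (sq_nonneg _)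
  have b1 := (b.mul b').mul (((F.bmchi H (ed_root o)).add (F'.bmchi H (ed_root o))).sub
    ((F.bmgam H F' (ed_root o)).cmul 2))
  have b2 := (b'.pow 2).mul (F.bmj H F' (ed_root o))
  have a7 := (F.bmK H F' o).mono ((((((b1.cmul 8).add (b2.cmul 32)).add (bQ.cmul 32)).add
    (bD'.cmul 8)).add (bD.cmul 16)).add (bW.cmul 64)) (PO V) fun ω => by
      exact cmp_pt (hχ ω) (F.chi_root H ω e.symm) (F'.chi_root H ω e.symm) (F.rbd H ω e).1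
        (F.rbd H ω e).2 (F'.rbd H ω e).1 (F'.rbd H ω e).2 (F.bd ω o o (ed_root o))
        (F'.bd ω o o (ed_root o)) (F'.chi0 H ω (Or.inl e)) (F'.chi0 H ω (Or.inl e.symm))
  rw [BM.int_add (((((b1.cmul 8).add (b2.cmul 32)).add (bQ.cmul 32)).add (bD'.cmul 8)).add
      (bD.cmul 16)) (bW.cmul 64), BM.int_add ((((b1.cmul 8).add (b2.cmul 32)).add (bQ.cmul 32)).add
      (bD'.cmul 8)) (bD.cmul 16), BM.int_add (((b1.cmul 8).add (b2.cmul 32)).add (bQ.cmul 32))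
      (bD'.cmul 8), BM.int_add ((b1.cmul 8).add (b2.cmul 32)) (bQ.cmul 32),
    BM.int_add (b1.cmul 8) (b2.cmul 32)] at a7
  simp only [integral_const_mul, a4] at a7
  have W0 : 0 ≤ ∫ ω, WW G θ θ' (B ω) (B' ω) w o ∂PO V :=
    integral_nonneg fun ω => by unfold WW; positivity
  have Q0 : 0 ≤ ∫ ω, (1 + chiI G θ' (B' ω) w o + chiI G θ' (B' ω) o w) *
      (B ω o o - B' ω o o) ^ 2 ∂PO V := integral_nonneg fun ω => by
    have := F'.chi0 H ω (Or.inl e); have := F'.chi0 H ω (Or.inl e.symm); positivity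
  have a8 := mul_le_mul_of_nonneg_left (a3.trans (add_le_add_right
    (mul_le_mul_of_nonneg_left a5 c0) _)) (by positivity : (0 : ℝ) ≤ 4 * d + 24)
  have μ0 := sq_nonneg (∫ ω, chiI G θ (B ω) w o ∂PO V - ∫ ω, chiI G θ' (B' ω) w o ∂PO V)
  have d0 : (0 : ℝ) ≤ d := Nat.cast_nonneg d
  linear_combination a7 + 8 * a2 + 32 * a1 + 32 * a6 + a8 + (2 * (4 * d + 24)) * W0 +
    (8 * d + (4 * d + 24) * (c + 2)) * Q0 + (8 * d + 64 + (4 * d + 24) * c) * μ0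

end Fld

end

end Crest.Agent.H0241
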