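import Crest.Agent.H0241.Part

set_option autoImplicit false
set_option linter.unusedSectionVars false
open Finset Filter MeasureTheory

namespace Crest.Agent.H0241

noncomputable section
open Classical

def ar (b : ℝ) : ℝ := (Real.log (1 + b) - Real.log (1 - b)) / 2

lemma ar_sum {x : ℝ} (h : |x| < 1) :
    HasSum (fun k : ℕ => (1 / (2 * k + 1) : ℝ) * x ^ (2 * k + 1)) (ar x) := by
  simpa [ar, mul_assoc, mul_div_cancel_left₀] using
    (Real.hasSum_log_sub_log_of_abs_lt_one h).div_const 2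

lemma abs_ar {x : ℝ} (h : |x| < 1) : |ar x| = ar |x| := by
  have p : ∀ y : ℝ, 0 ≤ y → |y| < 1 → 0 ≤ ar y := fun y a b =>
    (ar_sum b).nonneg fun k => by positivity
  rcases le_total 0 x with c | c
  · rw [abs_of_nonneg c, abs_of_nonneg (p x c h)]
  · have e : ar (-x) = -ar x := by simp only [ar, sub_neg_eq_add, ← sub_eq_add_neg]; ring
    rw [abs_of_nonpos c, ← abs_neg, ← e, abs_of_nonneg (p _ (by linarith) (by rwa [abs_neg]))]

lemma ar_mul {θ x : ℝ} (h0 : 0 ≤ θ) (h1 : θ ≤ 1) (h : |x| < 1) : |ar (θ * x)| ≤ θ * |ar x| := by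
  have h' : |θ * x| < 1 := by
    rw [abs_mul, abs_of_nonneg h0]; nlinarith [abs_nonneg x]
  rw [abs_ar h', abs_ar h]
  refine hasSum_le (fun k => ?_) (ar_sum (by rwa [abs_abs])) ((ar_sum (by rwa [abs_abs])).mul_left θ)
  rw [abs_mul, abs_of_nonneg h0, mul_pow, pow_succ θ, mul_left_comm]
  exact mul_le_mul_of_nonneg_right (mul_le_of_le_one_left h0 (pow_le_one₀ h0 h1)) (by positivity)

lemma le_ar {x : ℝ} (h : |x| < 1) : |x| ≤ |ar x| := by
  rw [abs_ar h]
  simpa using le_hasSum (ar_sum (x := |x|) (by rwa [abs_abs])) 0 fun k _ => by positivity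

lemma ar_le {x : ℝ} (h : |x| ≤ 3 / 4) : |ar x| ≤ 3 * |x| := by
  rw [abs_ar (by linarith), ar]
  have a := abs_nonneg x
  generalize |x| = y at *
  have b := Real.log_le_sub_one_of_pos (by linarith : 0 < 1 + y)
  have c := Real.one_sub_inv_le_log_of_pos (by linarith : 0 < 1 - y)
  have e : (1 - y)⁻¹ ≤ 1 + 4 * y := by
    rw [inv_le_iff_one_le_mul₀ (by linarith)]; nlinarith
  linarith

lemma cosh_split {x y ρ : ℝ} (h0 : 0 ≤ ρ) (h1 : ρ ≤ 1) (h : |x| ≤ ρ * |y|) :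
    Real.cosh x ≤ 1 + x ^ 2 / 2 + ρ ^ 4 * (Real.cosh y - 1) := by
  have := hasSum_le (fun n => ?_) (Real.hasSum_cosh x) (((hasSum_ite_eq 0 (1 - ρ ^ 4)).add
    (hasSum_ite_eq 1 (x ^ 2 / 2))).add ((Real.hasSum_cosh y).mul_left (ρ ^ 4)))
  · linarith
  rcases n with _ | _ | n
  · simp
  · simp; positivity
  · rw [if_neg (by omega), if_neg (by omega), zero_add, zero_add, ← mul_div_assoc]
    refine div_le_div_of_nonneg_right ?_ (by positivity)
    rw [← (even_two_mul _).pow_abs x, ← (even_two_mul _).pow_abs y]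
    refine (pow_le_pow_left₀ (abs_nonneg _) h _).trans ?_
    rw [mul_pow]
    exact mul_le_mul_of_nonneg_right (pow_le_pow_of_le_one h0 h1 (by omega)) (by positivity)

def hh (L : Bool → ℝ) : ℝ := (Real.log (L true) - Real.log (L false)) / 2

lemma hh_eq {L : Bool → ℝ} (h : ∀ s, 0 < L s) : hh L = ar (mg L) := by
  have a := abs_lt.1 (abs_mg_lt h)
  rw [hh, eq_zz_mg h true, eq_zz_mg h false, sg_true, sg_false,
    Real.log_mul (zz_pos h).ne' (by linarith), Real.log_mul (zz_pos h).ne' (by linarith), ar]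
  ring_nf

variable {ι : Type*}

def FF (L : (ι → unitInterval) → Bool → ℝ) (μ : ℝ) : ℝ :=
  ∫ ω, L ω true * Real.exp (μ * hh (L ω)) ∂PI ι

namespace Part
variable {U A B : Set ι} {L M : (ι → unitInterval) → Bool → ℝ}

lemma bhh (h : Part U A L) : BM fun ω => hh (L ω) := by
  obtain ⟨c, c0, c1⟩ := h.lb
  have : ∀ s, BM fun ω => Real.log (L ω s) := fun s => by
    have := (h.bm s).cont (φ := fun y => Real.log (max y c))
      (Continuous.log (by fun_prop) fun y => (c0.trans_le (le_max_right _ _)).ne')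
    simpa only [max_eq_left (c1 _ _)] using this
  exact ((this true).sub (this false)).div_const 2

lemma bexp (h : Part U A L) (μ : ℝ) : BM fun ω => Real.exp (μ * hh (L ω)) :=
  (h.bhh.cmul μ).cont Real.continuous_exp

lemma bcosh (h : Part U A L) (μ : ℝ) : BM fun ω => Real.cosh (μ * hh (L ω)) :=
  (h.bhh.cmul μ).cont Real.continuous_cosh

lemma FF_nonneg (h : Part U A L) (μ : ℝ) : 0 ≤ FF L μ :=
  integral_nonneg fun ω => mul_nonneg (h.pos ω _).le (Real.exp_pos _).le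

lemma FF_flip (h : Part U A L) (μ : ℝ) :
    ∫ ω, L ω false * Real.exp (-μ * hh (L ω)) ∂PI ι = FF L μ := by
  rw [FF, ← ((h.bm true).mul (h.bexp μ)).int_comp (fl_mp U)]
  congr 1; funext ω
  simp only [hh, h.flip, Bool.not_true, Bool.not_false]
  congr 2; ring

lemma FF_mul (h : Part U A L) (h' : Part U B M) (hd : Disjoint A B) (μ : ℝ) :
    FF (fun ω s => L ω s * M ω s) μ = FF L μ * FF M μ := by
  rw [FF, FF, FF, ← int_indep ((h.bm true).mul (h.bexp μ)) ((h'.bm true).mul (h'.bexp μ))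
    (h.depf fun l => l true * Real.exp (μ * hh l)) (h'.depf fun l => l true * Real.exp (μ * hh l)) hd]
  congr 1; funext ω
  simp only [hh, Real.log_mul (h.pos ω _).ne' (h'.pos ω _).ne']
  rw [mul_mul_mul_comm, ← Real.exp_add]
  congr 2; ring

lemma FF_prod {κ : Type*} (s : Finset κ) {L : κ → (ι → unitInterval) → Bool → ℝ} {A : κ → Set ι}
    (h : ∀ i ∈ s, Part U (A i) (L i)) (hd : ∀ i ∈ s, ∀ j ∈ s, i ≠ j → Disjoint (A i) (A j))
    {μ : ℝ} {x : κ → ℝ} (hx : ∀ i ∈ s, FF (L i) μ ≤ Real.exp (x i)) :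
    FF (fun ω b => ∏ i ∈ s, L i ω b) μ ≤ Real.exp (∑ i ∈ s, x i) :=
  prod_ind (fun t M => FF M μ ≤ Real.exp (∑ i ∈ t, x i)) s h hd (by simp [FF, hh])
    fun i hi t ht B M hM hdis ih => by
      rw [(h i hi).FF_mul hM hdis, sum_insert ht, Real.exp_add]
      exact mul_le_mul (hx i hi) ih (hM.FF_nonneg μ) (Real.exp_pos _).le

lemma FF_le (h : Part U A L) (μ : ℝ) : FF L μ ≤ Ex L fun ω => Real.cosh ((μ + 1) * hh (L ω)) := by
  have b1 := (h.bm true).mul (h.bexp μ)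
  have b2 := (h.bm false).mul (h.bexp (-μ))
  have : FF L μ = ∫ ω, (L ω true * Real.exp (μ * hh (L ω)) +
      L ω false * Real.exp (-μ * hh (L ω))) / 2 ∂PI ι := by
    rw [integral_div, b1.int_add b2, h.FF_flip, FF]; ring
  rw [this]
  refine ((b1.add b2).div_const 2).mono ((h.bcosh _).mul h.bzz) _ fun ω => ?_
  obtain ⟨g, hg⟩ : ∃ g, g = Real.exp ((Real.log (L ω true) + Real.log (L ω false)) / 2) := ⟨_, rfl⟩
  have e1 : L ω true = g * Real.exp (hh (L ω)) := by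
    rw [hg, ← Real.exp_add, hh, ← Real.exp_log (h.pos ω true)]; congr 1; simp; ring
  have e2 : L ω false = g * Real.exp (-hh (L ω)) := by
    rw [hg, ← Real.exp_add, hh, ← Real.exp_log (h.pos ω false)]; congr 1; simp; ring
  have g0 : 0 < g := hg ▸ Real.exp_pos _
  unfold zz
  generalize hh (L ω) = t at *
  rw [e1, e2]
  have a := Real.one_le_cosh t
  have b := Real.cosh_pos ((μ + 1) * t)
  have e3 : (g * Real.exp t * Real.exp (μ * t) + g * Real.exp (-t) * Real.exp (-μ * t)) / 2 =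
      Real.cosh ((μ + 1) * t) * g * 1 := by
    rw [Real.cosh_eq, mul_assoc, mul_assoc, ← Real.exp_add, ← Real.exp_add]; ring_nf
  rw [e3, show Real.cosh ((μ + 1) * t) * ((g * Real.exp t + g * Real.exp (-t)) / 2) =
    Real.cosh ((μ + 1) * t) * g * Real.cosh t by rw [Real.cosh_eq t]; ring]
  gcongr

lemma Ex_cosh (h : Part U A L) (μ : ℝ) :
    Ex L (fun ω => Real.cosh (μ * hh (L ω))) = (FF L μ + FF L (-μ)) / 2 := by
  rw [← h.int_flip (h.bcosh μ) (fun ω => by
    simp only [hh, h.flip, Bool.not_true, Bool.not_false]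
    rw [← Real.cosh_neg]; congr 1; ring) true, FF, FF,
    ← ((h.bm true).mul (h.bexp μ)).int_add ((h.bm true).mul (h.bexp _)), ← integral_div]
  congr 1; funext ω
  rw [Real.cosh_eq]; ring_nf

lemma FF_small (h : Part U A L) {ε μ ν : ℝ} (hε : ε ≤ 3 / 4) (hb : ∀ ω, |mg (L ω)| ≤ ε)
    (hν : |ν| ≤ μ) : FF L ν ≤ Real.exp (9 / 2 * (μ + 1) ^ 2 * ε ^ 2) := by
  refine (h.FF_le ν).trans ((h.Ex_mono (h.bcosh _) (BM.const _) fun ω => ?_).trans (h.Ex_const _).le)
  refine (Real.cosh_le_exp_half_sq _).trans (Real.exp_le_exp.2 ?_)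
  have a : |(ν + 1) * hh (L ω)| ≤ (μ + 1) * (3 * ε) := by
    rw [abs_mul, hh_eq (h.pos ω)]
    exact mul_le_mul ((abs_add_le _ _).trans (by simpa)) ((ar_le ((hb ω).trans hε)).trans
      (by linarith [hb ω])) (abs_nonneg _) (by linarith [abs_nonneg ν])
  have := pow_le_pow_left₀ (abs_nonneg _) a 2
  rw [sq_abs] at this
  linarith

lemma FF_ch (h : Part U A L) {θ μ ν : ℝ} (h0 : 0 ≤ θ) (h1 : θ ^ 2 ≤ 1 / 2) (hμ : 10 ≤ μ)
    (hν : |ν| ≤ μ) (hc : Ex L (fun ω => Real.cosh (μ * hh (L ω))) ≤ 5 / 4) :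
    FF (fun ω => Ch θ (L ω)) ν ≤ Real.exp (θ ^ 2 * (9 / 2 * (μ + 1) ^ 2 * ww L + 37 / 200)) := by
  have p := h.ch h0 (lt_one_of_sq h1)
  have t1 : θ ≤ 3 / 4 := by nlinarith
  refine (p.FF_le ν).trans (le_trans ?_ (Real.add_one_le_exp _))
  rw [Ex_Ch]
  have b1 := (h.bmg.pow 2).cmul (θ ^ 2 * (9 / 2 * (μ + 1) ^ 2))
  have b2 := (h.bcosh μ).cmul ((11 / 10 * θ) ^ 4)
  refine (h.Ex_mono (p.bcosh _) ((b1.add b2).add (BM.const (1 - (11 / 10 * θ) ^ 4)))
    fun ω => ?_).trans ?_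
  · have n1 : |ν + 1| ≤ μ + 1 := (abs_add_le _ _).trans (by simpa)
    have a := cosh_split (x := (ν + 1) * hh (Ch θ (L ω))) (y := μ * hh (L ω)) (ρ := 11 / 10 * θ)
      (by positivity) (by linarith) (by
        rw [abs_mul, abs_mul, hh_eq (p.pos ω), hh_eq (h.pos ω), mg_Ch,
          abs_of_nonneg (by linarith : 0 ≤ μ)]
        refine (mul_le_mul (n1.trans (by linarith : μ + 1 ≤ 11 / 10 * μ))
          (ar_mul h0 (by linarith) (h.mlt ω)) (abs_nonneg _) (by linarith)).trans_eq (by ring))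
    have b : |(ν + 1) * hh (Ch θ (L ω))| ≤ (μ + 1) * (3 * |θ * mg (L ω)|) := by
      rw [abs_mul, hh_eq (p.pos ω), mg_Ch]
      refine mul_le_mul n1 (ar_le ?_) (abs_nonneg _) (by linarith)
      rw [abs_mul, abs_of_nonneg h0]
      nlinarith [h.mlt ω, abs_nonneg (mg (L ω))]
    have := pow_le_pow_left₀ (abs_nonneg _) b 2
    rw [sq_abs, mul_pow _ (3 * _), mul_pow 3, sq_abs] at this
    linarith
  · rw [h.Ex_add (b1.add b2) (BM.const _), h.Ex_add b1 b2, h.Ex_const, Ex_cmul, Ex_cmul]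
    have := mul_le_mul_of_nonneg_left hc (by positivity : 0 ≤ (11 / 10 * θ) ^ 4)
    have := mul_le_mul_of_nonneg_left h1 (sq_nonneg θ)
    unfold ww
    nlinarith [sq_nonneg θ]

end Part

end

end Crest.Agent.H0241
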