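import Crest.Agent.H0241.Energy

set_option autoImplicit false
set_option linter.unusedSectionVars false
open Finset Filter MeasureTheory

namespace Crest.Agent.H0241

noncomputable section
open Classical

/-! ### algebra of one edge -/

lemma sq_le_one_of {b : ℝ} (hb : |b| ≤ 1) : b ^ 2 ≤ 1 := by
  rw [← sq_abs]; nlinarith [abs_nonneg b]

lemma den_ge {θ b : ℝ} (h : θ ^ 2 ≤ 1 / 2) (hb : |b| ≤ 1) : 1 / 2 ≤ 1 - θ ^ 2 * b ^ 2 := by
  nlinarith [sq_le_one_of hb, sq_nonneg θ, sq_nonneg b]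

lemma lt_one_of_sq {θ : ℝ} (h : θ ^ 2 ≤ 1 / 2) : θ < 1 := by nlinarith

lemma rr_le {θ b : ℝ} (h0 : 0 ≤ θ) (h : θ ^ 2 ≤ 1 / 2) (hb : |b| ≤ 1) :
    rr θ b ^ 2 ≤ θ ^ 2 * (1 - b ^ 2 / 2) := by
  have a := den_ge h hb
  have c := sq_le_one_of hb
  have e : rr θ b ≤ θ * (1 - b ^ 2 / 2) := by
    rw [rr, div_le_iff₀ (by linarith), mul_assoc]
    refine mul_le_mul_of_nonneg_left ?_ h0
    have : 1 - b ^ 2 / 2 ≤ 1 - θ ^ 2 * b ^ 2 := by nlinarith [sq_nonneg b]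
    nlinarith [sq_nonneg b, sq_nonneg (b ^ 2)]
  have := pow_le_pow_left₀ (Sys.rr_bd h0 (lt_one_of_sq h) hb).1 e 2
  rw [mul_pow] at this
  refine this.trans (mul_le_mul_of_nonneg_left ?_ (sq_nonneg θ))
  nlinarith [sq_nonneg b]

lemma rr_diff {θ θ' b b' : ℝ} (h0 : 0 ≤ θ) (h : θ ^ 2 ≤ 1 / 2) (h0' : 0 ≤ θ') (h' : θ' ^ 2 ≤ 1 / 2)
    (hb : |b| ≤ 1) (hb' : |b'| ≤ 1) :
    (rr θ b - rr θ' b') ^ 2 ≤ 16 * ((b ^ 2 + b' ^ 2) * (b - b') ^ 2) + 72 * (θ - θ') ^ 2 := by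
  have a1 := den_ge h hb
  have a2 := den_ge h hb'
  have a3 := den_ge h' hb'
  have c := sq_le_one_of hb'
  have n1 : 1 - θ ^ 2 * b ^ 2 ≠ 0 := by linarith
  have n2 : 1 - θ ^ 2 * b' ^ 2 ≠ 0 := by linarith
  have n3 : 1 - θ' ^ 2 * b' ^ 2 ≠ 0 := by linarith
  set A := θ * (1 - θ ^ 2) / ((1 - θ ^ 2 * b ^ 2) * (1 - θ ^ 2 * b' ^ 2)) with hA
  set B := (1 - b' ^ 2) * (1 + θ * θ' * b' ^ 2) / ((1 - θ ^ 2 * b' ^ 2) * (1 - θ' ^ 2 * b' ^ 2))
    with hB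
  have e : rr θ b - rr θ' b' = A * ((b + b') * (b' - b)) + B * (θ - θ') := by
    simp only [rr, hA, hB]; field_simp; ring
  have A0 : 0 ≤ A := div_nonneg (mul_nonneg h0 (by linarith)) (by nlinarith)
  have A1 : A ≤ 2 := by
    rw [hA, div_le_iff₀ (by nlinarith)]
    nlinarith [mul_nonneg h0 (sq_nonneg (θ - 1 / 2)), sq_nonneg (θ - 1 / 2)]
  have t0 := mul_nonneg h0 h0'
  have t1 : θ * θ' ≤ 1 / 2 := by nlinarith [sq_nonneg (θ - θ')]
  have B0 : 0 ≤ B := div_nonneg (mul_nonneg (by linarith) (by positivity)) (by nlinarith)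
  have B1 : B ≤ 6 := by
    rw [hB, div_le_iff₀ (by nlinarith)]
    have : θ * θ' * b' ^ 2 ≤ 1 / 2 := by nlinarith [sq_nonneg b']
    have : (1 - b' ^ 2) * (1 + θ * θ' * b' ^ 2) ≤ 1 * (3 / 2) :=
      mul_le_mul (by nlinarith [sq_nonneg b']) (by linarith) (by positivity) zero_le_one
    nlinarith
  have s1 : (A * ((b + b') * (b' - b))) ^ 2 ≤ 8 * ((b ^ 2 + b' ^ 2) * (b - b') ^ 2) := by
    have : A ^ 2 ≤ 4 := by nlinarith
    have p : (b + b') ^ 2 ≤ 2 * (b ^ 2 + b' ^ 2) := by nlinarith [sq_nonneg (b - b')]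
    rw [mul_pow, mul_pow, show (b' - b) ^ 2 = (b - b') ^ 2 by ring]
    nlinarith [mul_le_mul this (mul_le_mul_of_nonneg_right p (sq_nonneg (b - b'))) (by positivity)
      (by norm_num)]
  have s2 : (B * (θ - θ')) ^ 2 ≤ 36 * (θ - θ') ^ 2 := by
    rw [mul_pow]; exact mul_le_mul_of_nonneg_right (by nlinarith) (sq_nonneg _)
  rw [e]
  nlinarith [sq_nonneg (A * ((b + b') * (b' - b)) - B * (θ - θ'))]

lemma den_pos {θ b b' : ℝ} (h0 : 0 ≤ θ) (h1 : θ < 1) (hb : |b| ≤ 1) (hb' : |b'| ≤ 1) :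
    0 < 1 + b * (θ * b') := by
  have := one_add_mul_pos (a := θ) (b := b * b') (by rwa [abs_of_nonneg h0])
    (by rw [abs_mul]; exact mul_le_one₀ hb (abs_nonneg _) hb')
  linarith

lemma rr_rev {θ b b' : ℝ} (h0 : 0 ≤ θ) (h : θ ^ 2 ≤ 1 / 2) (hb : |b| ≤ 1) (hb' : |b'| ≤ 1) :
    (1 - ((b' + θ * b) / (1 + b' * (θ * b))) ^ 2) * rr θ b =
      (1 - ((b + θ * b') / (1 + b * (θ * b'))) ^ 2) * rr θ b' := by
  have n1 := (den_pos h0 (lt_one_of_sq h) hb hb').ne'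
  have n2 := (den_pos h0 (lt_one_of_sq h) hb' hb).ne'
  have n3 : 1 - θ ^ 2 * b ^ 2 ≠ 0 := by linarith [den_ge h hb]
  have n4 : 1 - θ ^ 2 * b' ^ 2 ≠ 0 := by linarith [den_ge h hb']
  have e : 1 + b' * (θ * b) = 1 + b * (θ * b') := by ring
  rw [e]
  unfold rr
  generalize h1 : 1 + b * (θ * b') = D1 at *
  generalize h3 : 1 - θ ^ 2 * b ^ 2 = D3 at *
  generalize h4 : 1 - θ ^ 2 * b' ^ 2 = D4 at *
  field_simp
  subst h1 h3 h4
  ring

def tp (θ b : ℝ) : ℝ := (b + θ) / (1 + θ * b)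

lemma tp_den {θ b : ℝ} (h : |θ| ≤ 3 / 4) (hb : |b| ≤ 1) : 1 / 4 ≤ 1 + θ * b ∧ 1 + θ * b ≤ 1 + |θ| := by
  have : |θ * b| ≤ |θ| := by rw [abs_mul]; exact mul_le_of_le_one_right (abs_nonneg _) hb
  constructor <;> linarith [abs_le.1 this]

lemma tp_b {θ b b' : ℝ} (h : |θ| ≤ 3 / 4) (hb : |b| ≤ 1) (hb' : |b'| ≤ 1) :
    ∃ A, 1 / 7 ≤ A ∧ tp θ b - tp θ b' = (b - b') * A := by
  obtain ⟨a1, a2⟩ := tp_den h hb
  obtain ⟨a3, a4⟩ := tp_den h hb'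
  refine ⟨(1 - θ ^ 2) / ((1 + θ * b) * (1 + θ * b')), ?_, ?_⟩
  · rw [le_div_iff₀ (by nlinarith), ← sq_abs θ]
    have := mul_le_mul a2 a4 (by linarith) (by positivity)
    nlinarith [abs_nonneg θ]
  · have n1 : 1 + θ * b ≠ 0 := by linarith
    have n2 : 1 + θ * b' ≠ 0 := by linarith
    rw [tp, tp, div_sub_div _ _ n1 n2, ← mul_div_assoc]
    congr 1; ring

lemma tp_t {θ θ' b : ℝ} (h : |θ| ≤ 3 / 4) (h' : |θ'| ≤ 3 / 4) (hb : |b| ≤ 1) :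
    |tp θ b - tp θ' b| ≤ 16 * |θ - θ'| := by
  obtain ⟨a1, -⟩ := tp_den h hb
  obtain ⟨a3, -⟩ := tp_den h' hb
  have n1 : 1 + θ * b ≠ 0 := by linarith
  have n2 : 1 + θ' * b ≠ 0 := by linarith
  have e : tp θ b - tp θ' b = (1 - b ^ 2) / ((1 + θ * b) * (1 + θ' * b)) * (θ - θ') := by
    rw [tp, tp, div_sub_div _ _ n1 n2, div_mul_eq_mul_div]
    congr 1; ring
  have p : 1 / 16 ≤ (1 + θ * b) * (1 + θ' * b) := by nlinarith
  rw [e, abs_mul, abs_of_nonneg (div_nonneg (by linarith [sq_le_one_of hb]) (by linarith))]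
  refine mul_le_mul_of_nonneg_right ?_ (abs_nonneg _)
  rw [div_le_iff₀ (by linarith)]
  nlinarith [sq_nonneg b]

lemma tp_abs {θ b : ℝ} (h : |θ| ≤ 3 / 4) (hb : |b| ≤ 1) : |tp θ b| ≤ 1 := by
  obtain ⟨a1, -⟩ := tp_den h hb
  obtain ⟨c1, c2⟩ := abs_le.1 h
  obtain ⟨c3, c4⟩ := abs_le.1 hb
  rw [tp, abs_div, abs_of_pos (by linarith : 0 < 1 + θ * b), div_le_one (by linarith), abs_le]
  constructor <;> nlinarith

lemma tp_mix {θ b c : ℝ} (h0 : 0 ≤ θ) (h : θ ^ 2 ≤ 1 / 2) (hb : |b| ≤ 1) (hc : |c| ≤ 1) :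
    (b + θ * c) / (1 + b * (θ * c)) = (1 + (c + θ * b) / (1 + c * (θ * b))) / 2 * tp θ b +
      (1 - (c + θ * b) / (1 + c * (θ * b))) / 2 * tp (-θ) b := by
  have h3 : |θ| ≤ 3 / 4 := by rw [abs_of_nonneg h0]; nlinarith
  have n1 := (den_pos h0 (lt_one_of_sq h) hb hc).ne'
  have n3 : 1 + θ * b ≠ 0 := by linarith [(tp_den h3 hb).1]
  have n4 : 1 + -θ * b ≠ 0 := by linarith [(tp_den (θ := -θ) (by rwa [abs_neg]) hb).1]
  have e : 1 + c * (θ * b) = 1 + b * (θ * c) := by ring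
  rw [e]
  unfold tp
  generalize h1 : 1 + b * (θ * c) = D1 at *
  generalize h3 : 1 + θ * b = D3 at *
  generalize h4 : 1 + -θ * b = D4 at *
  field_simp
  subst h1 h3 h4
  ring

lemma b_diff {θ θ' b b' m m' p p' : ℝ} (h0 : 0 ≤ θ) (h : θ ^ 2 ≤ 1 / 2) (h0' : 0 ≤ θ')
    (h' : θ' ^ 2 ≤ 1 / 2) (hb : |b| ≤ 1) (hb' : |b'| ≤ 1) (hp : |p| ≤ 1)
    (e : m = (1 + p) / 2 * tp θ b + (1 - p) / 2 * tp (-θ) b)
    (e' : m' = (1 + p') / 2 * tp θ' b' + (1 - p') / 2 * tp (-θ') b') :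
    (b - b') ^ 2 ≤ 147 * ((m - m') ^ 2 + (p - p') ^ 2) + 37632 * (θ - θ') ^ 2 := by
  have h3 : |θ| ≤ 3 / 4 := by rw [abs_of_nonneg h0]; nlinarith
  have h3' : |θ'| ≤ 3 / 4 := by rw [abs_of_nonneg h0']; nlinarith
  have h4 : |-θ| ≤ 3 / 4 := by rwa [abs_neg]
  have h4' : |-θ'| ≤ 3 / 4 := by rwa [abs_neg]
  obtain ⟨A, A1, A2⟩ := tp_b h3 hb hb'
  obtain ⟨B, B1, B2⟩ := tp_b h4 hb hb'
  have t1 := abs_le.1 (tp_t h3 h3' hb')
  have t2 := tp_t h4 h4' hb'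
  rw [show -θ - -θ' = -(θ - θ') by ring, abs_neg, abs_le] at t2
  have u1 := abs_le.1 (tp_abs h3' hb')
  have u2 := abs_le.1 (tp_abs h4' hb')
  obtain ⟨p1, p2⟩ := abs_le.1 hp
  have q1 : 0 ≤ (1 + p) / 2 := by linarith
  have q2 : 0 ≤ (1 - p) / 2 := by linarith
  obtain ⟨W, hW⟩ : ∃ W, W = (1 + p) / 2 * A + (1 - p) / 2 * B := ⟨_, rfl⟩
  have W1 : 1 / 7 ≤ W := by
    linarith [mul_le_mul_of_nonneg_left A1 q1, mul_le_mul_of_nonneg_left B1 q2]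
  obtain ⟨X, hX⟩ : ∃ X, X = (1 + p) / 2 * (tp θ b' - tp θ' b') +
    (1 - p) / 2 * (tp (-θ) b' - tp (-θ') b') := ⟨_, rfl⟩
  obtain ⟨Y, hY⟩ : ∃ Y, Y = (p - p') * ((tp θ' b' - tp (-θ') b') / 2) := ⟨_, rfl⟩
  have key : (b - b') * W = (m - m') - X - Y := by
    rw [e, e', hW, hX, hY]; linear_combination -(1 + p) / 2 * A2 - (1 - p) / 2 * B2
  have X1 : X ^ 2 ≤ 256 * (θ - θ') ^ 2 := by
    have : |X| ≤ 16 * |θ - θ'| := abs_le.2
      ⟨by linarith [mul_le_mul_of_nonneg_left t1.1 q1, mul_le_mul_of_nonneg_left t2.1 q2],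
       by linarith [mul_le_mul_of_nonneg_left t1.2 q1, mul_le_mul_of_nonneg_left t2.2 q2]⟩
    have := pow_le_pow_left₀ (abs_nonneg _) this 2
    rw [sq_abs, mul_pow, sq_abs] at this; linarith
  have Y1 : Y ^ 2 ≤ (p - p') ^ 2 := by
    rw [hY, mul_pow]
    exact mul_le_of_le_one_right (sq_nonneg _)
      (sq_le_one_of (abs_le.2 ⟨by linarith, by linarith⟩))
  have : (b - b') ^ 2 * (1 / 7) ^ 2 ≤ ((b - b') * W) ^ 2 := by
    rw [mul_pow]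
    exact mul_le_mul_of_nonneg_left (pow_le_pow_left₀ (by norm_num) W1 2) (sq_nonneg _)
  rw [key] at this
  have z : ∀ a x y : ℝ, (a - x - y) ^ 2 ≤ 3 * (a ^ 2 + x ^ 2 + y ^ 2) := fun a x y => by
    nlinarith [sq_nonneg (a + x), sq_nonneg (a + y), sq_nonneg (x - y)]
  linarith [z (m - m') X Y]

variable {V : Type*} {G : SimpleGraph V} [G.LocallyFinite]

/-- consistency of cavity magnetisations -/
structure EdgeOK (G : SimpleGraph V) (θ : ℝ) (B : V → V → ℝ) : Prop where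
  bd : ∀ a b, Ed G a b → |B a b| ≤ 1
  eq : ∀ w v, G.Adj w v → B w w = (B w v + θ * B v w) / (1 + B w v * (θ * B v w))

lemma EdgeOK.rev {θ : ℝ} {B : V → V → ℝ} (h : EdgeOK G θ B) (h0 : 0 ≤ θ) (h1 : θ ^ 2 ≤ 1 / 2)
    {w v : V} (a : G.Adj w v) :
    (1 - B v v ^ 2) * rr θ (B w v) = (1 - B w w ^ 2) * rr θ (B v w) := by
  rw [h.eq w v a, h.eq v w a.symm]
  exact rr_rev h0 h1 (h.bd _ _ (Or.inl a)) (h.bd _ _ (Or.inl a.symm))

lemma EdgeOK.diff {θ θ' : ℝ} {B B' : V → V → ℝ} (h : EdgeOK G θ B) (h' : EdgeOK G θ' B')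
    (h0 : 0 ≤ θ) (h1 : θ ^ 2 ≤ 1 / 2) (h0' : 0 ≤ θ') (h1' : θ' ^ 2 ≤ 1 / 2) {w v : V}
    (a : G.Adj w v) : (B w v - B' w v) ^ 2 ≤
      147 * ((B w w - B' w w) ^ 2 + (B v v - B' v v) ^ 2) + 37632 * (θ - θ') ^ 2 := by
  refine b_diff h0 h1 h0' h1' (h.bd _ _ (Or.inl a)) (h'.bd _ _ (Or.inl a)) (h.bd _ _ (ed_root v))
    ?_ ?_
  · rw [h.eq w v a, h.eq v w a.symm]
    exact tp_mix h0 h1 (h.bd _ _ (Or.inl a)) (h.bd _ _ (Or.inl a.symm))
  · rw [h'.eq w v a, h'.eq v w a.symm]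
    exact tp_mix h0' h1' (h'.bd _ _ (Or.inl a)) (h'.bd _ _ (Or.inl a.symm))

lemma Sys.edgeOK (hT : G.IsTree) {S : Sys V} (hS : S.Ok) (τ : ℝ) (ω : Om V) :
    EdgeOK G S.θ (S.B G τ ω) :=
  ⟨fun _ _ h => (Sys.abs_B_lt hT hS τ ω h).le,
    fun _ _ h => Bm_edge hT hS.h0 hS.h1 (Sys.St_fs τ ω) (Sys.St_pos hS τ ω) h⟩

/-! ### infinite downstream sums -/

structure TR (G : SimpleGraph V) [G.LocallyFinite] (d : ℕ) : Prop where
  tree : G.IsTree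
  reg : G.IsRegularOfDegree d
  hd : 3 ≤ d

def Bd (G : SimpleGraph V) (ρ : V → V → ℝ) (q : ℝ) : Prop :=
  ∀ a b, G.Adj a b → 0 ≤ ρ a b ∧ ρ a b ≤ q

def DI (G : SimpleGraph V) [G.LocallyFinite] (ρ : V → V → ℝ) (f : V → ℝ) (w v : V) : ℝ :=
  limUnder atTop fun n => DS G ρ f n w v

lemma DI_aut (g : G ≃g G) (ρ : V → V → ℝ) (f : V → ℝ) (w v : V) :
    DI G ρ f (g w) (g v) = DI G (fun a b => ρ (g a) (g b)) (fun a => f (g a)) w v := by
  simp only [DI, DS_aut]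

lemma PP_bd (hT : G.IsTree) {ρ : V → V → ℝ} {q : ℝ} (h : Bd G ρ q) (w u : V) :
    0 ≤ PP G ρ w u ∧ PP G ρ w u ≤ q ^ G.dist u w := by
  refine path_ind hT u (fun w => 0 ≤ PP G ρ w u ∧ PP G ρ w u ≤ q ^ G.dist u w)
    (by simp) (fun z w a b ih => ?_) w
  rw [PP_step hT _ a b, (sd_adj hT a).1 b, pow_succ']
  exact ⟨mul_nonneg (h _ _ a).1 ih.1,
    mul_le_mul (h _ _ a).2 ih.2 ih.1 ((h z w a).1.trans (h z w a).2)⟩

lemma PP_tendsto (hT : G.IsTree) {ρ : ℕ → V → V → ℝ} {ρ' : V → V → ℝ}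
    (h : ∀ a b, G.Adj a b → Tendsto (fun n => ρ n a b) atTop (nhds (ρ' a b))) (w u : V) :
    Tendsto (fun n => PP G (ρ n) w u) atTop (nhds (PP G ρ' w u)) := by
  refine path_ind hT u (fun w => Tendsto (fun n => PP G (ρ n) w u) atTop (nhds (PP G ρ' w u)))
    (by simp) (fun z w a b ih => ?_) w
  simp only [PP_step hT _ a b]
  exact (h z w a).mul ih

lemma DS_tendsto_fix {ρ : ℕ → V → V → ℝ} {ρ' : V → V → ℝ}
    (h : ∀ a b, G.Adj a b → Tendsto (fun n => ρ n a b) atTop (nhds (ρ' a b))) (f : V → ℝ) (m : ℕ) :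
    ∀ w v, Tendsto (fun n => DS G (ρ n) f m w v) atTop (nhds (DS G ρ' f m w v)) := by
  induction m with
  | zero => intros; exact tendsto_const_nhds
  | succ m ih =>
    exact fun w v => (tendsto_finsetSum _ fun z hz => (h z w (ch_adj hz)).mul (ih z w)).const_add _

lemma bm_DS {X : Type*} [MeasurableSpace X] {ρ : X → V → V → ℝ} {f : X → V → ℝ}
    (h : ∀ a b, G.Adj a b → BM fun x => ρ x a b) (hf : ∀ u, BM fun x => f x u) (m : ℕ) :
    ∀ w v, BM fun x => DS G (ρ x) (f x) m w v := by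
  induction m with
  | zero => intros; exact BM.const 0
  | succ m ih => exact fun w v => (hf w).add (BM.sum _ fun z hz => (h z w (ch_adj hz)).mul (ih z w))

lemma DS_nonneg {ρ : V → V → ℝ} {f : V → ℝ} (h : ∀ a b, G.Adj a b → 0 ≤ ρ a b)
    (hf : ∀ u, 0 ≤ f u) (m : ℕ) : ∀ w v, 0 ≤ DS G ρ f m w v := by
  induction m with
  | zero => intros; exact le_rfl
  | succ m ih =>
    exact fun w v => add_nonneg (hf w) (sum_nonneg fun z hz => mul_nonneg (h z w (ch_adj hz)) (ih z w))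

lemma DS_cs (r r' : V → V → ℝ) (m : ℕ) : ∀ w v (a b : ℝ),
    2 * (a * b) * DS G (fun x y => r x y * r' x y) (fun _ => 1) m w v ≤
      a ^ 2 * DS G (fun x y => r x y ^ 2) (fun _ => 1) m w v +
        b ^ 2 * DS G (fun x y => r' x y ^ 2) (fun _ => 1) m w v := by
  induction m with
  | zero => intros; simp [DS]
  | succ m ih =>
    intro w v a b
    simp only [DS, mul_add, mul_sum]
    have := sum_le_sum (s := ch G w v) fun z _ => ih z w (a * r z w) (b * r' z w)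
    rw [sum_add_distrib] at this
    have e : ∀ (F F' : V → ℝ), (∀ z, F z = F' z) → ∑ z ∈ ch G w v, F z = ∑ z ∈ ch G w v, F' z :=
      fun F F' h => sum_congr rfl fun z _ => h z
    rw [e _ (fun z => 2 * (a * r z w * (b * r' z w)) *
        DS G (fun x y => r x y * r' x y) (fun _ => 1) m z w) fun z => by ring,
      e (fun z => a ^ 2 * _) (fun z => (a * r z w) ^ 2 *
        DS G (fun x y => r x y ^ 2) (fun _ => 1) m z w) fun z => by ring,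
      e (fun z => b ^ 2 * _) (fun z => (b * r' z w) ^ 2 *
        DS G (fun x y => r' x y ^ 2) (fun _ => 1) m z w) fun z => by ring]
    nlinarith [sq_nonneg (a - b)]

section
variable {d : ℕ} (H : TR G d) {q : ℝ} (hq : 0 ≤ q) (hq1 : ((d : ℝ) - 1) * q < 1)
include H hq hq1

lemma DS_bd {ρ : V → V → ℝ} (h : Bd G ρ q) {f : V → ℝ} {C : ℝ} (hf : ∀ u, |f u| ≤ C) (n : ℕ)
    (w v : V) : |DS G ρ f n w v| ≤ C * (2 / (1 - ((d : ℝ) - 1) * q)) := by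
  have hC := (abs_nonneg _).trans (hf w)
  rw [DS_eq H.tree]
  refine (abs_sum_le_sum_abs _ _).trans (le_trans ?_
    (mul_le_mul_of_nonneg_left (sum_geo H.tree H.reg H.hd hq hq1 (bl G n w v) w) hC))
  rw [mul_sum]
  refine sum_le_sum fun u _ => ?_
  rw [abs_mul, abs_of_nonneg (PP_bd H.tree h w u).1, mul_comm]
  exact mul_le_mul (hf u) (PP_bd H.tree h w u).2 (PP_bd H.tree h w u).1 hC

lemma DS_lim0 {ρ : ℕ → V → V → ℝ} {ρ' : V → V → ℝ} (h : ∀ n, Bd G (ρ n) q)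
    (t : ∀ a b, G.Adj a b → Tendsto (fun n => ρ n a b) atTop (nhds (ρ' a b)))
    {f : ℕ → V → ℝ} {f' : V → ℝ} {C : ℝ} (hf : ∀ n u, |f n u| ≤ C)
    (t' : ∀ u, Tendsto (fun n => f n u) atTop (nhds (f' u))) {w v : V} (he : Ed G w v) :
    Tendsto (fun n => DS G (ρ n) (f n) n w v) atTop
      (nhds (∑' u, if Sd G w v u then PP G ρ' w u * f' u else 0)) := by
  have hC := (abs_nonneg _).trans (hf 0 w)
  have e : ∀ n, DS G (ρ n) (f n) n w v =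
      ∑' u, if u ∈ bl G n w v then PP G (ρ n) w u * f n u else 0 := fun n => by
    rw [DS_eq H.tree, tsum_eq_sum (s := bl G n w v) fun u hu => if_neg hu]
    exact sum_congr rfl fun u hu => (if_pos hu).symm
  simp only [e]
  refine tendsto_tsum_of_dominated_convergence (bound := fun u => q ^ G.dist u w * C)
    ((summable_of_sum_le (fun u => by positivity)
      fun A => sum_geo H.tree H.reg H.hd hq hq1 A w).mul_right C) (fun u => ?_)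
    (Eventually.of_forall fun n u => ?_)
  · split_ifs with c
    · refine ((PP_tendsto H.tree t w u).mul (t' u)).congr' ?_
      filter_upwards [eventually_gt_atTop (G.dist u w)] with n hn
      rw [if_pos ((mem_bl H.tree he).2 ⟨c, hn⟩)]
    · simp only [mem_bl H.tree he, c, false_and, if_false]
      exact tendsto_const_nhds
  · split_ifs
    · rw [Real.norm_eq_abs, abs_mul, abs_of_nonneg (PP_bd H.tree (h n) w u).1]
      exact mul_le_mul (PP_bd H.tree (h n) w u).2 (hf n u) (abs_nonneg _) (by positivity)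
    · simp; positivity

lemma DS_lim {ρ : ℕ → V → V → ℝ} {ρ' : V → V → ℝ} (h : ∀ n, Bd G (ρ n) q)
    (t : ∀ a b, G.Adj a b → Tendsto (fun n => ρ n a b) atTop (nhds (ρ' a b)))
    {f : ℕ → V → ℝ} {f' : V → ℝ} {C : ℝ} (hf : ∀ n u, |f n u| ≤ C)
    (t' : ∀ u, Tendsto (fun n => f n u) atTop (nhds (f' u))) {w v : V} (he : Ed G w v) :
    Tendsto (fun n => DS G (ρ n) (f n) n w v) atTop (nhds (DI G ρ' f' w v)) := by
  have := DS_lim0 H hq hq1 (ρ := fun _ => ρ') (f := fun _ => f') (C := C)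
    (fun _ a b c => ⟨ge_of_tendsto' (t a b c) fun n => (h n a b c).1,
      le_of_tendsto' (t a b c) fun n => (h n a b c).2⟩) (fun _ _ _ => tendsto_const_nhds)
    (fun _ u => le_of_tendsto' (t' u).abs fun n => hf n u) (fun _ => tendsto_const_nhds) he
  rw [DI, this.limUnder_eq]
  exact DS_lim0 H hq hq1 h t hf t' he

variable {ρ : V → V → ℝ} (h : Bd G ρ q) {f : V → ℝ} {C : ℝ} (hf : ∀ u, |f u| ≤ C)
include h hf

lemma DI_lim {w v : V} (he : Ed G w v) :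
    Tendsto (fun n => DS G ρ f n w v) atTop (nhds (DI G ρ f w v)) :=
  DS_lim H hq hq1 (fun _ => h) (fun _ _ _ => tendsto_const_nhds) (fun _ => hf)
    (fun _ => tendsto_const_nhds) he

lemma DI_bd {w v : V} (he : Ed G w v) : |DI G ρ f w v| ≤ C * (2 / (1 - ((d : ℝ) - 1) * q)) :=
  le_of_tendsto' (DI_lim H hq hq1 h hf he).abs fun n => DS_bd H hq hq1 h hf n w v

lemma DI_rec {w v : V} (he : Ed G w v) :
    DI G ρ f w v = f w + ∑ z ∈ ch G w v, ρ z w * DI G ρ f z w :=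
  tendsto_nhds_unique ((DI_lim H hq hq1 h hf he).comp (tendsto_add_atTop_nat 1))
    ((tendsto_finsetSum _ fun _ hz => (DI_lim H hq hq1 h hf (ch_ed hz)).const_mul _).const_add _)

lemma DI_nonneg (h0 : ∀ u, 0 ≤ f u) {w v : V} (he : Ed G w v) : 0 ≤ DI G ρ f w v :=
  ge_of_tendsto' (DI_lim H hq hq1 h hf he) fun n => DS_nonneg (fun a b c => (h a b c).1) h0 n w v

end

lemma bm_DI {d : ℕ} (H : TR G d) {q : ℝ} (hq : 0 ≤ q) (hq1 : ((d : ℝ) - 1) * q < 1)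
    {X : Type*} [MeasurableSpace X] {ρ : X → V → V → ℝ} {f : X → V → ℝ} {C : ℝ}
    (h : ∀ x, Bd G (ρ x) q) (hf : ∀ x u, |f x u| ≤ C)
    (m : ∀ a b, G.Adj a b → Measurable fun x => ρ x a b) (mf : ∀ u, Measurable fun x => f x u)
    {w v : V} (he : Ed G w v) : BM fun x => DI G (ρ x) (f x) w v := by
  refine ⟨measurable_of_tendsto_metrizable (f := fun n x => DS G (ρ x) (f x) n w v)
    (fun n => (bm_DS (fun a b c => ⟨m a b c, q, fun x => ?_⟩) (fun u => ⟨mf u, C, fun x => hf x u⟩)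
      n w v).1) (tendsto_pi_nhds.2 fun x => DI_lim H hq hq1 (h x) (hf x) he), _,
    fun x => DI_bd H hq hq1 (h x) (hf x) he⟩
  rw [abs_of_nonneg (h x a b c).1]; exact (h x a b c).2

end

end Crest.Agent.H0241
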