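import Crest.Agent.H0241.Law

set_option autoImplicit false
set_option linter.unusedSectionVars false
open Finset Filter MeasureTheory

namespace Crest.Agent.H0241

noncomputable section
open Classical

def Jf (ε m : ℝ) (u : unitInterval) : ℝ :=
  ε * (2 * GI (ε * m) u - 1) / (1 + ε * (2 * GI (ε * m) u - 1) * m)

lemma abs_lin (y : unitInterval) : |2 * (y : ℝ) - 1| ≤ 1 :=
  abs_le.2 ⟨by linarith [y.2.1], by linarith [y.2.2]⟩

lemma abs_mul_half {ε m : ℝ} (hε : |ε| ≤ 1 / 2) (hm : |m| ≤ 1) : |ε * m| ≤ 1 / 2 := by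
  rw [abs_mul]; nlinarith [abs_nonneg ε, abs_nonneg m]

lemma Jf_den {ε m : ℝ} (hε : |ε| ≤ 1 / 2) (hm : |m| ≤ 1) (y : unitInterval) :
    1 / 2 ≤ 1 + ε * (2 * y - 1) * m := by
  linarith [(abs_le.1 (abs_mul_half (abs_mul_half hε (abs_lin y)) hm)).1]

lemma int_Jf {ε m : ℝ} (hε : |ε| ≤ 1 / 2) (hm : |m| ≤ 1) : ∫ u, Jf ε m u = 0 := by
  have := int_GI (abs_mul_half hε hm) fun y => ε * (2 * y - 1) / (1 + ε * (2 * y - 1) * m)
  unfold Jf
  rw [this]
  have e : ∀ y : unitInterval, ε * (2 * y - 1) / (1 + ε * (2 * y - 1) * m) *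
      (1 + ε * m * (2 * y - 1)) = ε * (2 * y - 1) := fun y => by
    have := Jf_den hε hm y
    rw [show 1 + ε * m * (2 * y - 1) = 1 + ε * (2 * y - 1) * m by ring,
      div_mul_cancel₀ _ (by linarith)]
  simp only [e]
  rw [integral_const_mul, int_lin, mul_zero]

lemma abs_Jf {ε m : ℝ} (hε : |ε| ≤ 1 / 2) (hm : |m| ≤ 1) (u : unitInterval) :
    |Jf ε m u| ≤ 2 * |ε| := by
  have a := Jf_den hε hm (GI (ε * m) u)
  have a0 := one_half_pos.trans_le a
  rw [Jf, abs_div, abs_of_pos a0, div_le_iff₀ a0, abs_mul]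
  nlinarith [abs_nonneg ε, abs_lin (GI (ε * m) u)]

lemma Jf_lip {ε m m' : ℝ} (hε : |ε| ≤ 1 / 2) (hm : |m| ≤ 1) (hm' : |m'| ≤ 1) (u : unitInterval) :
    |Jf ε m u - Jf ε m' u| ≤ 8 * ε ^ 2 * |m - m'| := by
  have a := Jf_den hε hm (GI (ε * m) u)
  have a' := Jf_den hε hm' (GI (ε * m') u)
  have l := Gi_lip (abs_mul_half hε hm) (abs_mul_half hε hm') u.2
  rw [← GI_coe (abs_mul_half hε hm), ← GI_coe (abs_mul_half hε hm'), ← mul_sub, abs_mul] at l
  have b := abs_lin (GI (ε * m) u)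
  have b' := abs_lin (GI (ε * m') u)
  unfold Jf
  set y := 2 * (GI (ε * m) u : ℝ) - 1 with hy
  set y' := 2 * (GI (ε * m') u : ℝ) - 1 with hy'
  have l' : |y - y'| ≤ |ε| * |m - m'| := by
    rw [show y - y' = 2 * ((GI (ε * m) u : ℝ) - GI (ε * m') u) by rw [hy, hy']; ring, abs_mul]
    norm_num; linarith
  have a0 := one_half_pos.trans_le a
  have a0' := one_half_pos.trans_le a'
  rw [div_sub_div _ _ a0.ne' a0'.ne', abs_div, abs_of_pos (mul_pos a0 a0'),
    div_le_iff₀ (mul_pos a0 a0'),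
    show ε * y * (1 + ε * y' * m') - (1 + ε * y * m) * (ε * y') =
      ε * ((y - y') - ε * (y * y') * (m - m')) by ring, abs_mul]
  have c : |(y - y') - ε * (y * y') * (m - m')| ≤ 2 * (|ε| * |m - m'|) := by
    refine (abs_sub _ _).trans ?_
    rw [abs_mul, abs_mul, abs_mul]
    have : |y| * |y'| ≤ 1 := mul_le_one₀ b (abs_nonneg _) b'
    nlinarith [mul_nonneg (abs_nonneg ε) (abs_nonneg (m - m'))]
  have d : 1 / 4 ≤ (1 + ε * y * m) * (1 + ε * y' * m') := by nlinarith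
  rw [← sq_abs ε]
  have p := mul_nonneg (mul_nonneg (abs_nonneg ε) (abs_nonneg ε)) (abs_nonneg (m - m'))
  nlinarith [mul_le_mul_of_nonneg_left c (abs_nonneg ε)]

lemma bm_Jf {X : Type*} [MeasurableSpace X] {ε m : X → ℝ} {u : X → unitInterval}
    (h1 : Measurable ε) (h2 : Measurable m) (h3 : Measurable u) (hε : ∀ x, |ε x| ≤ 1 / 2)
    (hm : ∀ x, |m x| ≤ 1) : BM fun x => Jf (ε x) (m x) (u x) := by
  refine ⟨?_, 1, fun x => (abs_Jf (hε x) (hm x) _).trans (by linarith [hε x])⟩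
  have := ((measurable_subtype_coe.comp (measurable_GI (h1.mul h2) h3)).const_mul 2).sub_const 1
  exact (h1.mul this).div (((h1.mul this).mul h2).const_add 1)

lemma BM.sec {X Y : Type*} [MeasurableSpace X] [MeasurableSpace Y] {F : X × Y → ℝ} (h : BM F)
    (x : X) : BM fun y => F (x, y) := h.comp measurable_prodMk_left

lemma telescope {α : Type*} (R : Finset α) (tm : α → ℝ)
    (hinj : ∀ ρ ∈ R, ∀ ρ' ∈ R, ρ ≠ ρ' → tm ρ ≠ tm ρ') (g : ℝ → ℝ) (gp : α → ℝ)
    (h1 : ∀ s t, s ≤ t → (∀ ρ ∈ R, ¬(s ≤ tm ρ ∧ tm ρ < t)) → g t = g s)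
    (h2 : ∀ ρ ∈ R, ∀ t, tm ρ < t → (∀ ρ' ∈ R, ρ' ≠ ρ → ¬(tm ρ ≤ tm ρ' ∧ tm ρ' < t)) → g t = gp ρ)
    {s t : ℝ} (hst : s ≤ t) :
    g t - g s = ∑ ρ ∈ R, if s ≤ tm ρ ∧ tm ρ < t then gp ρ - g (tm ρ) else 0 := by
  rw [← sum_filter]
  generalize hn : (R.filter fun ρ => s ≤ tm ρ ∧ tm ρ < t).card = n
  induction n generalizing t with
  | zero =>
    rw [card_eq_zero] at hn
    rw [hn, sum_empty, h1 s t hst fun ρ a b => filter_eq_empty_iff.1 hn a b, sub_self]
  | succ n ih =>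
    obtain ⟨ρ, a, b⟩ := (R.filter fun ρ => s ≤ tm ρ ∧ tm ρ < t).exists_max_image tm
      (card_pos.1 (by omega))
    obtain ⟨a1, a2, a3⟩ := mem_filter.1 a
    have e : (R.filter fun ρ' => s ≤ tm ρ' ∧ tm ρ' < tm ρ) =
        (R.filter fun ρ => s ≤ tm ρ ∧ tm ρ < t).erase ρ := by
      ext σ
      simp only [mem_filter, mem_erase]
      constructor
      · rintro ⟨c1, c2, c3⟩
        exact ⟨by rintro rfl; exact lt_irrefl _ c3, c1, c2, c3.trans a3⟩
      · rintro ⟨c0, c1, c2, c3⟩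
        exact ⟨c1, c2, lt_of_le_of_ne (b σ (mem_filter.2 ⟨c1, c2, c3⟩)) (hinj σ c1 ρ a1 c0)⟩
    have := ih a2 (by rw [e, card_erase_of_mem a, hn]; rfl)
    rw [← add_sum_erase _ _ a, ← e, ← this, h2 ρ a1 t a3 fun σ c1 c0 c => ?_]
    · ring
    · exact hinj σ c1 ρ a1 c0 (le_antisymm (b σ (mem_filter.2 ⟨c1, a2.trans c.1, c.2⟩)) c.1)

lemma int_diag {ι : Type*} [DecidableEq ι] {F : (ι → unitInterval) × unitInterval → ℝ} (hF : BM F)
    (i : ι) (h : ∀ ω x u, F (Function.update ω i x, u) = F (ω, u)) :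
    ∫ ω, F (ω, ω i) ∂PI ι = ∫ ω, ∫ u, F (ω, u) ∂volume ∂PI ι := by
  rw [int_resample (hF.comp (measurable_id'.prodMk (measurable_pi_apply i))) i]
  simp only [Function.update_self, h]

lemma vol_half : (volume : Measure unitInterval).real {x | ¬ (x : ℝ) < 1 / 2} = 1 / 2 := by
  have : {x : unitInterval | ¬ (x : ℝ) < 1 / 2} = Set.Ici ⟨1 / 2, by norm_num, by norm_num⟩ := by
    ext x; simp [← Subtype.coe_le_coe]
  rw [this, Measure.real, unitInterval.volume_Ici, ENNReal.toReal_ofReal (by norm_num)]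
  norm_num

lemma vol_int (c s t : ℝ) (h : s ≤ t) :
    (volume : Measure unitInterval).real {x | s ≤ c + x ∧ c + x < t} ≤ t - s := by
  have : {x : unitInterval | s ≤ c + x ∧ c + x < t} = Subtype.val ⁻¹' Set.Ico (s - c) (t - c) := by
    ext x; simp only [Set.mem_ofPred_eq, Set.mem_preimage, Set.mem_Ico]
    constructor <;> rintro ⟨a, b⟩ <;> constructor <;> linarith
  rw [this, Measure.real, unitInterval.volume_apply]
  refine ENNReal.toReal_le_of_le_ofReal (by linarith) ((measure_mono (t := Set.Ico (s - c) (t - c))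
    (Set.image_preimage_subset _ _)).trans ?_)
  rw [Real.volume_Ico]; apply le_of_eq; congr 1; ring

lemma ms_int (c s t : ℝ) : MeasurableSet {x : unitInterval | s ≤ c + x ∧ c + x < t} :=
  have : Measurable fun x : unitInterval => c + x := by fun_prop
  (measurableSet_le measurable_const this).inter (measurableSet_lt this measurable_const)

/-- passing an integrated inequality to the limit -/
lemma lim_int {p : unitInterval → Prop} [DecidablePred p] (hp : MeasurableSet {x | p x}) {h K C : ℝ}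
    (hh : (volume : Measure unitInterval).real {x | p x} ≤ h) (hK : 0 ≤ K)
    {g : ℕ → unitInterval → ℝ} (hg : ∀ R, Measurable (g R)) (hC : ∀ R x, |g R x| ≤ C)
    (hl : ∀ x, p x → ∃ l, l ≤ K ∧ Tendsto (fun R => g R x) atTop (nhds l)) {a : ℕ → ℝ} {b : ℝ}
    (ha : ∀ᶠ R in atTop, a R ≤ ∫ x, if p x then g R x else 0) (hb : Tendsto a atTop (nhds b)) :
    b ≤ h * K := by
  have b1 : ∀ R, BM fun x => if p x then max (g R x - K) 0 else 0 := fun R =>
    BM.ite hp (BM.cont (f := g R) ⟨hg R, C, hC R⟩ (φ := fun y => max (y - K) 0) (by fun_prop))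
      (BM.const 0)
  have b2 : BM fun x => if p x then K else 0 := BM.ite hp (BM.const K) (BM.const 0)
  have t : Tendsto (fun R => ∫ x, if p x then max (g R x - K) 0 else 0) atTop
      (nhds (∫ _ : unitInterval, (0 : ℝ))) := by
    refine tendsto_int volume (C + K) (fun R => (b1 R).1) (fun R x => ?_)
      (Eventually.of_forall fun x => ?_)
    · have := abs_le.1 (hC R x)
      split_ifs
      · rw [abs_of_nonneg (le_max_right _ _)]; exact max_le (by linarith) (by linarith)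
      · rw [abs_zero]; linarith
    · split_ifs with c
      · obtain ⟨l, l1, l2⟩ := hl x c
        have := (l2.sub_const K).max (tendsto_const_nhds (x := (0 : ℝ)))
        rwa [max_eq_right (by linarith)] at this
      · exact tendsto_const_nhds
  have e : ∫ x : unitInterval, (if p x then K else 0) ≤ h * K := by
    have := integral_indicator_const (μ := (volume : Measure unitInterval)) K hp
    simp only [Set.indicator, Set.mem_ofPred_eq, smul_eq_mul] at this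
    convert (le_of_eq this).trans (mul_le_mul_of_nonneg_right hh hK)
  have := le_of_tendsto_of_tendsto hb (t.const_add (h * K)) (by
    filter_upwards [ha] with R hR
    refine hR.trans (le_trans ?_ (add_le_add_left e _))
    rw [← b2.int_add (b1 R)]
    refine (BM.ite hp ⟨hg R, C, hC R⟩ (BM.const 0)).mono (b2.add (b1 R)) _ fun x => ?_
    split_ifs
    · linarith [le_max_left (g R x - K) 0]
    · simp)
  simpa using this

variable {V : Type*} {G : SimpleGraph V} [G.LocallyFinite]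

def efn (e : ℤ → ℝ) (n : ℤ) (x : unitInterval) : ℝ := if (x : ℝ) < 1 / 2 then e n else 0

lemma palm (ρ : V × ℤ) {K : ℝ → Om V → ℝ} (hK : BM fun q : ℝ × Om V => K q.1 q.2)
    (h0 : ∀ τ ω, 0 ≤ K τ ω)
    (hinv : ∀ τ ω (x x' : unitInterval), τ ≤ ρ.2 + (x : ℝ) → τ ≤ ρ.2 + (x' : ℝ) →
      K τ (Function.update ω (tc ρ) x) = K τ (Function.update ω (tc ρ) x'))
    {c : unitInterval → ℝ} (hc : BM c) (c0 : ∀ x, 0 ≤ c x)
    (c1 : ∀ x : unitInterval, ¬ (x : ℝ) < 1 / 2 → c x = 0) :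
    ∫ ω, c (ω (tc ρ)) * K (tm ρ ω) ω ∂PO V ≤ ∫ x, c x * (2 * ∫ ω, K (ρ.2 + x) ω ∂PO V) := by
  have m1 : Measurable fun x : unitInterval => (ρ.2 : ℝ) + x := by fun_prop
  have b0 : BM fun ω : Om V => c (ω (tc ρ)) * K (tm ρ ω) ω :=
    (hc.comp (measurable_pi_apply (tc ρ))).mul (hK.comp ((Sys.measurable_tm ρ).prodMk measurable_id'))
  rw [int_resample b0 (tc ρ), integral_integral_swap ((bm_upd b0 (tc ρ)).integrable _)]
  refine ((bm_upd b0 (tc ρ)).comp measurable_swap).integral_right (PO V) |>.mono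
    (hc.mul (((hK.comp (m1.prodMap measurable_id')).integral_right (PO V)).cmul 2)) _ fun x => ?_
  simp only [Prod.swap, Function.update_self, tm, Prod.map]
  rw [integral_const_mul]
  by_cases hx : (x : ℝ) < 1 / 2
  swap
  · simp [c1 x hx]
  refine mul_le_mul_of_nonneg_left ?_ (c0 x)
  have b1 : BM (K (ρ.2 + x)) := hK.comp (measurable_const.prodMk measurable_id')
  rw [int_resample b1 (tc ρ), ← integral_const_mul]
  refine (b1.comp (measurable_update_left)).mono (((bm_upd b1 (tc ρ)).integral_right _).cmul 2) _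
    fun ω => ?_
  have hs : MeasurableSet {x : unitInterval | ¬ (x : ℝ) < 1 / 2} :=
    (measurableSet_lt measurable_subtype_coe measurable_const).compl
  have e := integral_indicator_const (μ := (volume : Measure unitInterval))
    (K (ρ.2 + x) (Function.update ω (tc ρ) x)) hs
  rw [vol_half, smul_eq_mul] at e
  have := (BM.ite hs (BM.const (K (ρ.2 + x) (Function.update ω (tc ρ) x))) (BM.const 0)).mono
    (b1.comp (measurable_update ω (a := tc ρ))) volume fun x' => by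
      split_ifs with d
      · exact h0 _ _
      · exact (hinv _ _ _ _ le_rfl (by linarith)).le
  simp only [Set.indicator, Set.mem_ofPred_eq] at e
  rw [e] at this
  linarith

namespace Sys
variable (S : Sys V)

def cv (G : SimpleGraph V) [G.LocallyFinite] (o : V) (ρ : V × ℤ) (τ : ℝ) (ω : Om V) : ℝ :=
  if ρ ∈ S.R then Cv G S.θ (S.B G τ ω) o ρ.1 else 0

def jmp (G : SimpleGraph V) [G.LocallyFinite] (o : V) (ρ : V × ℤ) (ω : Om V) (u : unitInterval) :
    ℝ := S.cv G o ρ (tm ρ ω) ω * Jf (S.act ρ ω) (S.B G (tm ρ ω) ω ρ.1 ρ.1) u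

variable {S}

lemma act_bd (hS : S.Ok) (ρ : V × ℤ) (ω : Om V) : |S.act ρ ω| ≤ 1 / 2 := hS.bd _ _

lemma St_same {s t : ℝ} (h : s ≤ t) {ω : Om V} (h1 : ∀ ρ ∈ S.R, ¬(s ≤ tm ρ ω ∧ tm ρ ω < t)) :
    S.St G t ω = S.St G s ω := by
  unfold St
  congr 1
  funext ρ
  unfold amp eff
  congr 1
  refine if_congr (and_congr_right fun a => ⟨fun b => ?_, fun b => b.trans_le h⟩) rfl rfl
  by_contra c
  exact h1 ρ a ⟨not_lt.1 c, b⟩

variable (hT : G.IsTree)
include hT

lemma B_jump (hS : S.Ok) (o : V) {t : ℝ} {ω : Om V} {ρ : V × ℤ} (h : tm ρ ω < t)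
    (h1 : ∀ σ ∈ S.R, σ ≠ ρ → ¬(tm ρ ω ≤ tm σ ω ∧ tm σ ω < t)) :
    S.B G t ω o o = S.B G (tm ρ ω) ω o o + S.jmp G o ρ ω (ω (uc ρ)) := by
  by_cases c : ρ ∈ S.R
  · have e : S.amp (S.yy G ω) t ω = Function.update (S.amp (S.yy G ω) (tm ρ ω) ω) ρ
        (S.act ρ ω * (2 * S.yy G ω ρ - 1)) := by
      funext σ
      by_cases d : σ = ρ
      · subst d; simp [amp, eff, c, h]
      · rw [Function.update_of_ne d]
        unfold amp eff
        congr 1
        refine if_congr (and_congr_right fun a => ⟨fun b => ?_, fun b => b.trans h⟩) rfl rfl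
        by_contra c
        exact h1 σ a d ⟨not_lt.1 c, b⟩
    rw [B, St, e, ell_update c (by simp [amp, eff]), Bm_bump hT hS.h0 hS.h1 (ell_fs _ _)
      (ell_pos _ (amp_bd hS _ _ _)) _ _
      ((abs_mul_half (act_bd hS _ _) (abs_lin _)).trans (by norm_num)), jmp, cv, if_pos c, Jf,
      ← yy_eq ω c]
    rfl
  · rw [B, St_same h.le fun σ a => h1 σ a (by rintro rfl; exact c a)]
    simp [jmp, cv, c, B]

lemma bm_PP {X : Type*} [MeasurableSpace X] {r : X → V → V → ℝ}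
    (h : ∀ a b, G.Adj a b → BM fun x => r x a b) (w u : V) : BM fun x => PP G (r x) w u := by
  refine path_ind hT u (fun w => BM fun x => PP G (r x) w u) (by simpa using BM.const 1)
    (fun z w a b ih => ?_) w
  simp only [PP_step hT _ a b]
  exact (h z w a).mul ih

omit hT in
lemma rr_bd {θ b : ℝ} (h0 : 0 ≤ θ) (h1 : θ < 1) (hb : |b| ≤ 1) : 0 ≤ rr θ b ∧ rr θ b ≤ θ := by
  have a : b ^ 2 ≤ 1 := by rw [← sq_abs]; nlinarith [abs_nonneg b]
  have a' : θ ^ 2 < 1 := by nlinarith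
  have c : 0 < 1 - θ ^ 2 * b ^ 2 := by nlinarith [sq_nonneg θ, sq_nonneg b]
  refine ⟨div_nonneg (mul_nonneg h0 (by linarith)) c.le, ?_⟩
  rw [rr, div_le_iff₀ c]
  exact mul_le_mul_of_nonneg_left (by nlinarith [sq_nonneg b]) h0

omit hT in
lemma bm_rr {X : Type*} [MeasurableSpace X] {θ : ℝ} (h0 : 0 ≤ θ) (h1 : θ < 1) {b : X → ℝ}
    (hm : Measurable b) (hb : ∀ x, |b x| ≤ 1) : BM fun x => rr θ (b x) :=
  ⟨by unfold rr; fun_prop, θ, fun x => by
    rw [abs_of_nonneg (rr_bd h0 h1 (hb x)).1]; exact (rr_bd h0 h1 (hb x)).2⟩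

lemma bm_cv {X : Type*} [MeasurableSpace X] (hS : S.Ok) (o : V) (ρ : V × ℤ) {τ : X → ℝ}
    (hτ : Measurable τ) {w : X → Om V} (hw : Measurable w) :
    BM fun x => S.cv G o ρ (τ x) (w x) := by
  unfold cv
  split_ifs
  · exact ((BM.const 1).sub ((bm_B hT hS hτ hw (ed_root o)).pow 2)).mul (bm_PP hT
      (fun a b h => bm_rr hS.h0 hS.h1 (bm_B hT hS hτ hw (Or.inl h)).1
        fun x => (abs_B_lt hT hS _ _ (Or.inl h)).le) _ _)
  · exact BM.const 0

lemma bm_jmp (hS : S.Ok) (o : V) (ρ : V × ℤ) :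
    BM fun q : Om V × unitInterval => S.jmp G o ρ q.1 q.2 :=
  (bm_cv hT hS o ρ ((measurable_tm ρ).comp measurable_fst) measurable_fst).mul
    (bm_Jf ((bm_act hS ρ).1.comp measurable_fst)
      (bm_B hT hS ((measurable_tm ρ).comp measurable_fst) measurable_fst (ed_root _)).1
      measurable_snd (fun _ => hS.bd _ _) fun _ => (abs_B_lt hT hS _ _ (ed_root _)).le)

omit hT in
lemma tm_upd_u (σ ρ : V × ℤ) (ω : Om V) (u : unitInterval) :
    tm σ (Function.update ω (uc ρ) u) = tm σ ω := by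
  simp [tm, Function.update_of_ne (tc_ne_uc _ _)]

omit hT in
lemma B_upd_u {τ : ℝ} {ω : Om V} {ρ : V × ℤ} (h : τ ≤ tm ρ ω) (u : unitInterval) :
    S.B G τ (Function.update ω (uc ρ) u) = S.B G τ ω := by rw [B, B, St_upd_u τ ω ρ h]

omit hT in
lemma jmp_upd (o : V) (ρ : V × ℤ) (ω : Om V) (u : unitInterval) :
    S.jmp G o ρ (Function.update ω (uc ρ) u) = S.jmp G o ρ ω := by
  funext x
  simp only [jmp, cv, tm_upd_u, B_upd_u le_rfl, act, Function.update_of_ne (tc_ne_uc _ _)]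

lemma int_jmp (hS : S.Ok) (o : V) (ρ : V × ℤ) (ω : Om V) : ∫ u, S.jmp G o ρ ω u = 0 := by
  unfold jmp
  rw [integral_const_mul, int_Jf (act_bd hS _ _) (abs_B_lt hT hS _ _ (ed_root _)).le, mul_zero]

lemma energy_eq (hS : S.Ok) {S' : Sys V} (hS' : S'.Ok) {R : Finset (V × ℤ)} (hR : S.R ⊆ R)
    (hR' : S'.R ⊆ R) (o : V) {s t : ℝ} (hst : s ≤ t) {Z : Om V → ℝ} (hZ : BM Z)
    (hZ' : ∀ ω ρ u, s ≤ tm ρ ω → Z (Function.update ω (uc ρ) u) = Z ω) :
    ∫ ω, (S.B G t ω o o - S'.B G t ω o o - Z ω) ^ 2 ∂PO V -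
      ∫ ω, (S.B G s ω o o - S'.B G s ω o o - Z ω) ^ 2 ∂PO V =
      ∑ ρ ∈ R, ∫ ω, (if s ≤ tm ρ ω ∧ tm ρ ω < t then
        ∫ u, (S.jmp G o ρ ω u - S'.jmp G o ρ ω u) ^ 2 else 0) ∂PO V := by
  set f : ℝ → Om V → ℝ := fun τ ω => S.B G τ ω o o - S'.B G τ ω o o - Z ω with hf
  have bf : ∀ {τ : Om V → ℝ}, Measurable τ → BM fun ω => f (τ ω) ω := fun hτ =>
    ((bm_B hT hS hτ measurable_id' (ed_root o)).sub
      (bm_B hT hS' hτ measurable_id' (ed_root o))).sub hZ
  set H : V × ℤ → Om V × unitInterval → ℝ := fun ρ q => if s ≤ tm ρ q.1 ∧ tm ρ q.1 < t then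
    2 * f (tm ρ q.1) q.1 * (S.jmp G o ρ q.1 q.2 - S'.jmp G o ρ q.1 q.2) +
      (S.jmp G o ρ q.1 q.2 - S'.jmp G o ρ q.1 q.2) ^ 2 else 0 with hH
  have bj := fun ρ => (bm_jmp hT hS o ρ).sub (bm_jmp hT hS' o ρ)
  have bH : ∀ ρ, BM (H ρ) := fun ρ => BM.ite
    ((measurableSet_le measurable_const ((measurable_tm ρ).comp measurable_fst)).inter
      (measurableSet_lt ((measurable_tm ρ).comp measurable_fst) measurable_const))
    (((((bf (measurable_tm ρ)).cmul 2).comp measurable_fst).mul (bj ρ)).add ((bj ρ).pow 2))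
    (BM.const 0)
  have bH' : ∀ ρ, BM fun ω => H ρ (ω, ω (uc ρ)) := fun ρ =>
    (bH ρ).comp (measurable_id'.prodMk (measurable_pi_apply (uc ρ)))
  calc _ = ∫ ω, ∑ ρ ∈ R, H ρ (ω, ω (uc ρ)) ∂PO V := by
        rw [← ((bf measurable_const).pow 2).int_sub ((bf measurable_const).pow 2)]
        refine integral_congr_ae ?_
        filter_upwards [ae_distinct R] with ω hω
        rw [telescope R (fun ρ => tm ρ ω) hω (fun τ => f τ ω ^ 2)
          (fun ρ => (f (tm ρ ω) ω + (S.jmp G o ρ ω (ω (uc ρ)) - S'.jmp G o ρ ω (ω (uc ρ)))) ^ 2)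
          (fun a b c d => ?_) (fun ρ _ b c d => ?_) hst]
        · refine sum_congr rfl fun ρ _ => ?_
          simp only [hH]
          split_ifs <;> ring
        · simp only [hf, B, St_same c fun ρ h => d ρ (hR h), St_same c fun ρ h => d ρ (hR' h)]
        · simp only [hf, B_jump hT hS o c fun ρ h => d ρ (hR h),
            B_jump hT hS' o c fun ρ h => d ρ (hR' h)]
          ring
    _ = _ := by
        rw [BM.int_sum _ fun ρ _ => bH' ρ]
        refine sum_congr rfl fun ρ _ => ?_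
        rw [int_diag (bH ρ) (uc ρ) fun ω x u => ?_]
        · congr 1; funext ω
          simp only [hH]
          split_ifs
          · have b1 := (bm_jmp hT hS o ρ).sec ω
            have b2 := (bm_jmp hT hS' o ρ).sec ω
            dsimp only at b1 b2
            have b := b1.sub b2
            rw [(b.cmul _).int_add (b.pow 2), integral_const_mul, b1.int_sub b2, int_jmp hT hS,
              int_jmp hT hS']
            simp
          · simp
        · simp only [hH, tm_upd_u, jmp_upd]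
          split_ifs with c
          · simp only [hf, B_upd_u le_rfl, hZ' ω ρ x c.1]
          · rfl

lemma energy_mono (hS : S.Ok) {S' : Sys V} (hS' : S'.Ok) (o : V) {s t : ℝ} (hst : s ≤ t) :
    ∫ ω, (S.B G s ω o o - S'.B G s ω o o) ^ 2 ∂PO V ≤
      ∫ ω, (S.B G t ω o o - S'.B G t ω o o) ^ 2 ∂PO V := by
  have := energy_eq hT hS hS' subset_union_left subset_union_right o hst (BM.const 0)
    fun _ _ _ _ => rfl
  simp only [sub_zero] at this
  rw [← sub_nonneg, this]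
  refine sum_nonneg fun ρ _ => integral_nonneg fun ω => ?_
  dsimp only
  split_ifs
  exacts [integral_nonneg fun _ => sq_nonneg _, le_rfl]

lemma B_empty {τ : ℝ} {ω : Om V} (h : ∀ ρ ∈ S.R, τ ≤ tm ρ ω) (a b : V) : S.B G τ ω a b = 0 := by
  have : S.St G τ ω = fun _ _ => 1 := by
    funext v s
    refine prod_eq_one fun ρ c => ?_
    simp [amp, eff, (h ρ (mem_filter.1 c).1).not_gt]
  rw [B, this, Bm, msg_one]
  simp [mg]

lemma energy_incr (hS : S.Ok) (o : V) {s t : ℝ} (hst : s ≤ t) :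
    ∫ ω, (S.B G t ω o o - S.B G s ω o o) ^ 2 ∂PO V =
      ∫ ω, S.B G t ω o o ^ 2 ∂PO V - ∫ ω, S.B G s ω o o ^ 2 ∂PO V := by
  have hS' : Sys.Ok ({ S with R := ∅ } : Sys V) := ⟨hS.h0, hS.h1, hS.bd, hS.ms⟩
  have e : ∀ τ ω, Sys.B G ({ S with R := ∅ } : Sys V) τ ω o o = 0 := fun τ ω => B_empty hT (by simp) o o
  have a := energy_eq hT hS hS' Subset.rfl (empty_subset _) o hst (BM.const 0) fun _ _ _ _ => rfl
  have b := energy_eq hT hS hS' Subset.rfl (empty_subset _) o hst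
    (bm_B hT hS (measurable_const (a := s)) measurable_id' (ed_root o))
    fun ω ρ u h => by simp only [B_upd_u h]
  rw [← a] at b
  simpa [e] using b

/-- the integrand of the energy inequality -/
def Kf (G : SimpleGraph V) [G.LocallyFinite] (S S' : Sys V) (o : V) (ρ : V × ℤ) (τ : ℝ)
    (ω : Om V) : ℝ :=
  8 * (S.cv G o ρ τ ω - S'.cv G o ρ τ ω) ^ 2 +
    32 * (S'.cv G o ρ τ ω ^ 2 * (S.B G τ ω ρ.1 ρ.1 - S'.B G τ ω ρ.1 ρ.1) ^ 2)

lemma bm_Kf {X : Type*} [MeasurableSpace X] (hS : S.Ok) {S' : Sys V} (hS' : S'.Ok) (o : V)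
    (ρ : V × ℤ) {τ : X → ℝ} (hτ : Measurable τ) {w : X → Om V} (hw : Measurable w) :
    BM fun x => Kf G S S' o ρ (τ x) (w x) :=
  ((((bm_cv hT hS o ρ hτ hw).sub (bm_cv hT hS' o ρ hτ hw)).pow 2).cmul 8).add
    ((((bm_cv hT hS' o ρ hτ hw).pow 2).mul (((bm_B hT hS hτ hw (ed_root _)).sub
      (bm_B hT hS' hτ hw (ed_root _))).pow 2)).cmul 32)

lemma energy_le (hS : S.Ok) {S' : Sys V} (hS' : S'.Ok) {e : ℤ → ℝ} (he : S.ef = efn e)
    (he' : S'.ef = efn e) {A : Finset V} (hA : ∀ ρ ∈ S.R, ρ.1 ∈ A) (hA' : ∀ ρ ∈ S'.R, ρ.1 ∈ A)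
    (o : V) {n : ℤ} {s t : ℝ} (hs : n ≤ s) (hst : s ≤ t) (ht : t ≤ n + 1) :
    ∫ ω, (S.B G t ω o o - S'.B G t ω o o) ^ 2 ∂PO V -
      ∫ ω, (S.B G s ω o o - S'.B G s ω o o) ^ 2 ∂PO V ≤
      ∫ x : unitInterval, if s ≤ n + (x : ℝ) ∧ n + (x : ℝ) < t then
        2 * e n ^ 2 * ∫ ω, ∑ u ∈ A, Kf G S S' o (u, n) (n + x) ω ∂PO V else 0 := by
  set I := insert n ((S.R ∪ S'.R).image Prod.snd)
  have := energy_eq hT hS hS' (R := A ×ˢ I)
    (fun ρ h => mem_product.2 ⟨hA ρ h, mem_insert_of_mem (mem_image_of_mem _ (mem_union_left _ h))⟩)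
    (fun ρ h => mem_product.2 ⟨hA' ρ h, mem_insert_of_mem (mem_image_of_mem _ (mem_union_right _ h))⟩)
    o hst (BM.const 0) fun _ _ _ _ => rfl
  simp only [sub_zero] at this
  rw [this]
  have ms : ∀ m : ℤ, MeasurableSet {x : unitInterval | s ≤ m + (x : ℝ) ∧ m + (x : ℝ) < t} := fun m =>
    ms_int _ _ _
  set c : ℤ → unitInterval → ℝ := fun m x => if s ≤ m + (x : ℝ) ∧ m + (x : ℝ) < t then efn e m x ^ 2 else 0
    with hc
  have bc : ∀ m, BM (c m) := fun m => BM.ite (ms m)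
    (BM.pow ⟨he ▸ hS.ms m, _, he ▸ hS.bd m⟩ 2) (BM.const 0)
  have bK : ∀ ρ : V × ℤ, BM fun x : unitInterval => ∫ ω, Kf G S S' o ρ (ρ.2 + x) ω ∂PO V :=
    fun ρ => (bm_Kf hT hS hS' o ρ (τ := fun q : unitInterval × Om V => ρ.2 + q.1) (by fun_prop)
      measurable_snd).integral_right _
  have K0 : ∀ ρ τ ω, 0 ≤ Kf G S S' o ρ τ ω := fun _ _ _ => by unfold Kf; positivity
  have h1 : ∀ ρ : V × ℤ, ∫ ω, (if s ≤ tm ρ ω ∧ tm ρ ω < t then
      ∫ u, (S.jmp G o ρ ω u - S'.jmp G o ρ ω u) ^ 2 else 0) ∂PO V ≤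
      ∫ x, c ρ.2 x * (2 * ∫ ω, Kf G S S' o ρ (ρ.2 + x) ω ∂PO V) := by
    intro ρ
    refine le_trans ?_ (palm ρ (bm_Kf hT hS hS' o ρ measurable_fst measurable_snd) (K0 ρ)
      (fun τ ω x x' a b => by simp only [Kf, cv, B, St_upd_t τ ω ρ a b]) (bc _)
      (fun x => by simp only [hc]; split_ifs <;> positivity) fun x a => by simp only [hc, efn, if_neg a]; simp)
    have bj := ((bm_jmp hT hS o ρ).sub (bm_jmp hT hS' o ρ)).pow 2
    refine (BM.ite (p := fun ω => s ≤ tm ρ ω ∧ tm ρ ω < t)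
      ((measurableSet_le measurable_const (measurable_tm ρ)).inter
      (measurableSet_lt (measurable_tm ρ) measurable_const)) (bj.integral_right volume)
      (BM.const 0)).mono (((bc ρ.2).comp (measurable_pi_apply (tc ρ))).mul
        (bm_Kf hT hS hS' o ρ (measurable_tm ρ) measurable_id')) _ fun ω => ?_
    simp only [hc]
    change _ ≤ (if s ≤ tm ρ ω ∧ tm ρ ω < t then _ else _) * _
    split_ifs
    swap
    · simp
    refine ((bj.sec ω).mono (BM.const _) volume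
      fun u => ?_).trans (by simp; rfl)
    have a1 := abs_B_lt hT hS (tm ρ ω) ω (ed_root ρ.1)
    have a2 := abs_B_lt hT hS' (tm ρ ω) ω (ed_root ρ.1)
    have a3 : |efn e ρ.2 (ω (tc ρ))| ≤ 1 / 2 := he ▸ hS.bd _ _
    have b1 := abs_Jf a3 a1.le u
    have b2 := Jf_lip a3 a1.le a2.le u
    simp only [jmp, act, he, he', Kf]
    set ε := efn e ρ.2 (ω (tc ρ))
    set J := Jf ε (S.B G (tm ρ ω) ω ρ.1 ρ.1) u
    set J' := Jf ε (S'.B G (tm ρ ω) ω ρ.1 ρ.1) u
    set x := S.cv G o ρ (tm ρ ω) ω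
    set x' := S'.cv G o ρ (tm ρ ω) ω
    set D := S.B G (tm ρ ω) ω ρ.1 ρ.1 - S'.B G (tm ρ ω) ω ρ.1 ρ.1
    have c1 : J ^ 2 ≤ 4 * ε ^ 2 := by
      rw [← sq_abs J, ← sq_abs ε]; nlinarith [abs_nonneg J]
    have c2 : (J - J') ^ 2 ≤ 16 * (ε ^ 2 * D ^ 2) := by
      have e1 : ε ^ 2 ≤ 1 / 4 := by rw [← sq_abs]; nlinarith [abs_nonneg ε]
      have := pow_le_pow_left₀ (abs_nonneg _) b2 2
      rw [sq_abs, mul_pow, sq_abs] at this
      nlinarith [mul_nonneg (sq_nonneg ε) (sq_nonneg D)]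
    nlinarith [sq_nonneg ((x - x') * J - x' * (J - J')),
      mul_le_mul_of_nonneg_left c1 (sq_nonneg (x - x')), mul_le_mul_of_nonneg_left c2 (sq_nonneg x')]
  refine (sum_le_sum fun ρ _ => h1 ρ).trans ?_
  rw [sum_product, sum_congr rfl fun u _ => sum_eq_single_of_mem n (mem_insert_self _ _)
    fun m _ hm => ?_]
  · rw [← BM.int_sum _ fun u _ => (bc n).mul ((bK (u, n)).cmul 2)]
    refine (BM.sum _ fun u _ => (bc n).mul ((bK (u, n)).cmul 2)).mono (BM.ite (ms n) (BM.cmul _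
      ((BM.sum _ fun u _ => bm_Kf hT hS hS' o (u, n)
        (τ := fun q : unitInterval × Om V => n + q.1) (by fun_prop) measurable_snd).integral_right _))
      (BM.const 0)) _ fun x => ?_
    rw [← mul_sum, ← mul_sum, ← BM.int_sum _ fun u _ => bm_Kf hT hS hS' o (u, n) measurable_const
      measurable_id']
    simp only [hc, efn]
    have : 0 ≤ ∫ ω, ∑ u ∈ A, Kf G S S' o (u, n) (n + x) ω ∂PO V :=
      integral_nonneg fun ω => sum_nonneg fun _ _ => K0 _ _ _
    split_ifs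
    · linarith
    · nlinarith [sq_nonneg (e n)]
    · simp
  · have : ∀ x, c m x = 0 := fun x => by
      simp only [hc, efn]
      split_ifs with a b
      · have a1 : (m : ℝ) < n + 1 := by linarith [a.2, x.2.1]
        have a2 : (n : ℝ) < m + 1 := by linarith [a.1]
        have a3 : m < n + 1 := by exact_mod_cast a1
        have a4 : n < m + 1 := by exact_mod_cast a2
        omega
      · simp
      · rfl
    simp [this]

end Sys

end

end Crest.Agent.H0241
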