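import Crest.Agent.H0241.Main
import Crest.Agent.H0175.Approx

set_option autoImplicit false
set_option linter.unusedSectionVars false
open Finset Filter MeasureTheory

namespace Crest.Agent.H0241

noncomputable section
open Classical Crest.ProbabilityR.TreeIsing

variable {V : Type*} {G : SimpleGraph V} [G.LocallyFinite] {d : ℕ}

lemma cont_weight (A : Finset V) (η : V → Bool) : Continuous fun θ => isingWeight G θ A η := by
  unfold isingWeight
  refine continuous_const.mul (continuous_finsetProd _ fun e _ => ?_)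
  split_ifs <;> fun_prop

lemma labels (V : Type*) : ∃ Ω : (V → unitInterval) → Om V, MeasurePreserving Ω (PI V) (PO V) ∧
    ∃ T : unitInterval → ℤ × Bool → unitInterval, ∀ x p, Ω x p = T (x p.1) p.2 := by
  obtain ⟨T, hT, h⟩ := Crest.Agent.H0175.exists_map_eq (volume : Measure unitInterval)
    (PI (ℤ × Bool)) (by simp)
  refine ⟨(MeasurableEquiv.curry V (ℤ × Bool) unitInterval).symm ∘ fun x v => T (x v),
    MeasurePreserving.comp (μb := Measure.infinitePi fun _ => PI (ℤ × Bool))
      ⟨MeasurableEquiv.measurable _, Measure.infinitePi_map_curry_symm fun _ _ => volume⟩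
      ⟨by fun_prop, ?_⟩, T, fun _ _ => rfl⟩
  rw [Measure.infinitePi_map_pi (fun _ => volume) fun _ => hT]
  simp only [h]

lemma factor (H : TR G d) {θ : ℝ} (h0 : 0 ≤ θ) (h : ((d : ℝ) - 1) * θ ^ 2 ≤ 1) :
    ∃ M : Om V → V → ℝ, (∀ v, Measurable fun ω => M ω v) ∧
      (∀ (g : G ≃g G) ω v, M ω (g v) = M (tr g ω) v) ∧ (∀ v, ∀ᵐ ω ∂PO V, M ω v ^ 2 = 1) ∧
      ∀ (A : Finset V) (η : V → Bool), (G.induce (A : Set V)).Connected →
        ∫ ω, ∏ v ∈ A, (1 + sg (η v) * M ω v) / 2 ∂PO V = isingWeight G θ A η := by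
  choose U hU u using fun i : ℕ => main_cauchy H h0 h (24 * 2 ^ i) (ε := (1 / 2) ^ i) (by positivity)
  choose N hN using fun i : ℕ => Ultrafilter.nonempty_of_mem (inter_mem (inter_mem (hU i) (hU (i - 1)))
    (Nat.hyperfilter_le_atTop (eventually_ge_atTop (24 * 2 ^ i))))
  have k0 := fun i => th_nonneg h0 (N i)
  have k := fun i => th_sub h (N i)
  set m : ℕ → Om V → V → ℝ := fun i ω v => Bl G (th θ (N i)) (N i) (24 * 2 ^ i : ℕ) ω v v with hm
  have bm : ∀ i t v, BM fun ω => Bl G (th θ (N i)) (N i) t ω v v := fun i t v =>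
    bm_Bl H (k0 i) (k i) _ _ (ed_root v)
  have ab : ∀ i ω v, |m i ω v| ≤ 1 := fun i ω v => abs_Bl H (k0 i) (k i) _ _ ω (ed_root v)
  have one : ∀ i j v, j ≤ i → 1 - vv G (th θ (N i)) (N i) v (24 * 2 ^ j : ℕ) ≤ (1 / 2) ^ j :=
    fun i j v hj => by
      have a := mom_one H (k0 i) (k i) _ _ (T := 24 * 2 ^ j) (le_trans (by gcongr; norm_num) (hN i).2)
        le_rfl v
      have b := (vv_bd H (k0 i) (k i) (N i) (24 * 2 ^ j : ℕ) v).2
      rw [one_div_pow, le_div_iff₀ (by positivity)]
      unfold vv at *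
      push_cast at *
      linarith
  have cv : ∀ v, ∀ᵐ ω ∂PO V, Tendsto (fun i => m i ω v) atTop
      (nhds (limsup (fun i => m i ω v) atTop)) := fun v => by
    refine (ae_summable (PO V) (fun i => (bm i _ v).sub (bm (i + 1) _ v)) (C := 4)
      (F := fun i ω => m i ω v - m (i + 1) ω v) (p := 1 / 2) (by norm_num) (by norm_num)
      fun i => ?_).mono fun ω hω => conv_of_summable hω (by simp)
    have a := u i _ (hN i).1.1 _ (hN (i + 1)).1.2 v
    have b := vv_incr H (k0 (i + 1)) (k (i + 1)) (N (i + 1)) v (s := (24 * 2 ^ i : ℕ))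
      (t := (24 * 2 ^ (i + 1) : ℕ)) (by gcongr <;> norm_num)
    have c := one (i + 1) i v i.le_succ
    have c' := (vv_bd H (k0 (i + 1)) (k (i + 1)) (N (i + 1)) (24 * 2 ^ (i + 1) : ℕ) v).2
    have b1 := ((bm i (24 * 2 ^ i : ℕ) v).sub (bm (i + 1) (24 * 2 ^ i : ℕ) v)).pow 2
    have b2 := ((bm (i + 1) (24 * 2 ^ (i + 1) : ℕ) v).sub (bm (i + 1) (24 * 2 ^ i : ℕ) v)).pow 2
    refine ((((bm i _ v).sub (bm (i + 1) _ v)).pow 2).mono ((b1.add b2).cmul 2) _ fun ω => ?_).trans ?_
    · generalize Bl G (th θ (N (i + 1))) (N (i + 1)) (24 * 2 ^ i : ℕ) ω v v = z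
      generalize Bl G (th θ (N (i + 1))) (N (i + 1)) (24 * 2 ^ (i + 1) : ℕ) ω v v = y
      generalize Bl G (th θ (N i)) (N i) (24 * 2 ^ i : ℕ) ω v v = x
      linear_combination sq_nonneg (x + y - 2 * z)
    · rw [integral_const_mul, b1.int_add b2, b]
      unfold Aa at a
      linarith
  refine ⟨fun ω v => limsup (fun i => m i ω v) atTop, fun v => Measurable.limsup fun i => (bm i _ v).1,
    fun g ω v => by simp only [hm, Bl_aut], fun v => ?_, fun A η hA => ?_⟩
  · refine ((cv v).and (ae_summable (PO V) (fun i => (BM.const 1).sub ((bm i _ v).pow 2)) (C := 1)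
      (F := fun i ω => 1 - m i ω v ^ 2) (p := 1 / 2) (by norm_num) (by norm_num)
      fun i => ?_)).mono fun ω h => (sub_eq_zero.1 (tendsto_nhds_unique ((h.1.pow 2).const_sub 1)
        h.2.of_abs.tendsto_atTop_zero)).symm
    have b := (BM.const 1).sub ((bm i (24 * 2 ^ i : ℕ) v).pow 2)
    refine ((b.pow 2).mono b _ fun ω => ?_).trans ?_
    · nlinarith [sq_le_one_of (ab i ω v), sq_nonneg (m i ω v)]
    · rw [(BM.const 1).int_sub ((bm i _ v).pow 2), one_mul]
      simpa [vv] using one i i v le_rfl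
  have := H.countable
  have t1 := tendsto_int (PO V) 1 (F := fun i ω => ∏ v ∈ A, (1 + sg (η v) * m i ω v) / 2)
    (fun i => (BM.prod _ fun v _ => ((BM.const 1).add ((bm i _ v).cmul _)).div_const 2).1)
    (fun i ω => by
      rw [abs_prod]
      refine prod_le_one (fun _ _ => abs_nonneg _) fun v _ => ?_
      have := abs_le.1 (ab i ω v)
      rw [abs_le]
      cases η v <;> simp only [sg_true, sg_false] <;> constructor <;> linarith)
    ((ae_all_iff.2 cv).mono fun ω hω => tendsto_finsetProd _ fun v _ =>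
      (((hω v).const_mul _).const_add _).div_const 2)
  have t2 := ((cont_weight (G := G) A η).tendsto θ).comp ((th_lim θ).comp
    (tendsto_atTop_mono (f := id) (g := N) (fun i => le_trans (by
      have := i.lt_two_pow_self; simp only [id]; omega) (hN i).2) tendsto_id))
  have t3 := (tendsto_pow_atTop_nhds_zero_of_lt_one (r := (1 / 2 : ℝ)) (by norm_num)
    (by norm_num)).const_mul (A.card : ℝ)
  have := le_of_tendsto_of_tendsto' (t2.sub t1).abs t3 fun i =>
    (Bl_pat H (k0 i) (k i) (N i) _ hA.nonempty.some hA η).trans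
      ((sum_le_card_nsmul _ _ _ fun v _ => one i i v le_rfl).trans_eq (nsmul_eq_mul _ _))
  rw [mul_zero, abs_nonpos_iff, sub_eq_zero] at this
  exact this.symm

end

end Crest.Agent.H0241
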