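import Crest.Agent.H0241.Aut

/-! Spectral gap of factors of independent labels on a regular tree. -/

set_option autoImplicit false

universe u

namespace Crest.Agent.H0241

open SimpleGraph MeasureTheory Filter Topology

section kernel
variable {V : Type*} {G : SimpleGraph V} [G.LocallyFinite]

theorem gap_sum_aut {M : Type*} [AddCommMonoid M] (g : G ≃g G) (u : V) (F : V → M) :
    ∑ w ∈ G.neighborFinset (g u), F w = ∑ w ∈ G.neighborFinset u, F (g w) := by
  symm
  apply Finset.sum_equiv g.toEquiv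
  · intro w
    simp only [mem_neighborFinset]
    exact g.map_adj_iff.symm
  · intro w _; rfl

theorem gap_weight (hT : G.IsTree) {d : ℕ} (hreg : G.IsRegularOfDegree d) (o u : V) :
    ∑ w ∈ G.neighborFinset u, (2 / 3 : ℝ) ^ G.dist o w ≤
      (2 / 3 * d + 5 / 6) * (2 / 3 : ℝ) ^ G.dist o u := by
  classical
  have hq : (0 : ℝ) ≤ (2 / 3 : ℝ) ^ G.dist o u := by positivity
  have h1 : ∀ w ∈ G.neighborFinset u, (2 / 3 : ℝ) ^ G.dist o w ≤ 2 / 3 * (2 / 3) ^ G.dist o u +
      if G.dist o w + 1 = G.dist o u then 5 / 6 * (2 / 3 : ℝ) ^ G.dist o u else 0 := by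
    intro w hw
    rcases hT.dist_eq_dist_add_one_of_adj o ((mem_neighborFinset _ _ _).1 hw) with h | h
    · rw [if_pos h.symm, h, pow_succ]
      linarith
    · rw [if_neg (by omega), h, pow_succ]
      linarith
  refine (Finset.sum_le_sum h1).trans ?_
  rw [Finset.sum_add_distrib, Finset.sum_const, card_neighborFinset_eq_degree, hreg u,
    ← Finset.sum_filter, Finset.sum_const, nsmul_eq_mul, nsmul_eq_mul]
  have h2 : (((G.neighborFinset u).filter fun w => G.dist o w + 1 = G.dist o u).card : ℝ) ≤ 1 := by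
    norm_cast
    rw [Finset.card_le_one]
    intro w hw w' hw'
    rw [Finset.mem_filter, mem_neighborFinset] at hw hw'
    exact aut_par_unique hT hw.1.symm hw'.1.symm hw.2 hw'.2
  nlinarith

theorem gap_kernel (hT : G.IsTree) {d : ℕ} (hd : 3 ≤ d) (hreg : G.IsRegularOfDegree d)
    {H : Type*} [NormedAddCommGroup H] [InnerProductSpace ℝ H] (ξ : V → H)
    (hinv : ∀ (g : G ≃g G) u v, inner ℝ (ξ (g u)) (ξ (g v)) = inner ℝ (ξ u) (ξ v)) (R : ℕ)
    (hR : ∀ u v, R < G.dist u v → inner ℝ (ξ u) (ξ v) = 0) {v w : V} (h : G.Adj v w) :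
    inner ℝ (ξ w) (ξ v) ≤ 17 / 18 * inner ℝ (ξ v) (ξ v) := by
  obtain ⟨X, X0, X1⟩ : ∃ X : ℕ → V → H, (∀ u, X 0 u = ξ u) ∧
      ∀ n u, X (n + 1) u = ∑ x ∈ G.neighborFinset u, X n x :=
    ⟨fun n => Nat.rec ξ (fun _ η u => ∑ x ∈ G.neighborFinset u, η x) n, fun _ => rfl,
      fun _ _ => rfl⟩
  have inv0 : ∀ j (g : G ≃g G) u v, inner ℝ (ξ (g u)) (X j (g v)) = inner ℝ (ξ u) (X j v) := by
    intro j
    induction j with
    | zero => simpa only [X0] using hinv
    | succ j ih => intro g u v; rw [X1, X1, gap_sum_aut, inner_sum, inner_sum]; simp only [ih]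
  have inv : ∀ i j (g : G ≃g G) u v,
      inner ℝ (X i (g u)) (X j (g v)) = inner ℝ (X i u) (X j v) := by
    intro i j
    induction i with
    | zero => simpa only [X0] using inv0 j
    | succ i ih => intro g u v; rw [X1, X1, gap_sum_aut, sum_inner, sum_inner]; simp only [ih]
  have shift : ∀ i j, inner ℝ (X (i + 1) v) (X j v) = inner ℝ (X i v) (X (j + 1) v) := by
    intro i j
    rw [X1, X1, sum_inner, inner_sum]
    apply Finset.sum_congr rfl
    intro x hx
    have hx' := (mem_neighborFinset _ _ _).1 hx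
    obtain ⟨g, g1, g2⟩ := exists_aut G hT hreg hx' hx'.symm
    rw [← inv i j g, g1, g2]
  have shift' : ∀ j i, inner ℝ (X i v) (X j v) = inner ℝ (X (i + j) v) (ξ v) := by
    intro j
    induction j with
    | zero => intro i; rw [X0, add_zero]
    | succ j ih => intro i; rw [← shift, ih, add_assoc, add_comm 1 j]
  set m : ℕ → ℝ := fun n => inner ℝ (X n v) (ξ v) with hm
  have m0 : m 0 = inner ℝ (ξ v) (ξ v) := by simp only [hm, X0]
  have cs : ∀ n, m n ^ 2 ≤ m (2 * n) * m 0 := by
    intro n
    have := real_inner_mul_inner_self_le (X n v) (ξ v)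
    rw [shift' n n, ← two_mul] at this
    rw [sq, m0]; exact this
  have hd' : (3 : ℝ) ≤ d := by exact_mod_cast hd
  have m1 : m 1 = d * inner ℝ (ξ w) (ξ v) := by
    simp only [hm]
    rw [X1 0, sum_inner, Finset.sum_congr rfl (g := fun _ => inner ℝ (ξ w) (ξ v)), Finset.sum_const,
      card_neighborFinset_eq_degree, hreg v, nsmul_eq_mul]
    intro x hx
    obtain ⟨g, g1, g2⟩ := exists_aut G hT hreg ((mem_neighborFinset _ _ _).1 hx) h
    rw [X0, ← hinv g, g1, g2]
  have hnorm : ∀ u, ‖ξ u‖ = ‖ξ v‖ := by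
    intro u
    obtain ⟨x, hx⟩ : ∃ x, G.Adj u x := by
      rw [← degree_pos_iff_exists_adj, hreg u]; omega
    obtain ⟨g, g1, -⟩ := exists_aut G hT hreg hx h
    have := hinv g u u
    rw [g1, real_inner_self_eq_norm_sq, real_inner_self_eq_norm_sq] at this
    exact (pow_left_inj₀ (norm_nonneg _) (norm_nonneg _) two_ne_zero).1 this.symm
  have m0n : 0 ≤ m 0 := m0 ▸ real_inner_self_nonneg
  set lam : ℝ := 2 / 3 * d + 5 / 6 with hlam
  have hlam0 : 0 < lam := by positivity
  have bd : ∀ n u, |inner ℝ (X n u) (ξ v)| ≤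
      m 0 * (3 / 2) ^ R * lam ^ n * (2 / 3) ^ G.dist v u := by
    intro n
    induction n with
    | zero =>
      intro u
      rw [X0, pow_zero, mul_one]
      by_cases hu : R < G.dist u v
      · rw [hR u v hu, abs_zero]; positivity
      · refine (abs_real_inner_le_norm _ _).trans ?_
        rw [hnorm, ← real_inner_self_eq_norm_mul_norm, ← m0, mul_assoc]
        apply le_mul_of_one_le_right m0n
        obtain ⟨k, hk⟩ := Nat.exists_eq_add_of_le (not_lt.1 hu)
        rw [hk, SimpleGraph.dist_comm, pow_add, mul_right_comm, ← mul_pow]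
        norm_num
        exact one_le_pow₀ (by norm_num)
    | succ n ih =>
      intro u
      rw [X1, sum_inner]
      refine (Finset.abs_sum_le_sum_abs _ _).trans ((Finset.sum_le_sum fun x _ => ih x).trans ?_)
      rw [← Finset.mul_sum, pow_succ, ← mul_assoc, mul_assoc _ lam]
      exact mul_le_mul_of_nonneg_left (gap_weight hT hreg v u) (by positivity)
  have key : m 1 ≤ lam * m 0 := by
    by_contra hc
    push Not at hc
    have m0p : 0 < m 0 := by
      rcases m0n.lt_or_eq with h0 | h0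
      · exact h0
      · have := (le_abs_self _).trans (bd 1 v)
        rw [← h0] at this hc
        simp only [zero_mul, mul_zero] at this hc
        exact absurd this (not_le.2 hc)
    set r := m 1 / (lam * m 0) with hr
    have hr1 : 1 < r := (one_lt_div (by positivity)).2 hc
    have h1 : ∀ j : ℕ, (r * lam) ^ 2 ^ j * m 0 ≤ m (2 ^ j) := by
      intro j
      induction j with
      | zero =>
        rw [pow_zero, pow_one, hr]
        apply le_of_eq
        field_simp
      | succ j ih =>
        have h2 := cs (2 ^ j)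
        rw [← pow_succ'] at h2
        have h3 : ((r * lam) ^ 2 ^ j * m 0) ^ 2 ≤ m (2 ^ j) ^ 2 :=
          pow_le_pow_left₀ (by positivity) ih 2
        rw [mul_pow, ← pow_mul, ← pow_succ, sq (m 0), ← mul_assoc] at h3
        exact le_of_mul_le_mul_right (h3.trans h2) m0p
    have h2 : ∀ j : ℕ, r ^ 2 ^ j ≤ (3 / 2) ^ R := by
      intro j
      have h3 := (h1 j).trans ((le_abs_self _).trans (bd (2 ^ j) v))
      rw [SimpleGraph.dist_self, pow_zero, mul_one, mul_pow] at h3
      have h4 : 0 < lam ^ 2 ^ j * m 0 := by positivity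
      apply le_of_mul_le_mul_right _ h4
      linarith
    obtain ⟨n, hn⟩ := pow_unbounded_of_one_lt ((3 / 2 : ℝ) ^ R) hr1
    have h3 : r ^ n ≤ r ^ 2 ^ n := pow_le_pow_right₀ hr1.le n.lt_two_pow_self.le
    linarith [h2 n]
  rw [m1, m0] at key
  rw [m0] at m0n
  apply le_of_mul_le_mul_left _ (by linarith : (0 : ℝ) < d)
  nlinarith

end kernel

section prob
variable {ι : Type*}

/-- independent uniform labels -/
noncomputable abbrev gapP (ι : Type*) : Measure (ι → unitInterval) :=
  Measure.infinitePi fun _ => volume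

open Classical in
/-- labels of `x` on `B`, labels of `y` off `B` -/
noncomputable def gapPw (B : Set ι) (x y : ι → unitInterval) : ι → unitInterval :=
  fun i => if i ∈ B then x i else y i

theorem gapPw_meas (B : Set ι) :
    Measurable fun z : (ι → unitInterval) × (ι → unitInterval) => gapPw B z.1 z.2 := by
  refine measurable_pi_lambda _ fun i => ?_
  unfold gapPw
  split_ifs <;> fun_prop

theorem gapPw_mp (B : Set ι) : MeasurePreserving
    (fun z : (ι → unitInterval) × (ι → unitInterval) => gapPw B z.1 z.2)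
    ((gapP ι).prod (gapP ι)) (gapP ι) := by
  classical
  refine ⟨gapPw_meas B, Measure.eq_infinitePi _ fun s t ht => ?_⟩
  rw [Measure.map_apply (gapPw_meas B) (MeasurableSet.pi s.countable_toSet fun i _ => ht i)]
  have : (fun z : (ι → unitInterval) × (ι → unitInterval) => gapPw B z.1 z.2) ⁻¹' Set.pi s t =
      Set.pi (s.filter (· ∈ B)) t ×ˢ Set.pi (s.filter (· ∉ B)) t := by
    ext z
    simp only [Set.mem_preimage, Set.mem_pi, Finset.mem_coe, Set.mem_prod, Finset.mem_filter,
      gapPw]
    constructor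
    · intro h
      exact ⟨fun i hi => by simpa [hi.2] using h i hi.1, fun i hi => by simpa [hi.2] using h i hi.1⟩
    · intro h i hi
      by_cases hB : i ∈ B
      · simpa [hB] using h.1 i ⟨hi, hB⟩
      · simpa [hB] using h.2 i ⟨hi, hB⟩
  rw [this, Measure.prod_prod, Measure.infinitePi_pi _ fun i _ => ht i,
    Measure.infinitePi_pi _ fun i _ => ht i, Finset.prod_filter_mul_prod_filter_not]

theorem gap_perm_meas (e : ι → ι) : Measurable fun (x : ι → unitInterval) p => x (e p) := by
  fun_prop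

theorem gap_perm_mp (e : ι ≃ ι) :
    MeasurePreserving (fun (x : ι → unitInterval) p => x (e p)) (gapP ι) (gapP ι) := by
  refine ⟨gap_perm_meas e, Measure.eq_infinitePi _ fun s t ht => ?_⟩
  rw [Measure.map_apply (gap_perm_meas e) (MeasurableSet.pi s.countable_toSet fun i _ => ht i)]
  have : (fun (x : ι → unitInterval) p => x (e p)) ⁻¹' Set.pi s t =
      Set.pi (s.map e.toEmbedding) fun i => t (e.symm i) := by
    ext x
    simp only [Set.mem_preimage, Set.mem_pi, Finset.mem_coe, Finset.mem_map_equiv]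
    exact ⟨fun h i hi => by simpa using h _ hi, fun h i hi => by simpa using h (e i) (by simpa)⟩
  rw [this, Measure.infinitePi_pi _ fun i _ => ht _, Finset.prod_map]
  simp

theorem gap_int_comp {α β : Type*} [MeasurableSpace α] [MeasurableSpace β] {μ : Measure α}
    {ν : Measure β} {T : α → β} (hT : MeasurePreserving T μ ν) {F : β → ℝ}
    (hF : AEStronglyMeasurable F ν) : ∫ x, F (T x) ∂μ = ∫ y, F y ∂ν := by
  rw [← hT.map_eq] at hF ⊢
  exact (integral_map hT.measurable.aemeasurable hF).symm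

theorem gap_integrable {α : Type*} [MeasurableSpace α] {μ : Measure α} [IsFiniteMeasure μ]
    {f : α → ℝ} (hf : Measurable f) {C : ℝ} (hC : ∀ x, |f x| ≤ C) : Integrable f μ :=
  Integrable.of_bound hf.aestronglyMeasurable C (Eventually.of_forall hC)

/-- average out the labels outside `B` -/
noncomputable def gapAv (B : Set ι) (f : (ι → unitInterval) → ℝ) (x : ι → unitInterval) : ℝ :=
  ∫ y, f (gapPw B x y) ∂gapP ι

theorem gapAv_meas (B : Set ι) {f : (ι → unitInterval) → ℝ} (hf : Measurable f) :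
    Measurable (gapAv B f) :=
  ((hf.comp (gapPw_meas B)).stronglyMeasurable.integral_prod_right' (ν := gapP ι)).measurable

theorem gapAv_bound (B : Set ι) {f : (ι → unitInterval) → ℝ} {C : ℝ} (hC : ∀ x, |f x| ≤ C)
    (x : ι → unitInterval) : |gapAv B f x| ≤ C := by
  have := norm_integral_le_of_norm_le_const (μ := gapP ι) (f := fun y => f (gapPw B x y)) (C := C)
    (Eventually.of_forall fun y => hC _)
  simpa [gapAv] using this

theorem gapAv_int (B : Set ι) {f : (ι → unitInterval) → ℝ} (hf : Measurable f) {C : ℝ}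
    (hC : ∀ x, |f x| ≤ C) : ∫ x, gapAv B f x ∂gapP ι = ∫ x, f x ∂gapP ι := by
  rw [← gap_int_comp (gapPw_mp B) hf.aestronglyMeasurable,
    integral_prod (fun z : _ × _ => f (gapPw B z.1 z.2))
      (gap_integrable (hf.comp (gapPw_meas B)) fun z => hC _)]
  rfl

theorem gapAv_congr (B : Set ι) (f : (ι → unitInterval) → ℝ) {x x' : ι → unitInterval}
    (h : ∀ i ∈ B, x i = x' i) : gapAv B f x = gapAv B f x' := by
  have : ∀ y, gapPw B x y = gapPw B x' y := by
    intro y; funext i; by_cases hi : i ∈ B <;> simp [gapPw, hi, h]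
  simp only [gapAv, this]

theorem gapAv_indep {B B' : Set ι} (hB : Disjoint B B') {f f' : (ι → unitInterval) → ℝ}
    (hf : Measurable f) (hf' : Measurable f') :
    ∫ x, gapAv B f x * gapAv B' f' x ∂gapP ι =
      (∫ x, gapAv B f x ∂gapP ι) * ∫ x, gapAv B' f' x ∂gapP ι := by
  rw [← gap_int_comp (gapPw_mp B) (F := fun x => gapAv B f x * gapAv B' f' x)
    ((gapAv_meas B hf).mul (gapAv_meas B' hf')).aestronglyMeasurable, ← integral_prod_mul]
  congr 1
  funext z
  rw [gapAv_congr B f (x' := z.1) fun i hi => by simp [gapPw, hi],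
    gapAv_congr B' f' (x' := z.2) fun i hi => by simp [gapPw, Set.disjoint_right.1 hB hi]]

theorem gapAv_equiv (e : ι ≃ ι) {B B' : Set ι} (hB : ∀ p, e p ∈ B' ↔ p ∈ B)
    {f f' : (ι → unitInterval) → ℝ} (hf : Measurable f) (h : ∀ x, f' x = f fun p => x (e p))
    (x : ι → unitInterval) : gapAv B' f' x = gapAv B f fun p => x (e p) := by
  have h1 : ∀ y, (fun p => gapPw B' x y (e p)) = gapPw B (fun p => x (e p)) fun p => y (e p) := by
    intro y; funext p; by_cases hp : p ∈ B <;> simp [gapPw, hB, hp]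
  simp only [gapAv, h, h1]
  exact gap_int_comp (gap_perm_mp e) (F := fun y => f (gapPw B (fun p => x (e p)) y))
    (hf.comp ((gapPw_meas B).comp measurable_prodMk_left)).aestronglyMeasurable

theorem gapAv_dist (B : Set ι) {f ψ : (ι → unitInterval) → ℝ} (hf : Measurable f) {C : ℝ}
    (hC : ∀ x, |f x| ≤ C) (hψ : Integrable ψ (gapP ι)) (hB : ∀ x y, ψ (gapPw B x y) = ψ x) :
    ∫ x, |gapAv B f x - f x| ∂gapP ι ≤ 2 * ∫ x, |ψ x - f x| ∂gapP ι := by
  have hfi : Integrable f (gapP ι) := gap_integrable hf hC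
  have hh : Integrable (fun x => |ψ x - f x|) (gapP ι) := (hψ.sub hfi).abs
  have hF : Integrable (fun z : (ι → unitInterval) × (ι → unitInterval) =>
      |ψ (gapPw B z.1 z.2) - f (gapPw B z.1 z.2)|) ((gapP ι).prod (gapP ι)) :=
    (gapPw_mp B).integrable_comp_of_integrable hh
  have h1 := gap_int_comp (gapPw_mp B) hh.aestronglyMeasurable
  rw [integral_prod _ hF] at h1
  have h2 : ∀ x, |gapAv B f x - f x| ≤
      ∫ y, |ψ (gapPw B x y) - f (gapPw B x y)| ∂gapP ι + |ψ x - f x| := by
    intro x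
    have h3 : Integrable (fun y => f (gapPw B x y)) (gapP ι) :=
      gap_integrable (hf.comp ((gapPw_meas B).comp measurable_prodMk_left)) fun y => hC _
    have h4 : ψ x - gapAv B f x = ∫ y, (ψ x - f (gapPw B x y)) ∂gapP ι := by
      rw [integral_sub (integrable_const _) h3]; simp [gapAv]
    have h5 : |ψ x - gapAv B f x| ≤ ∫ y, |ψ (gapPw B x y) - f (gapPw B x y)| ∂gapP ι := by
      rw [h4]; simp only [hB]; exact abs_integral_le_integral_abs
    have h6 := abs_sub_le (gapAv B f x) (ψ x) (f x)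
    rw [abs_sub_comm (gapAv B f x) (ψ x)] at h6
    linarith
  refine (integral_mono_of_nonneg (Eventually.of_forall fun x => abs_nonneg _)
    (hF.integral_prod_left.add hh) (Eventually.of_forall h2)).trans ?_
  rw [integral_add' hF.integral_prod_left hh, h1, two_mul]

theorem gapAv_tendsto (B : ℕ → Set ι) (hm : Monotone B) (hB : ∀ i, ∃ n, i ∈ B n)
    {f : (ι → unitInterval) → ℝ} (hf : Measurable f) {C : ℝ} (hC : ∀ x, |f x| ≤ C) :
    Tendsto (fun n => ∫ x, |gapAv (B n) f x - f x| ∂gapP ι) atTop (𝓝 0) := by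
  have hfi : Integrable f (gapP ι) := gap_integrable hf hC
  let ℱ : Filtration ℕ (MeasurableSpace.pi : MeasurableSpace (ι → unitInterval)) :=
    { seq := fun n => MeasurableSpace.pi.comap fun (x : ι → unitInterval) (i : B n) => x i
      mono' := fun n k hnk => by
        have : (fun (x : ι → unitInterval) (i : B n) => x i) =
            (fun (y : B k → unitInterval) (i : B n) => y ⟨i, hm hnk i.2⟩) ∘
              fun (x : ι → unitInterval) (i : B k) => x i := rfl
        simp only
        rw [this, ← MeasurableSpace.comap_comp]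
        exact MeasurableSpace.comap_mono (Measurable.comap_le (by fun_prop))
      le' := fun n => Measurable.comap_le (by fun_prop) }
  have hsup : (MeasurableSpace.pi : MeasurableSpace (ι → unitInterval)) ≤ ⨆ n, ℱ n := by
    refine iSup_le fun i => ?_
    obtain ⟨n, hn⟩ := hB i
    refine le_trans ?_ (le_iSup _ n)
    have : (fun (x : ι → unitInterval) => x i) =
        (fun (y : B n → unitInterval) => y ⟨i, hn⟩) ∘
          fun (x : ι → unitInterval) (i : B n) => x i := rfl
    rw [this, ← MeasurableSpace.comap_comp]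
    exact MeasurableSpace.comap_mono (Measurable.comap_le (by fun_prop))
  have h1 := hfi.tendsto_eLpNorm_condExp (ℱ := ℱ) (hf.stronglyMeasurable.mono hsup)
  have h2 : Tendsto (fun n => 2 * ∫ x, |((gapP ι)[f | ℱ n]) x - f x| ∂gapP ι) atTop (𝓝 0) := by
    have h3 := ((ENNReal.tendsto_toReal ENNReal.zero_ne_top).comp h1).const_mul 2
    simp only [ENNReal.toReal_zero, mul_zero] at h3
    refine h3.congr fun n => ?_
    have := integral_norm_eq_lintegral_enorm (μ := gapP ι) (f := (gapP ι)[f | ℱ n] - f)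
      (integrable_condExp.sub hfi).aestronglyMeasurable
    simp only [Function.comp, eLpNorm_one_eq_lintegral_enorm, ← this]
    rfl
  refine squeeze_zero (fun n => integral_nonneg fun x => abs_nonneg _) (fun n => ?_) h2
  refine gapAv_dist _ hf hC integrable_condExp fun x y => ?_
  apply (stronglyMeasurable_condExp (m := ℱ n) (μ := gapP ι) (f := f)).factorsThrough
  funext i
  simp [gapPw, i.2]

end prob

theorem gap_dist_aut {V : Type*} {G : SimpleGraph V} (hG : G.Connected) (g : G ≃g G) (u v : V) :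
    G.dist (g u) (g v) = G.dist u v := by
  have key : ∀ (g : G ≃g G) u v, G.dist (g u) (g v) ≤ G.dist u v := by
    intro g u v
    obtain ⟨p, hp⟩ := hG.exists_walk_length_eq_dist u v
    have := dist_le (p.map g.toHom)
    rwa [Walk.length_map, hp] at this
  refine le_antisymm (key g u v) ?_
  simpa using key g.symm (g u) (g v)

theorem gap_centred {d : ℕ} (hd : 3 ≤ d) {V : Type*} (G : SimpleGraph V) [G.LocallyFinite]
    (hT : G.IsTree) (hreg : G.IsRegularOfDegree d) {K : Type*}
    (φ : V → (V × K → unitInterval) → ℝ) (C : ℝ) (hm : ∀ v, Measurable (φ v))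
    (hC : ∀ v x, |φ v x| ≤ C)
    (he : ∀ (g : G ≃g G) v x, φ (g v) x = φ v fun p => x (g p.1, p.2))
    (h0 : ∀ v, ∫ x, φ v x ∂gapP (V × K) = 0) {v w : V} (h : G.Adj v w) :
    ∫ x, φ w x * φ v x ∂gapP (V × K) ≤ 17 / 18 * ∫ x, φ v x * φ v x ∂gapP (V × K) := by
  let B : ℕ → V → Set (V × K) := fun n u => {p | G.dist u p.1 ≤ n}
  let ψ : ℕ → V → (V × K → unitInterval) → ℝ := fun n u => gapAv (B n u) (φ u)
  have ψm : ∀ n u, Measurable (ψ n u) := fun n u => gapAv_meas _ (hm u)
  have ψC : ∀ n u x, |ψ n u x| ≤ C := fun n u => gapAv_bound _ (hC u)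
  have hC0 : 0 ≤ C := (abs_nonneg _).trans (hC v fun _ => 0)
  have mulC : ∀ {a b : ℝ}, |a| ≤ C → |b| ≤ C → |a * b| ≤ C * C := fun ha hb => by
    rw [abs_mul]; exact mul_le_mul ha hb (abs_nonneg _) hC0
  have loc : ∀ n, ∫ x, ψ n w x * ψ n v x ∂gapP (V × K) ≤
      17 / 18 * ∫ x, ψ n v x * ψ n v x ∂gapP (V × K) := by
    intro n
    have hL : ∀ u, MemLp (ψ n u) 2 (gapP (V × K)) := fun u =>
      MemLp.of_bound (ψm n u).aestronglyMeasurable C (Eventually.of_forall (ψC n u))
    have hin : ∀ u u', inner ℝ ((hL u).toLp _) ((hL u').toLp _) =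
        ∫ x, ψ n u x * ψ n u' x ∂gapP (V × K) := by
      intro u u'
      rw [L2.inner_def]
      apply integral_congr_ae
      filter_upwards [(hL u).coeFn_toLp, (hL u').coeFn_toLp] with x h1 h2
      rw [h1, h2]; simp [mul_comm]
    rw [← hin, ← hin]
    refine gap_kernel hT hd hreg (fun u => (hL u).toLp _) (fun g u u' => ?_) (2 * n)
      (fun u u' hu => ?_) h
    · rw [hin, hin]
      have h1 : ∀ u x, ψ n (g u) x = ψ n u fun p => x (g.toEquiv.prodCongr (Equiv.refl K) p) :=
        fun u => gapAv_equiv _ (fun p => by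
          show G.dist (g u) (g p.1) ≤ n ↔ G.dist u p.1 ≤ n
          rw [gap_dist_aut hT.connected]) (hm u) (he g u)
      simp only [h1]
      exact gap_int_comp (gap_perm_mp (g.toEquiv.prodCongr (Equiv.refl K)))
        (F := fun x => ψ n u x * ψ n u' x) ((ψm n u).mul (ψm n u')).aestronglyMeasurable
    · rw [hin, gapAv_indep _ (hm u) (hm u'), gapAv_int _ (hm u) (hC u), h0, zero_mul]
      rw [Set.disjoint_left]
      intro p h1 h2
      have h3 := hT.connected.dist_triangle (u := u) (v := p.1) (w := u')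
      have h4 : G.dist u p.1 ≤ n := h1
      have h5 : G.dist u' p.1 ≤ n := h2
      rw [SimpleGraph.dist_comm] at h5
      omega
  have l1 : ∀ u, Tendsto (fun n => ∫ x, |ψ n u x - φ u x| ∂gapP (V × K)) atTop (𝓝 0) :=
    fun u => gapAv_tendsto (fun n => B n u) (fun _ _ hnk _ hp => le_trans hp hnk)
      (fun p => ⟨_, le_refl (G.dist u p.1)⟩) (hm u) (hC u)
  have l2 : ∀ u u', Tendsto (fun n => ∫ x, ψ n u x * ψ n u' x ∂gapP (V × K)) atTop
      (𝓝 (∫ x, φ u x * φ u' x ∂gapP (V × K))) := by
    intro u u'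
    rw [tendsto_iff_norm_sub_tendsto_zero]
    have h1 := ((l1 u).add (l1 u')).const_mul C
    rw [add_zero, mul_zero] at h1
    refine squeeze_zero (fun n => norm_nonneg _) (fun n => ?_) h1
    have hi : ∀ u, Integrable (fun x => |ψ n u x - φ u x|) (gapP (V × K)) := fun u =>
      ((gap_integrable (ψm n u) (ψC n u)).sub (gap_integrable (hm u) (hC u))).abs
    have i1 : Integrable (fun x => ψ n u x * ψ n u' x) (gapP (V × K)) :=
      gap_integrable ((ψm n u).mul (ψm n u')) fun x => mulC (ψC n u x) (ψC n u' x)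
    have i2 : Integrable (fun x => φ u x * φ u' x) (gapP (V × K)) :=
      gap_integrable ((hm u).mul (hm u')) fun x => mulC (hC u x) (hC u' x)
    rw [← integral_sub i1 i2, ← integral_add (hi u) (hi u'), ← integral_const_mul]
    refine norm_integral_le_of_norm_le (((hi u).add (hi u')).const_mul C)
      (Eventually.of_forall fun x => ?_)
    have e : ψ n u x * ψ n u' x - φ u x * φ u' x =
        ψ n u' x * (ψ n u x - φ u x) + φ u x * (ψ n u' x - φ u' x) := by ring
    rw [Real.norm_eq_abs, e, mul_add]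
    refine (abs_add_le _ _).trans (add_le_add ?_ ?_) <;> rw [abs_mul]
    · exact mul_le_mul_of_nonneg_right (ψC n u' x) (abs_nonneg _)
    · exact mul_le_mul_of_nonneg_right (hC u x) (abs_nonneg _)
  exact le_of_tendsto_of_tendsto' (l2 w v) ((l2 v v).const_mul _) loc

/-- spectral gap with the explicit constant `1 / 9` -/
theorem gap_ninth {d : ℕ} (hd : 3 ≤ d) {V : Type*} (G : SimpleGraph V) [G.LocallyFinite]
    (hT : G.IsTree) (hreg : G.IsRegularOfDegree d) {K : Type*}
    (φ : V → (V × K → unitInterval) → ℝ) (C : ℝ) (hm : ∀ v, Measurable (φ v))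
    (hC : ∀ v x, |φ v x| ≤ C)
    (he : ∀ (g : G ≃g G) v x, φ (g v) x = φ v fun p => x (g p.1, p.2)) (v w : V) (h : G.Adj v w) :
    1 / 9 * (∫ x, (φ v x) ^ 2 ∂gapP (V × K) - (∫ x, φ v x ∂gapP (V × K)) ^ 2) ≤
      ∫ x, (φ v x - φ w x) ^ 2 ∂gapP (V × K) := by
  have tr : ∀ (F : ℝ → ℝ), Measurable F → ∀ u,
      ∫ x, F (φ u x) ∂gapP (V × K) = ∫ x, F (φ v x) ∂gapP (V × K) := by
    intro F hF u
    obtain ⟨x, hx⟩ : ∃ x, G.Adj u x := by
      rw [← degree_pos_iff_exists_adj, hreg u]; omega
    obtain ⟨g, rfl, -⟩ := exists_aut G hT hreg h hx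
    simp only [he]
    exact gap_int_comp (gap_perm_mp (g.toEquiv.prodCongr (Equiv.refl K)))
      (F := fun x => F (φ v x)) (hF.comp (hm v)).aestronglyMeasurable
  set m := ∫ x, φ v x ∂gapP (V × K) with hmdef
  have hi : ∀ u, Integrable (φ u) (gapP (V × K)) := fun u => gap_integrable (hm u) (hC u)
  have hb : ∀ u x, |φ u x - m| ≤ C + |m| := fun u x =>
    (abs_sub _ _).trans (add_le_add_left (hC u x) _)
  have hfm : ∀ u, Measurable fun x => φ u x - m := fun u => (hm u).sub_const m
  have key := gap_centred hd G hT hreg (fun u x => φ u x - m) (C + |m|) hfm hb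
    (fun g u x => by rw [he]) (fun u => by
      rw [integral_sub (hi u) (integrable_const _), tr (fun r => r) measurable_id u]; simp [hmdef]) h
  have hp : ∀ u u', Integrable (fun x => (φ u x - m) * (φ u' x - m)) (gapP (V × K)) :=
    fun u u' => gap_integrable ((hfm u).mul (hfm u')) (C := (C + |m|) * (C + |m|)) fun x => by
      rw [abs_mul]
      exact mul_le_mul (hb u x) (hb u' x) (abs_nonneg _) ((abs_nonneg _).trans (hb u x))
  have e1 : ∫ x, (φ v x - φ w x) ^ 2 ∂gapP (V × K) =
      ∫ x, (φ v x - m) * (φ v x - m) ∂gapP (V × K) + ∫ x, (φ w x - m) * (φ w x - m) ∂gapP (V × K) -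
        2 * ∫ x, (φ w x - m) * (φ v x - m) ∂gapP (V × K) := by
    have i1 : Integrable (fun x => (φ v x - m) * (φ v x - m) + (φ w x - m) * (φ w x - m))
      (gapP (V × K)) := (hp v v).add (hp w w)
    rw [← integral_add (hp v v) (hp w w), ← integral_const_mul,
      ← integral_sub i1 ((hp w v).const_mul 2)]
    congr 1; funext x; ring
  have e2 := tr (fun r => (r - m) * (r - m)) (by fun_prop) w
  have e3 : ∫ x, (φ v x) ^ 2 ∂gapP (V × K) =
      ∫ x, (φ v x - m) * (φ v x - m) ∂gapP (V × K) + m ^ 2 := by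
    have : ∀ x, (φ v x) ^ 2 = (φ v x - m) * (φ v x - m) + (2 * m * φ v x - m ^ 2) := fun x => by
      ring
    simp only [this]
    have i1 : Integrable (fun x => 2 * m * φ v x - m ^ 2) (gapP (V × K)) :=
      ((hi v).const_mul _).sub (integrable_const _)
    rw [integral_add (hp v v) i1,
      integral_sub ((hi v).const_mul _) (integrable_const _), integral_const_mul, ← hmdef]
    simp only [integral_const, probReal_univ, one_smul]
    ring
  rw [e1, e3]
  linarith

theorem gap (d : ℕ) (hd : 3 ≤ d) : ∃ c > (0 : ℝ), ∀ {V : Type u} (G : SimpleGraph V)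
    [G.LocallyFinite] (_ : G.IsTree) (_ : G.IsRegularOfDegree d) {K : Type} [Countable K]
    (φ : V → (V × K → unitInterval) → ℝ) (C : ℝ), (∀ v, Measurable (φ v)) →
    (∀ v x, |φ v x| ≤ C) →
    (∀ (g : G ≃g G) v x, φ (g v) x = φ v (fun p => x (g p.1, p.2))) → ∀ v w, G.Adj v w →
    c * (∫ x, (φ v x) ^ 2 ∂(Measure.infinitePi fun _ => volume) -
        (∫ x, φ v x ∂(Measure.infinitePi fun _ => volume)) ^ 2) ≤
      ∫ x, (φ v x - φ w x) ^ 2 ∂(Measure.infinitePi fun _ => volume) :=
  ⟨1 / 9, by norm_num, fun G _ hT hreg _ _ φ C hm hC he v w h =>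
    gap_ninth hd G hT hreg φ C hm hC he v w h⟩

end Crest.Agent.H0241
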