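import Crest.Agent.H0241.Mom3
import Crest.Agent.H0241.Gap

set_option autoImplicit false
set_option linter.unusedSectionVars false
open Finset Filter MeasureTheory

namespace Crest.Agent.H0241

noncomputable section
open Classical

variable {V : Type*} {G : SimpleGraph V} [G.LocallyFinite]

def Eqv (G : SimpleGraph V) (F : Om V → V → V → ℝ) : Prop :=
  ∀ (g : G ≃g G) ω a b, F ω (g a) (g b) = F (tr g ω) a b

lemma int_var {X : Type*} [MeasurableSpace X] (μ : Measure X) [IsProbabilityMeasure μ] {f : X → ℝ}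
    (hf : BM f) (c : ℝ) : ∫ x, (f x - c) ^ 2 ∂μ = ∫ x, f x ^ 2 ∂μ - 2 * c * ∫ x, f x ∂μ + c ^ 2 := by
  have : ∀ x, (f x - c) ^ 2 = f x ^ 2 - 2 * c * f x + c ^ 2 := fun x => by ring
  simp only [this]
  rw [((hf.pow 2).sub (hf.cmul _)).int_add (BM.const _), (hf.pow 2).int_sub (hf.cmul _),
    integral_const_mul]
  simp

lemma dsum_comm (o : V) (A : V → V → ℝ) :
    ∑ z ∈ ch G o o, ∑ w ∈ ch G o z, A z w = ∑ w ∈ ch G o o, ∑ z ∈ ch G o w, A z w :=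
  sum_comm' fun z w => by
    simp only [mem_ch]
    exact ⟨fun h => ⟨⟨h.2.1.symm, h.1.2⟩, h.2.2.ne', h.2.2⟩,
      fun h => ⟨⟨h.1.2.ne', h.1.2⟩, h.1.1.symm, h.2.2⟩⟩

variable {d : ℕ} (H : TR G d)
include H

lemma int_tr {F : Om V → V → V → ℝ} (h : Eqv G F) {a b a' b' : V} (e : G.Adj a b)
    (e' : G.Adj a' b') (hb : BM fun ω => F ω a b) :
    ∫ ω, F ω a' b' ∂PO V = ∫ ω, F ω a b ∂PO V := by
  obtain ⟨g, rfl, rfl⟩ := exists_aut G H.tree H.reg e e'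
  simp only [h g]
  exact hb.int_comp (tr_mp g)

lemma int_sum_tr {F : Om V → V → V → ℝ} (h : Eqv G F) (hb : ∀ a b, G.Adj a b → BM fun ω => F ω a b)
    {a b : V} (e : G.Adj a b) (w v : V) :
    ∫ ω, ∑ z ∈ ch G w v, F ω z w ∂PO V = (ch G w v).card * ∫ ω, F ω a b ∂PO V := by
  rw [BM.int_sum _ fun z hz => hb z w (ch_adj hz),
    sum_congr rfl fun z hz => int_tr H h e (ch_adj hz) (hb a b e), sum_const, nsmul_eq_mul]

lemma mass {ρ F f Γ : Om V → V → V → ℝ} {α : Om V → V → ℝ} (eρ : Eqv G ρ) (eF : Eqv G F)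
    (eΓ : Eqv G Γ) (eα : Eqv G fun ω a _ => α ω a) (bρ : ∀ a b, G.Adj a b → BM fun ω => ρ ω a b)
    (bF : ∀ a b, Ed G a b → BM fun ω => F ω a b) (bf : ∀ a b, Ed G a b → BM fun ω => f ω a b)
    (bΓ : ∀ a b, G.Adj a b → BM fun ω => Γ ω a b) (bα : ∀ a, BM fun ω => α ω a)
    (hF : ∀ ω w v, Ed G w v → F ω w v = f ω w v + ∑ z ∈ ch G w v, ρ ω z w * F ω z w)
    (hΓ : ∀ ω w v, G.Adj w v → Γ ω w v = 1 + ∑ z ∈ ch G w v, ρ ω z w * Γ ω z w)
    (hr : ∀ᵐ ω ∂PO V, ∀ w v, G.Adj w v → α ω v * ρ ω w v = α ω w * ρ ω v w) (o : V) :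
    ∫ ω, α ω o * F ω o o ∂PO V =
      ∫ ω, α ω o * (f ω o o + ∑ z ∈ ch G o o, ρ ω z o * Γ ω z o * f ω o z) ∂PO V := by
  have b1 : ∀ w ∈ ch G o o, BM fun ω => α ω o * ρ ω w o * Γ ω o w * F ω w o := fun w hw =>
    (((bα o).mul (bρ _ _ (ch_adj hw))).mul (bΓ _ _ (ch_adj hw).symm)).mul (bF _ _ (ch_ed hw))
  have b2 : ∀ w ∈ ch G o o, BM fun ω => α ω o * ρ ω w o * Γ ω w o * F ω o w := fun w hw =>
    (((bα o).mul (bρ _ _ (ch_adj hw))).mul (bΓ _ _ (ch_adj hw))).mul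
      (bF _ _ (Or.inl (ch_adj hw).symm))
  have e : ∑ w ∈ ch G o o, ∫ ω, α ω o * ρ ω w o * Γ ω o w * F ω w o ∂PO V =
      ∑ w ∈ ch G o o, ∫ ω, α ω o * ρ ω w o * Γ ω w o * F ω o w ∂PO V := sum_congr rfl fun w hw => by
    rw [← int_tr H (F := fun ω a b => α ω a * ρ ω b a * Γ ω a b * F ω b a)
      (fun g ω a b => by simp only [eρ g, eF g, eΓ g, eα g ω a b]) (ch_adj hw).symm (ch_adj hw)
      (b1 w hw)]
    refine integral_congr_ae ?_
    filter_upwards [hr] with ω hω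
    rw [hω w o (ch_adj hw)]
  rw [← BM.int_sum _ b1, ← BM.int_sum _ b2, ← sub_eq_zero,
    ← (BM.sum _ b1).int_sub (BM.sum _ b2)] at e
  rw [← sub_eq_zero, ← ((bα o).mul (bF _ _ (ed_root o))).int_sub ((bα o).mul ((bf _ _ (ed_root o)).add
    (BM.sum _ fun z hz => ((bρ _ _ (ch_adj hz)).mul (bΓ _ _ (ch_adj hz))).mul
      (bf _ _ (Or.inl (ch_adj hz).symm))))), ← e]
  congr 1; funext ω
  rw [hF ω o o (ed_root o), sum_congr rfl (s₂ := ch G o o)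
      (f := fun w => α ω o * ρ ω w o * Γ ω o w * F ω w o)
      (g := fun w => α ω o * (ρ ω w o * F ω w o) +
        ∑ z ∈ ch G o w, α ω o * ρ ω z o * Γ ω z o * (ρ ω w o * F ω w o)) fun w hw => by
        rw [hΓ ω o w (ch_adj hw).symm, mul_add, add_mul, mul_sum, sum_mul]
        congr 1
        · ring
        · exact sum_congr rfl fun z _ => by ring,
    sum_congr rfl (s₂ := ch G o o) (f := fun w => α ω o * ρ ω w o * Γ ω w o * F ω o w)
      (g := fun z => α ω o * (ρ ω z o * Γ ω z o * f ω o z) +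
        ∑ w ∈ ch G o z, α ω o * ρ ω z o * Γ ω z o * (ρ ω w o * F ω w o)) fun z hz => by
        rw [hF ω o z (Or.inl (ch_adj hz).symm), mul_add, mul_sum]
        congr 1
        ring,
    sum_add_distrib, sum_add_distrib, dsum_comm, ← mul_sum, ← mul_sum]
  ring

section
variable {D Y x s : Om V → V → V → ℝ} (eD : Eqv G D) (ex : Eqv G x) (es : Eqv G s)
  (bD : ∀ a b, G.Adj a b → BM fun ω => D ω a b) (bx : ∀ a b, G.Adj a b → BM fun ω => x ω a b)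
  (bs : ∀ a b, G.Adj a b → BM fun ω => s ω a b)
  (hY : ∀ ω a b, Y ω a b = x ω a b * D ω a b + s ω a b)
  (hD : ∀ ω v w, G.Adj v w → D ω v w = ∑ z ∈ ch G v w, Y ω z v)
  (hx : ∀ ω a b, G.Adj a b → 0 ≤ x ω a b ∧ ((d : ℝ) - 1) * x ω a b ≤ 1) {v w : V} (e : G.Adj v w)
include eD ex es bD bx bs hY hD hx e

lemma gapfix_core {γ : ℝ} (γ0 : 0 < γ) :
    ∫ ω, D ω v w ^ 2 ∂PO V ≤ (∫ ω, D ω v w ∂PO V) ^ 2 + (546 + 108 * ((d : ℝ) - 1) ^ 2) *
      (γ * ∫ ω, D ω v w ^ 2 ∂PO V + (1 + 1 / γ) * ((d : ℝ) - 1) ^ 2 * ∫ ω, s ω v w ^ 2 ∂PO V) ∧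
    (∫ ω, (1 - (((d : ℝ) - 1) * x ω v w) ^ 2) ∂PO V) * (∫ ω, D ω v w ∂PO V) ^ 2 ≤
      (546 + 108 * ((d : ℝ) - 1) ^ 2) *
      (γ * ∫ ω, D ω v w ^ 2 ∂PO V + (1 + 1 / γ) * ((d : ℝ) - 1) ^ 2 * ∫ ω, s ω v w ^ 2 ∂PO V) := by
  have hd : (3 : ℝ) ≤ d := by exact_mod_cast H.hd
  obtain ⟨k, hk⟩ : ∃ k, k = (d : ℝ) - 1 := ⟨_, rfl⟩
  rw [← hk] at hx ⊢
  have eY : Eqv G Y := fun g ω a b => by rw [hY, hY, eD g, ex g, es g]
  have bY : ∀ a b, G.Adj a b → BM fun ω => Y ω a b := fun a b h => by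
    simp only [hY]; exact ((bx a b h).mul (bD a b h)).add (bs a b h)
  obtain ⟨φ, hφ⟩ : ∃ φ : V → Om V → ℝ, φ = fun u ω => (∑ z ∈ ch G u u, Y ω z u) / d := ⟨_, rfl⟩
  have bφ : ∀ u, BM (φ u) := fun u => hφ ▸ (BM.sum _ fun z hz => bY _ _ (ch_adj hz)).div_const _
  have eφ : ∀ (g : G ≃g G) u ω, φ (g u) ω = φ u (tr g ω) := fun g u ω => by
    simp only [hφ, sum_ch_aut, eY g]
  have d0 : (d : ℝ) ≠ 0 := by linarith
  have hS : ∀ u ω, ∑ z ∈ ch G u u, Y ω z u = d * φ u ω := fun u ω => by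
    rw [hφ]; field_simp
  have hD' : ∀ ω u z, G.Adj u z → D ω u z = d * φ u ω - Y ω z u := fun ω u z h => by
    rw [hD ω u z h, ← hS, ch_root_eq h, sum_insert (not_mem_ch _ _)]; ring
  have cd : ∀ u, ((ch G u u).card : ℝ) = d := fun u => by rw [card_ch_root H.reg]
  set N := ∫ ω, D ω v w ^ 2 ∂PO V
  set σ := ∫ ω, s ω v w ^ 2 ∂PO V
  set μ := ∫ ω, D ω v w ∂PO V
  set P := ∫ ω, (1 - (k * x ω v w) ^ 2) * D ω v w ^ 2 ∂PO V with hP
  set Y2 := ∫ ω, Y ω v w ^ 2 ∂PO V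
  set W := ∫ ω, (Y ω v w - φ w ω) ^ 2 ∂PO V
  have x1 : ∀ ω, 0 ≤ k * x ω v w ∧ k * x ω v w ≤ 1 := fun ω =>
    ⟨mul_nonneg (by linarith) (hx ω v w e).1, (hx ω v w e).2⟩
  have x2 : ∀ ω, 0 ≤ 1 - (k * x ω v w) ^ 2 := fun ω => by nlinarith [x1 ω]
  have P0 : 0 ≤ P := integral_nonneg fun ω => mul_nonneg (x2 ω) (sq_nonneg _)
  have σ0 : 0 ≤ σ := integral_nonneg fun ω => sq_nonneg _
  have N0 : 0 ≤ N := integral_nonneg fun ω => sq_nonneg _
  have W0 : 0 ≤ W := integral_nonneg fun ω => sq_nonneg _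
  have bW : ∀ a b, G.Adj a b → BM fun ω => (Y ω a b - φ b ω) ^ 2 := fun a b h =>
    ((bY a b h).sub (bφ b)).pow 2
  have eW : Eqv G fun ω a b => (Y ω a b - φ b ω) ^ 2 := fun g ω a b => by simp only [eY g, eφ]
  have bP := ((BM.const 1).sub (((bx v w e).cmul k).pow 2)).mul ((bD v w e).pow 2)
  have bD2 := (bD v w e).pow 2
  have bs2 := (bs v w e).pow 2
  have i1 : N = k ^ 2 * Y2 - d * (d - 2) * W := by
    have a1 := int_sum_tr H (F := fun ω a b => D ω b a ^ 2) (fun g ω a b => by simp only [eD g])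
      (fun a b h => (bD b a h.symm).pow 2) e.symm v v
    have a2 := int_sum_tr H (F := fun ω a b => Y ω a b ^ 2) (fun g ω a b => by simp only [eY g])
      (fun a b h => (bY a b h).pow 2) e v v
    have a3 := int_sum_tr H eW bW e v v
    rw [cd] at a1 a2 a3
    refine mul_left_cancel₀ d0 ?_
    rw [← a1, mul_sub, mul_left_comm, ← a2, mul_left_comm (d : ℝ) (d * (d - 2)), ← a3,
      ← integral_const_mul, ← integral_const_mul,
      ← ((BM.sum _ fun z hz => (bY _ _ (ch_adj hz)).pow 2).cmul _).int_sub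
        ((BM.sum _ fun z hz => bW _ _ (ch_adj hz)).cmul _)]
    congr 1; funext ω
    rw [sum_congr rfl fun z hz => by rw [hD' ω v z (ch_adj hz).symm]]
    simp only [sub_sq, sum_add_distrib, sum_sub_distrib, sum_const, nsmul_eq_mul, cd, ← mul_sum,
      ← sum_mul, hS, hk]
    ring
  obtain ⟨E, hE⟩ : ∃ E, E = γ * N + (1 + 1 / γ) * k ^ 2 * σ := ⟨_, rfl⟩
  rw [← hE]
  have i2 : k ^ 2 * Y2 ≤ N + E - (1 + γ) * P := by
    have := (((bY v w e).pow 2).cmul (k ^ 2)).mono (((bD2.sub bP).cmul (1 + γ)).add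
      (bs2.cmul ((1 + 1 / γ) * k ^ 2))) (PO V) fun ω => by
        rw [hY]
        have : (1 + γ) * (D ω v w ^ 2 - (1 - (k * x ω v w) ^ 2) * D ω v w ^ 2) +
            (1 + 1 / γ) * k ^ 2 * s ω v w ^ 2 - k ^ 2 * (x ω v w * D ω v w + s ω v w) ^ 2 =
            (γ * (k * x ω v w * D ω v w) - k * s ω v w) ^ 2 / γ := by field_simp; ring
        linarith [div_nonneg (sq_nonneg (γ * (k * x ω v w * D ω v w) - k * s ω v w)) γ0.le]
    rw [((bD2.sub bP).cmul _).int_add (bs2.cmul _), integral_const_mul, integral_const_mul,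
      integral_const_mul, bD2.int_sub bP] at this
    linarith
  have kσ : k ^ 2 * σ ≤ E := by
    have : 0 ≤ 1 / γ * (k ^ 2 * σ) := by positivity
    nlinarith [mul_nonneg γ0.le N0]
  have E0 : 0 ≤ E := le_trans (by positivity) kσ
  have dW : W ≤ d * (d - 2) * W := le_mul_of_one_le_left W0 (by nlinarith)
  have i3 : W ≤ E := by nlinarith [mul_nonneg γ0.le P0]
  have i4 : P ≤ E := by nlinarith [mul_nonneg γ0.le P0]
  have bψ := fun u => (bφ u).cmul k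
  have j1 : ∫ ω, (D ω v w - k * φ v ω) ^ 2 ∂PO V = W := by
    refine Eq.trans ?_ (int_tr H eW e e.symm (bW v w e))
    congr 1; funext ω; rw [hD' ω v w e, hk]; ring
  have bj := ((bD v w e).sub (bψ v)).pow 2
  have j2 : ∫ ω, (k * φ v ω - k * φ w ω) ^ 2 ∂PO V ≤ 3 * (5 + k ^ 2) * E := by
    have := (((bψ v).sub (bψ w)).pow 2).mono ((((bj.cmul 3).add (bP.cmul 6)).add
      (bs2.cmul (6 * k ^ 2))).add ((bW v w e).cmul (3 * k ^ 2))) (PO V) fun ω => by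
        have a : ((1 - k * x ω v w) * D ω v w) ^ 2 ≤ (1 - (k * x ω v w) ^ 2) * D ω v w ^ 2 := by
          rw [mul_pow]; exact mul_le_mul_of_nonneg_right (by nlinarith [x1 ω]) (sq_nonneg _)
        have b : k * φ v ω - k * φ w ω = -(D ω v w - k * φ v ω) +
            ((1 - k * x ω v w) * D ω v w - k * s ω v w) + k * (Y ω v w - φ w ω) := by
          rw [hY]; ring
        have c : ∀ p q r t : ℝ, (-p + (q - r) + t) ^ 2 ≤ 3 * p ^ 2 + 6 * q ^ 2 + 6 * r ^ 2 + 3 * t ^ 2 :=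
          fun p q r t => by
            nlinarith [sq_nonneg (p + (q - r)), sq_nonneg (p + t), sq_nonneg (q - r - t), sq_nonneg (q + r)]
        rw [b]
        refine (c _ _ _ _).trans ?_
        rw [mul_pow k, mul_pow k]
        linarith
    rw [BM.int_add (((bj.cmul 3).add (bP.cmul 6)).add (bs2.cmul _)) ((bW v w e).cmul _),
      BM.int_add ((bj.cmul 3).add (bP.cmul 6)) (bs2.cmul _), BM.int_add (bj.cmul 3) (bP.cmul 6)] at this
    simp only [integral_const_mul, j1] at this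
    nlinarith [mul_le_mul_of_nonneg_left i3 (sq_nonneg k)]
  have j3 : ∫ ω, k * φ v ω ∂PO V = μ := by
    have a1 := int_sum_tr H eY bY e v v
    have a2 := int_sum_tr H eY bY e v w
    simp only [hS, integral_const_mul, cd] at a1
    rw [Sys.card_ch' H e, ← hk] at a2
    rw [integral_const_mul, mul_left_cancel₀ d0 a1, ← a2]
    congr 1; funext ω; exact (hD ω v w e).symm
  obtain ⟨C, hC⟩ := (bφ v).2
  have j4 := gap_ninth H.hd G H.tree H.reg (fun u ω => k * φ u ω) (|k| * C) (fun u => (bψ u).1)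
    (fun u ω => by
      obtain ⟨z, hz⟩ : (ch G u u).Nonempty := by rw [← card_pos, card_ch_root H.reg]; have := H.hd; omega
      obtain ⟨g, rfl, -⟩ := exists_aut G H.tree H.reg e (ch_adj hz).symm
      rw [abs_mul, eφ]
      exact mul_le_mul_of_nonneg_left (hC _) (abs_nonneg _))
    (fun g u ω => by simp only [eφ]; rfl) v w e
  have j5 := int_var (PO V) (bψ v) μ
  change _ * (∫ ω, (k * φ v ω) ^ 2 ∂PO V - (∫ ω, k * φ v ω ∂PO V) ^ 2) ≤
    ∫ ω, (k * φ v ω - k * φ w ω) ^ 2 ∂PO V at j4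
  rw [j3] at j4 j5
  have bv := ((bD v w e).sub (BM.const μ)).pow 2
  have j6 : ∫ ω, (D ω v w - μ) ^ 2 ∂PO V ≤ (2 + 54 * (5 + k ^ 2)) * E := by
    have := bv.mono ((bj.cmul 2).add ((((bψ v).sub (BM.const μ)).pow 2).cmul 2)) (PO V) fun ω => by
      nlinarith [sq_nonneg (D ω v w - k * φ v ω - (k * φ v ω - μ))]
    rw [BM.int_add (bj.cmul 2) ((((bψ v).sub (BM.const μ)).pow 2).cmul 2), integral_const_mul,
      integral_const_mul, j1, j5] at this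
    linarith
  have j7 := int_var (PO V) (bD v w e) μ
  have kE := mul_nonneg (sq_nonneg k) E0
  refine ⟨by nlinarith, ?_⟩
  have b0 := (BM.const 1).sub (((bx v w e).cmul k).pow 2)
  have := (b0.mul (BM.const (μ ^ 2))).mono ((bP.cmul 2).add (bv.cmul 2)) (PO V) fun ω => by
    have a : μ ^ 2 ≤ 2 * D ω v w ^ 2 + 2 * (D ω v w - μ) ^ 2 := by
      nlinarith [sq_nonneg (2 * D ω v w - μ)]
    nlinarith [mul_le_mul_of_nonneg_left a (x2 ω), mul_nonneg (sq_nonneg (k * x ω v w))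
      (sq_nonneg (D ω v w - μ))]
  rw [BM.int_add (bP.cmul 2) (bv.cmul 2), integral_const_mul, integral_const_mul,
    integral_mul_const] at this
  linarith

lemma gapfix₁ : ∫ ω, D ω v w ^ 2 ∂PO V ≤ 2 * (∫ ω, D ω v w ∂PO V) ^ 2 +
    6 * (546 + 108 * ((d : ℝ) - 1) ^ 2) ^ 2 * ((d : ℝ) - 1) ^ 2 * ∫ ω, s ω v w ^ 2 ∂PO V := by
  have σ0 : 0 ≤ ((d : ℝ) - 1) ^ 2 * ∫ ω, s ω v w ^ 2 ∂PO V :=
    mul_nonneg (sq_nonneg _) (integral_nonneg fun ω => sq_nonneg _)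
  have a := fun γ γ0 => (gapfix_core H eD ex es bD bx bs hY hD hx e (γ := γ) γ0).1
  have C1 : 1 ≤ 546 + 108 * ((d : ℝ) - 1) ^ 2 := by nlinarith [sq_nonneg ((d : ℝ) - 1)]
  simp only [mul_assoc] at a ⊢
  generalize 546 + 108 * ((d : ℝ) - 1) ^ 2 = C at *
  have := a (1 / (2 * C)) (by positivity)
  rw [one_div_one_div, mul_add, ← mul_assoc, show C * (1 / (2 * C)) = 1 / 2 by field_simp] at this
  nlinarith [mul_le_mul_of_nonneg_right C1 (mul_nonneg (by linarith : 0 ≤ C) σ0)]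

lemma gapfix₂ {κ : ℝ} (κ0 : 0 < κ) (κ1 : κ ≤ 1)
    (hκ : κ ≤ ∫ ω, (1 - (((d : ℝ) - 1) * x ω v w) ^ 2) ∂PO V) :
    κ ^ 2 * (∫ ω, D ω v w ∂PO V) ^ 2 ≤
      20 * (546 + 108 * ((d : ℝ) - 1) ^ 2) ^ 2 * ((d : ℝ) - 1) ^ 2 * ∫ ω, s ω v w ^ 2 ∂PO V := by
  have σ0 : 0 ≤ ((d : ℝ) - 1) ^ 2 * ∫ ω, s ω v w ^ 2 ∂PO V :=
    mul_nonneg (sq_nonneg _) (integral_nonneg fun ω => sq_nonneg _)
  have a := fun γ γ0 => gapfix_core H eD ex es bD bx bs hY hD hx e (γ := γ) γ0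
  have C1 : 1 ≤ 546 + 108 * ((d : ℝ) - 1) ^ 2 := by nlinarith [sq_nonneg ((d : ℝ) - 1)]
  have v0 : 0 ≤ ∫ ω, (D ω v w - ∫ ω, D ω v w ∂PO V) ^ 2 ∂PO V := integral_nonneg fun _ => sq_nonneg _
  rw [int_var (PO V) (bD v w e)] at v0
  simp only [mul_assoc] at a ⊢
  generalize 546 + 108 * ((d : ℝ) - 1) ^ 2 = C at *
  obtain ⟨a1, a2⟩ := a (κ / (4 * C)) (by positivity)
  rw [one_div_div, mul_add, ← mul_assoc C, show C * (κ / (4 * C)) = κ / 4 by field_simp] at a1 a2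
  generalize ∫ ω, D ω v w ^ 2 ∂PO V = N at *
  generalize ∫ ω, D ω v w ∂PO V = μ at *
  generalize ((d : ℝ) - 1) ^ 2 * ∫ ω, s ω v w ^ 2 ∂PO V = σ at *
  have b1 := (mul_le_mul_of_nonneg_right hκ (sq_nonneg μ)).trans a2
  have b2 : κ * (C * ((1 + 4 * C / κ) * σ)) ≤ 5 * (C ^ 2 * σ) := by
    rw [show κ * (C * ((1 + 4 * C / κ) * σ)) = (κ + 4 * C) * (C * σ) by field_simp]
    nlinarith [mul_le_mul_of_nonneg_right (κ1.trans C1) (mul_nonneg (by linarith : 0 ≤ C) σ0)]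
  have T0 : 0 ≤ C * ((1 + 4 * C / κ) * σ) := by positivity
  generalize C * ((1 + 4 * C / κ) * σ) = T at *
  have N0 : 0 ≤ N := by nlinarith [sq_nonneg μ]
  have b3 : κ * N ≤ 4 * T := by
    nlinarith [mul_le_mul_of_nonneg_left a1 κ0.le, mul_le_mul_of_nonneg_right κ1 T0,
      mul_le_mul_of_nonneg_right κ1 (mul_nonneg κ0.le N0)]
  nlinarith [mul_le_mul_of_nonneg_left b3 κ0.le,
    mul_le_mul_of_nonneg_left (show μ ^ 2 ≤ N by nlinarith) (sq_nonneg κ)]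

end

end

end Crest.Agent.H0241
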