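import Crest.Agent.H0241.Cmp

set_option autoImplicit false
set_option linter.unusedSectionVars false
open Finset Filter MeasureTheory

namespace Crest.Agent.H0241

noncomputable section
open Classical

section trunc
variable {X : Type*} [MeasurableSpace X] (μ : Measure X) [IsProbabilityMeasure μ]

lemma trunc_chi {f Z : X → ℝ} (hf : BM f) (hZ : BM Z) (f0 : ∀ x, 0 ≤ f x)
    (Z0 : ∀ x, 0 ≤ Z x ∧ Z x ≤ 1) {l : ℝ} (l0 : 0 < l) {i : ℕ} (hi : 1 ≤ i)
    (h : ∫ x, Real.exp (2 ^ i * l * f x) ∂μ ≤ Real.exp (2 ^ i * l * (i + 1 / l))) {p : ℕ}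
    (hp : p ≤ 2) :
    ∫ x, f x ^ p * Z x ∂μ ≤ (2 * i + 4 / l) ^ p * ∫ x, Z x ∂μ + 2 / l ^ 2 * Real.exp (-2 ^ i) := by
  obtain ⟨M, hM⟩ : ∃ M, M = 2 * (i : ℝ) + 4 / l := ⟨_, rfl⟩
  have M1 : 1 ≤ M := by
    have : (1 : ℝ) ≤ i := by exact_mod_cast hi
    have : 0 < 4 / l := by positivity
    linarith
  have t : (2 : ℝ) ≤ 2 ^ i := by simpa using pow_le_pow_right₀ (one_le_two (α := ℝ)) hi
  have bE := (hf.cmul (2 ^ i * l)).cont Real.continuous_exp
  rw [← hM]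
  refine (((hf.pow p).mul hZ).mono ((hZ.cmul (M ^ p)).add
    (bE.cmul (2 / l ^ 2 * Real.exp (-((2 ^ i * l - l) * M))))) μ fun x => ?_).trans ?_
  · by_cases c : f x ≤ M
    · have := mul_le_mul_of_nonneg_right (pow_le_pow_left₀ (f0 x) c p) (Z0 x).1
      have : 0 ≤ 2 / l ^ 2 * Real.exp (-((2 ^ i * l - l) * M)) * Real.exp (2 ^ i * l * f x) := by
        positivity
      linarith
    · have c := (not_le.1 c).le
      have a1 : f x ^ p * Z x ≤ f x ^ 2 := (mul_le_of_le_one_right (pow_nonneg (f0 x) p)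
        (Z0 x).2).trans (pow_le_pow_right₀ (M1.trans c) hp)
      have a2 : f x ^ 2 ≤ 2 / l ^ 2 * Real.exp (l * f x) := by
        have := Real.pow_div_factorial_le_exp (l * f x) (mul_nonneg l0.le (f0 x)) 2
        rw [div_mul_eq_mul_div, le_div_iff₀ (by positivity)]
        norm_num [mul_pow] at this
        linarith
      have a3 : Real.exp (l * f x) ≤
          Real.exp (-((2 ^ i * l - l) * M)) * Real.exp (2 ^ i * l * f x) := by
        rw [← Real.exp_add, Real.exp_le_exp]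
        nlinarith [mul_nonneg (by nlinarith : 0 ≤ 2 ^ i * l - l) (sub_nonneg.2 c)]
      have a4 := mul_le_mul_of_nonneg_left a3 (by positivity : 0 ≤ 2 / l ^ 2)
      have : 0 ≤ M ^ p * Z x := mul_nonneg (by positivity) (Z0 x).1
      linarith
  · rw [(hZ.cmul _).int_add (bE.cmul _), integral_const_mul, integral_const_mul, mul_assoc]
    refine add_le_add_right (mul_le_mul_of_nonneg_left ((mul_le_mul_of_nonneg_left h
      (Real.exp_pos _).le).trans ?_) (by positivity)) _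
    rw [← Real.exp_add, Real.exp_le_exp]
    have e1 : l * (1 / l) = 1 := by field_simp
    have e2 : 2 ^ i * l / 2 * M ≤ (2 ^ i * l - l) * M :=
      mul_le_mul_of_nonneg_right (by nlinarith) (by linarith)
    have e3 : 2 ^ i * l / 2 * M = 2 ^ i * l * i + 2 * 2 ^ i := by rw [hM]; field_simp; ring
    have e4 : 2 ^ i * l * (i + 1 / l) = 2 ^ i * l * i + 2 ^ i := by field_simp
    linarith

lemma trunc_b {b Z : X → ℝ} (hb : BM b) (hZ : BM Z) (b1 : ∀ x, |b x| ≤ 1)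
    (Z0 : ∀ x, 0 ≤ Z x ∧ Z x ≤ 4) {m M : ℝ} (m0 : 0 ≤ m)
    (h : ∫ x, Real.cosh (m * b x) ∂μ ≤ 5 / 4) :
    ∫ x, b x ^ 2 * Z x ∂μ ≤ M ^ 2 * ∫ x, Z x ∂μ + 10 * Real.exp (-(m * M)) := by
  have bE := (hb.cmul m).cont Real.continuous_cosh
  refine (((hb.pow 2).mul hZ).mono ((hZ.cmul (M ^ 2)).add
    (bE.cmul (8 * Real.exp (-(m * M))))) μ fun x => ?_).trans ?_
  · have c0 := Real.cosh_pos (m * b x)
    by_cases c : |b x| ≤ M
    · have := mul_le_mul_of_nonneg_right (pow_le_pow_left₀ (abs_nonneg _) c 2) (Z0 x).1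
      rw [sq_abs] at this
      have : 0 ≤ 8 * Real.exp (-(m * M)) * Real.cosh (m * b x) := by positivity
      linarith
    · have a1 : b x ^ 2 * Z x ≤ 1 * 4 := mul_le_mul (sq_le_one_of (b1 x)) (Z0 x).2 (Z0 x).1 zero_le_one
      have a2 : 1 ≤ Real.exp (-(m * M)) * (2 * Real.cosh (m * b x)) := by
        rw [← Real.cosh_abs, Real.cosh_eq, mul_div_cancel₀ _ two_ne_zero, mul_add, ← Real.exp_add,
          abs_mul, abs_of_nonneg m0]
        have := Real.one_le_exp (x := -(m * M) + m * |b x|)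
          (by nlinarith [mul_le_mul_of_nonneg_left (not_le.1 c).le m0])
        have : 0 < Real.exp (-(m * M)) * Real.exp (-(m * |b x|)) := by positivity
        linarith
      have : 0 ≤ M ^ 2 * Z x := mul_nonneg (by positivity) (Z0 x).1
      linarith
  · rw [(hZ.cmul _).int_add (bE.cmul _), integral_const_mul, integral_const_mul]
    nlinarith [Real.exp_pos (-(m * M))]

lemma four_mom {f : X → ℝ} (hf : BM f) (f0 : ∀ x, 0 ≤ f x) {l : ℝ} (l0 : 0 < l)
    (h : ∫ x, Real.exp (l * f x) ∂μ ≤ 3) : ∫ x, f x ^ 4 ∂μ ≤ 72 / l ^ 4 ∧ ∫ x, f x ∂μ ≤ 3 / l := by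
  have bE := (hf.cmul l).cont Real.continuous_exp
  constructor
  · refine ((hf.pow 4).mono (bE.cmul (24 / l ^ 4)) μ fun x => ?_).trans ?_
    · have := Real.pow_div_factorial_le_exp (l * f x) (mul_nonneg l0.le (f0 x)) 4
      rw [div_mul_eq_mul_div, le_div_iff₀ (by positivity)]
      norm_num [mul_pow, Nat.factorial] at this
      linarith
    · rw [integral_const_mul]
      exact (mul_le_mul_of_nonneg_left h (by positivity)).trans_eq (by ring)
  · rw [le_div_iff₀' l0, ← integral_const_mul]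
    exact ((hf.cmul l).mono bE μ fun x => by linarith [Real.add_one_le_exp (l * f x)]).trans h

end trunc

variable {V : Type*} {G : SimpleGraph V} [G.LocallyFinite]

def KF (G : SimpleGraph V) [G.LocallyFinite] (θ θ' : ℝ) (B B' : V → V → ℝ) (o : V) (R : ℕ) : ℝ :=
  8 * ((1 - B o o ^ 2) ^ 2 * DS G (fun a b => rr θ (B a b) ^ 2) (fun _ => 1) R o o +
    (1 - B' o o ^ 2) ^ 2 * DS G (fun a b => rr θ' (B' a b) ^ 2) (fun _ => 1) R o o -
    2 * ((1 - B o o ^ 2) * (1 - B' o o ^ 2)) *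
      DS G (fun a b => rr θ (B a b) * rr θ' (B' a b)) (fun _ => 1) R o o) +
    32 * ((1 - B' o o ^ 2) ^ 2 *
      DS G (fun a b => rr θ' (B' a b) ^ 2) (fun u => (B u u - B' u u) ^ 2) R o o)

def Aa (G : SimpleGraph V) [G.LocallyFinite] (θ θ' : ℝ) (N N' : ℕ) (o : V) (τ : ℝ) : ℝ :=
  ∫ ω, (Bl G θ N τ ω o o - Bl G θ' N' τ ω o o) ^ 2 ∂PO V

def vv (G : SimpleGraph V) [G.LocallyFinite] (θ : ℝ) (N : ℕ) (o : V) (τ : ℝ) : ℝ :=
  ∫ ω, Bl G θ N τ ω o o ^ 2 ∂PO V

variable {d : ℕ} (H : TR G d) {θ : ℝ} (h0 : 0 ≤ θ) (h : ((d : ℝ) - 1) * θ ^ 2 < 1) (N : ℕ)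
include H h0 h

lemma vv_lim (τ : ℝ) (c o : V) : Tendsto (fun R => ∫ ω, (Sy G θ N c R).B G τ ω o o ^ 2 ∂PO V) atTop
    (nhds (vv G θ N o τ)) := by
  refine tendsto_int (PO V) 1 (fun R => ((bm_Sy H h0 h N τ c R (ed_root o)).pow 2).1) (fun R ω => ?_) ?_
  · rw [abs_sq]
    exact sq_le_one_of (Sys.abs_B_lt H.tree (Sy_ok' H h0 h N c R) τ ω (ed_root o)).le
  · filter_upwards [ae_conv H h0 h N τ] with ω hω using (hω c o o (ed_root o)).pow 2

lemma vv_bd (τ : ℝ) (o : V) : 0 ≤ vv G θ N o τ ∧ vv G θ N o τ ≤ 1 :=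
  ⟨integral_nonneg fun _ => sq_nonneg _, (((bm_Bl H h0 h N τ (ed_root o)).pow 2).mono (BM.const 1) _
    fun ω => sq_le_one_of (abs_Bl H h0 h N τ ω (ed_root o))).trans (by simp)⟩

lemma Bl_pat (τ : ℝ) (c : V) {A : Finset V} (hA : (G.induce (A : Set V)).Connected) (η : V → Bool) :
    |Crest.ProbabilityR.TreeIsing.isingWeight G θ A η -
      ∫ ω, ∏ v ∈ A, (1 + sg (η v) * Bl G θ N τ ω v v) / 2 ∂PO V| ≤ ∑ v ∈ A, (1 - vv G θ N v τ) := by
  have hS := Sy_ok' H h0 h N c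
  refine le_of_tendsto_of_tendsto' ((tendsto_int (PO V) 1
    (F := fun R ω => ∏ v ∈ A, (1 + sg (η v) * (Sy G θ N c R).B G τ ω v v) / 2)
    (fun R => (BM.prod _ fun v _ => ((BM.const 1).add
      ((bm_Sy H h0 h N τ c R (ed_root v)).cmul _)).div_const 2).1) (fun R ω => ?_) ?_).const_sub _).abs
    (tendsto_finsetSum _ fun v _ => (vv_lim H h0 h N τ c v).const_sub 1) fun R => ?_
  · rw [abs_prod]
    refine prod_le_one (fun _ _ => abs_nonneg _) fun v _ => ?_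
    have := abs_lt.1 (Sys.abs_B_lt H.tree (hS R) τ ω (ed_root v))
    rw [abs_le]
    cases η v <;> simp only [sg_true, sg_false] <;> constructor <;> linarith
  · filter_upwards [ae_conv H h0 h N τ] with ω hω using tendsto_finsetProd _ fun v _ =>
      (((hω c v v (ed_root v)).const_mul _).const_add _).div_const 2
  · refine (Sys.int_pat H.tree (hS R) τ c hA η).trans_eq (sum_congr rfl fun v _ => ?_)
    rw [(BM.const 1).int_sub ((bm_Sy H h0 h N τ c R (ed_root v)).pow 2)]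
    simp

variable {θ' : ℝ} (h0' : 0 ≤ θ') (h' : ((d : ℝ) - 1) * θ' ^ 2 < 1) (N' : ℕ)
include h0' h'

lemma Bl_lim2 (τ τ' : ℝ) (o : V) : Tendsto (fun R => ∫ ω, ((Sy G θ N o R).B G τ ω o o -
    (Sy G θ' N' o R).B G τ' ω o o) ^ 2 ∂PO V) atTop
    (nhds (∫ ω, (Bl G θ N τ ω o o - Bl G θ' N' τ' ω o o) ^ 2 ∂PO V)) := by
  refine tendsto_int (PO V) 4 (fun R => (((bm_Sy H h0 h N τ o R (ed_root o)).sub
    (bm_Sy H h0' h' N' τ' o R (ed_root o))).pow 2).1) (fun R ω => sq_diff_le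
      (Sys.abs_B_lt H.tree (Sy_ok' H h0 h N o R) τ ω (ed_root o)).le
      (Sys.abs_B_lt H.tree (Sy_ok' H h0' h' N' o R) τ' ω (ed_root o)).le) ?_
  filter_upwards [ae_conv H h0 h N τ, ae_conv H h0' h' N' τ'] with ω a b using
    ((a o o o (ed_root o)).sub (b o o o (ed_root o))).pow 2

lemma Aa_mono (o : V) {s t : ℝ} (hst : s ≤ t) : Aa G θ θ' N N' o s ≤ Aa G θ θ' N N' o t :=
  le_of_tendsto_of_tendsto' (Bl_lim2 H h0 h N h0' h' N' s s o) (Bl_lim2 H h0 h N h0' h' N' t t o)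
    fun R => Sys.energy_mono H.tree (Sy_ok' H h0 h N o R) (Sy_ok' H h0' h' N' o R) o hst

omit h0' h' in
lemma vv_incr (o : V) {s t : ℝ} (hst : s ≤ t) :
    ∫ ω, (Bl G θ N t ω o o - Bl G θ N s ω o o) ^ 2 ∂PO V = vv G θ N o t - vv G θ N o s :=
  tendsto_nhds_unique (Bl_lim2 H h0 h N h0 h N t s o)
    (((vv_lim H h0 h N t o o).sub (vv_lim H h0 h N s o o)).congr
      fun R => (Sys.energy_incr H.tree (Sy_ok' H h0 h N o R) o hst).symm)

omit h0' h' in
lemma vv_mono (o : V) {s t : ℝ} (hst : s ≤ t) : vv G θ N o s ≤ vv G θ N o t := by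
  rw [← sub_nonneg, ← vv_incr H h0 h N o hst]
  exact integral_nonneg fun _ => sq_nonneg _

omit h0 h h0' h' in
lemma Kf_eq {n : ℤ} (hn : n ∈ Icc (-N : ℤ) N) (hn' : n ∈ Icc (-N' : ℤ) N') (o : V) (R : ℕ) (τ : ℝ)
    (ω : Om V) : ∑ u ∈ bl G R o o, Sys.Kf G (Sy G θ N o R) (Sy G θ' N' o R) o (u, n) τ ω =
      KF G θ θ' ((Sy G θ N o R).B G τ ω) ((Sy G θ' N' o R).B G τ ω) o R := by
  simp only [KF, DS_eq H.tree, sq (rr _ _), PP_mul H.tree, mul_sum, ← sum_add_distrib,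
    ← sum_sub_distrib]
  refine sum_congr rfl fun u hu => ?_
  rw [Sys.Kf, Sys.cv, Sys.cv, if_pos (show (u, n) ∈ (Sy G θ N o R).R from mem_product.2 ⟨hu, hn⟩),
    if_pos (show (u, n) ∈ (Sy G θ' N' o R).R from mem_product.2 ⟨hu, hn'⟩)]
  simp only [Cv, show (Sy G θ N o R).θ = θ from rfl, show (Sy G θ' N' o R).θ = θ' from rfl]
  ring

lemma Aa_energy {n : ℤ} (hn : n ∈ Icc (-N : ℤ) N) (hn' : n ∈ Icc (-N' : ℤ) N') (o : V) {s t : ℝ}
    (hs : n ≤ s) (hst : s ≤ t) (ht : t ≤ n + 1) {K : ℝ} (hK : 0 ≤ K)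
    (hb : ∀ τ, s ≤ τ → τ < t → ∫ ω, KI G θ θ' (Bl G θ N τ ω) (Bl G θ' N' τ ω) o ∂PO V ≤ K) :
    Aa G θ θ' N N' o t - Aa G θ θ' N N' o s ≤ (t - s) * (2 * en n ^ 2 * K) := by
  have hS := Sy_ok' H h0 h N o
  have hS' := Sy_ok' H h0' h' N' o
  have l1 := lt_one_of_sq (H.half h.le)
  have l1' := lt_one_of_sq (H.half h'.le)
  have q := sub_mul_lt H h h'
  obtain ⟨C, hC⟩ : ∃ C, ∀ (B B' : V → V → ℝ) R, (∀ a b, Ed G a b → |B a b| ≤ 1) →
      (∀ a b, Ed G a b → |B' a b| ≤ 1) → |KF G θ θ' B B' o R| ≤ C := by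
    refine ⟨8 * (2 / (1 - ((d : ℝ) - 1) * θ ^ 2) + 2 / (1 - ((d : ℝ) - 1) * θ' ^ 2) +
      2 * (2 / (1 - ((d : ℝ) - 1) * (θ * θ')))) + 32 * (4 * (2 / (1 - ((d : ℝ) - 1) * θ' ^ 2))),
      fun B B' R a a' => ?_⟩
    have b : |1 - B o o ^ 2| ≤ 1 := abs_le.2
      ⟨by linarith [sq_le_one_of (a o o (ed_root o))], by linarith [sq_nonneg (B o o)]⟩
    have b' : |1 - B' o o ^ 2| ≤ 1 := abs_le.2
      ⟨by linarith [sq_le_one_of (a' o o (ed_root o))], by linarith [sq_nonneg (B' o o)]⟩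
    have c1 := DS_bd H (sq_nonneg θ) h (bd_rr2 h0 l1 a) (f := fun _ => 1) (C := 1) (by simp) R o o
    have c2 := DS_bd H (sq_nonneg θ') h' (bd_rr2 h0' l1' a') (f := fun _ => 1) (C := 1) (by simp) R o o
    have c3 := DS_bd H (mul_nonneg h0 h0') q (bd_rr11 h0 l1 h0' l1' a a') (f := fun _ => 1) (C := 1)
      (by simp) R o o
    have c4 := DS_bd H (sq_nonneg θ') h' (bd_rr2 h0' l1' a')
      (fun u => sq_diff_le (a u u (ed_root u)) (a' u u (ed_root u))) R o o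
    unfold KF
    grw [abs_add_le, abs_mul, abs_mul 32, abs_sub, abs_add_le, abs_mul, abs_mul, abs_mul, abs_mul,
      abs_mul, abs_mul, abs_pow, abs_pow, b, b', c1, c2, c3, c4]
    simp
  have bK := fun R => ((BM.sum (bl G R o o) fun u _ => Sys.bm_Kf H.tree (hS R) (hS' R) o (u, n)
    (τ := fun q : unitInterval × Om V => n + q.1) (by fun_prop) measurable_snd).integral_right
      (PO V)).cmul (2 * en n ^ 2)
  have bd : ∀ R τ ω, |∑ u ∈ bl G R o o, Sys.Kf G (Sy G θ N o R) (Sy G θ' N' o R) o (u, n) τ ω| ≤ C :=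
    fun R τ ω => by
      rw [Kf_eq H N N' hn hn']
      exact hC _ _ _ (fun a b c => (Sys.abs_B_lt H.tree (hS R) τ ω c).le)
        fun a b c => (Sys.abs_B_lt H.tree (hS' R) τ ω c).le
  refine lim_int (ms_int n s t) (vol_int n s t hst) (by positivity)
    (g := fun R x => 2 * en n ^ 2 * ∫ ω, ∑ u ∈ bl G R o o,
      Sys.Kf G (Sy G θ N o R) (Sy G θ' N' o R) o (u, n) (n + x) ω ∂PO V) (fun R => (bK R).1)
    (C := 2 * en n ^ 2 * C) (fun R x => ?_)
    (fun x hx => ⟨_, mul_le_mul_of_nonneg_left (hb _ hx.1 hx.2) (by positivity),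
      Tendsto.const_mul _ (tendsto_int (PO V) C (F := fun R ω => ∑ u ∈ bl G R o o,
        Sys.Kf G (Sy G θ N o R) (Sy G θ' N' o R) o (u, n) (n + x) ω) (fun R => (BM.sum _ fun u _ =>
        Sys.bm_Kf H.tree (hS R) (hS' R) o (u, n) measurable_const measurable_id').1)
        (fun R ω => bd R _ ω) ?_)⟩)
    (Eventually.of_forall fun R => Sys.energy_le H.tree (hS R) (hS' R) rfl rfl
      (fun _ h => (mem_product.1 h).1) (fun _ h => (mem_product.1 h).1) o hs hst ht)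
    ((Bl_lim2 H h0 h N h0' h' N' t t o).sub (Bl_lim2 H h0 h N h0' h' N' s s o))
  · rw [abs_mul, abs_of_nonneg (by positivity)]
    refine mul_le_mul_of_nonneg_left ?_ (by positivity)
    simpa using norm_integral_le_of_norm_le_const (μ := PO V) (C := C)
      (Eventually.of_forall fun ω => (Real.norm_eq_abs _).trans_le (bd R (n + x) ω))
  · filter_upwards [ae_conv H h0 h N (n + x), ae_conv H h0' h' N' (n + x)] with ω a a'
    simp only [Kf_eq H N N' hn hn']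
    have b := fun R a b c => (Sys.abs_B_lt H.tree (hS R) (n + x) ω (a := a) (b := b) c).le
    have b' := fun R a b c => (Sys.abs_B_lt H.tree (hS' R) (n + x) ω (a := a) (b := b) c).le
    have t1 := fun u v (c : G.Adj u v) => (rr_cont (H.half h.le)
      (abs_Bl H h0 h N (n + x) ω (Or.inl c))).tendsto.comp (a o u v (Or.inl c))
    have t2 := fun u v (c : G.Adj u v) => (rr_cont (H.half h'.le)
      (abs_Bl H h0' h' N' (n + x) ω (Or.inl c))).tendsto.comp (a' o u v (Or.inl c))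
    have u1 := ((a o o o (ed_root o)).pow 2).const_sub 1
    have u2 := ((a' o o o (ed_root o)).pow 2).const_sub 1
    exact (((((u1.pow 2).mul (DS_lim H (sq_nonneg θ) h (fun R => bd_rr2 h0 l1 (b R))
      (fun u v c => (t1 u v c).pow 2) (C := 1) (by simp) (fun _ => tendsto_const_nhds)
      (ed_root o))).add ((u2.pow 2).mul (DS_lim H (sq_nonneg θ') h' (fun R => bd_rr2 h0' l1' (b' R))
      (fun u v c => (t2 u v c).pow 2) (C := 1) (by simp) (fun _ => tendsto_const_nhds)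
      (ed_root o)))).sub (((u1.mul u2).const_mul 2).mul (DS_lim H (mul_nonneg h0 h0') q
      (fun R => bd_rr11 h0 l1 h0' l1' (b R) (b' R)) (fun u v c => (t1 u v c).mul (t2 u v c)) (C := 1)
      (by simp) (fun _ => tendsto_const_nhds) (ed_root o)))).const_mul 8).add
      (((u2.pow 2).mul (DS_lim H (sq_nonneg θ') h' (fun R => bd_rr2 h0' l1' (b' R))
      (fun u v c => (t2 u v c).pow 2)
      (fun R u => sq_diff_le (b R u u (ed_root u)) (b' R u u (ed_root u)))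
      (fun u => ((a o u u (ed_root u)).sub (a' o u u (ed_root u))).pow 2) (ed_root o))).const_mul 32)

end

end Crest.Agent.H0241
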