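import Crest.Agent.H0241.Alg

set_option autoImplicit false
set_option linter.unusedSectionVars false
open Finset Filter MeasureTheory

namespace Crest.Agent.H0241

noncomputable section
open Classical

variable {V : Type*} {G : SimpleGraph V} [G.LocallyFinite]

lemma GI_zero (u : unitInterval) : GI 0 u = u := by
  apply Subtype.ext
  rw [GI_coe (by norm_num), Gi]
  norm_num

lemma msg_one (θ : ℝ) (w v : V) : msg G θ (fun _ _ => 1) w v = fun _ => 1 := by
  have : ∀ n w v, msgF G θ (fun _ _ => 1) n w v = fun _ => 1 := by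
    intro n
    induction n with
    | zero => intros; rfl
    | succ n ih => intro w v; funext s; simp [msgF, ih, Ch_const]
  funext s
  simp only [msg, this]
  exact tendsto_const_nhds.limUnder_eq

lemma ae_distinct (R : Finset (V × ℤ)) :
    ∀ᵐ ω ∂PO V, ∀ ρ ∈ R, ∀ ρ' ∈ R, ρ ≠ ρ' → tm ρ ω ≠ tm ρ' ω := by
  refine (eventually_all_finset R).2 fun ρ _ => (eventually_all_finset R).2 fun ρ' _ => ?_
  by_cases h : ρ = ρ'
  · exact Eventually.of_forall fun _ h' => absurd h h'
  · filter_upwards [ae_ne (fun e => h (tc_inj e)) (ρ.2 : ℝ) ρ'.2] with ω hω _ using hω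

namespace Sys
variable (S : Sys V)

/-- vertex weights when the labels are read directly as observations -/
def St0 (τ : ℝ) (ω : Om V) : V → Bool → ℝ := ell S.R (S.amp (fun ρ => ω (uc ρ)) τ ω)

def Am (G : SimpleGraph V) [G.LocallyFinite] (τ : ℝ) (ω : Om V) : Om V := fun p =>
  if p.2.2 = true ∧ S.eff τ ω (p.1, p.2.1) ≠ 0 then S.yy G ω (p.1, p.2.1) else ω p

def del (ρ : V × ℤ) : Sys V := { S with R := S.R.erase ρ }

variable {S}

lemma Ok.del (hS : S.Ok) (ρ : V × ℤ) : (S.del ρ).Ok := ⟨hS.h0, hS.h1, hS.bd, hS.ms⟩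

lemma St0_pos (hS : S.Ok) (τ : ℝ) (ω : Om V) (v : V) (s : Bool) : 0 < S.St0 τ ω v s :=
  ell_pos _ (amp_bd hS _ _ _) v s

lemma St0_fs (τ : ℝ) (ω : Om V) : Fs (S.St0 τ ω) := ell_fs _ _

lemma eff_congr {ω ω' : Om V} (h : ∀ ρ, ω (tc ρ) = ω' (tc ρ)) (τ : ℝ) : S.eff τ ω = S.eff τ ω' := by
  funext ρ; simp only [eff, act, tm, h]

lemma Am_tc (τ : ℝ) (ω : Om V) (ρ : V × ℤ) : S.Am G τ ω (tc ρ) = ω (tc ρ) := by simp [Am, tc]

lemma St0_Am (τ : ℝ) (ω : Om V) : S.St0 τ (S.Am G τ ω) = S.St G τ ω := by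
  unfold St0 St
  congr 1
  funext ρ
  simp only [amp, eff_congr (Am_tc τ ω)]
  by_cases c : S.eff τ ω ρ = 0
  · simp [c]
  · simp [Am, uc, c]

lemma bm_eff (hS : S.Ok) (τ : ℝ) (ρ : V × ℤ) : BM fun ω => S.eff τ ω ρ :=
  BM.ite ((MeasurableSet.const _).inter (measurableSet_lt (measurable_tm ρ) measurable_const))
    (bm_act hS ρ) (BM.const 0)

lemma bm_amp0 (hS : S.Ok) (τ : ℝ) (ρ : V × ℤ) :
    BM fun ω : Om V => S.amp (fun ρ => ω (uc ρ)) τ ω ρ :=
  bm_amp hS (y := fun (ω : Om V) ρ => ω (uc ρ)) (fun ρ => measurable_pi_apply (uc ρ))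
    (τ := fun _ => τ) measurable_const (w := fun ω => ω) measurable_id' ρ

lemma eff_del (τ : ℝ) (ω : Om V) (ρ σ : V × ℤ) :
    (S.del ρ).eff τ ω σ = if σ = ρ then 0 else S.eff τ ω σ := by
  by_cases c : σ = ρ <;> simp [eff, del, act, c]

lemma St0_upd {ρ : V × ℤ} (h : ρ ∈ S.R) (τ : ℝ) (ω : Om V) (x : unitInterval) :
    S.St0 τ (Function.update ω (uc ρ) x) =
      mulAt ((S.del ρ).St0 τ ω) ρ.1 fun s => 1 + sg s * (S.eff τ ω ρ * (2 * x - 1)) := by
  have e : S.eff τ (Function.update ω (uc ρ) x) = S.eff τ ω :=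
    eff_congr (fun σ => Function.update_of_ne (tc_ne_uc _ _) _ _) τ
  unfold St0
  conv_lhs => rw [← insert_erase h, ell_insert (notMem_erase _ _)]
  congr 1
  · refine ell_congr fun σ => ?_
    by_cases c : σ = ρ
    · simp [c, del]
    · simp only [amp, e, eff_del, if_neg c, Function.update_of_ne (fun h => c (uc_inj h))]
      rfl
  · simp [amp, e]

variable (hT : G.IsTree)
include hT

lemma bm_msg0 (hS : S.Ok) (τ : ℝ) {w v : V} (he : Ed G w v) (s : Bool) :
    BM fun ω => msg G S.θ (S.St0 τ ω) w v s := bm_msg' hT _ _ (bm_amp0 hS τ) he s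

lemma bm_Z0 (hS : S.Ok) (τ : ℝ) (o : V) : BM fun ω => Zr G S.θ (S.St0 τ ω) o :=
  ((bm_msg0 hT hS τ (ed_root o) true).add (bm_msg0 hT hS τ (ed_root o) false)).div_const 2

lemma bm_B0 (hS : S.Ok) (τ : ℝ) {w v : V} (he : Ed G w v) :
    BM fun ω => Bm G S.θ (S.St0 τ ω) w v :=
  bm_Bm hT hS (y := fun (ω : Om V) ρ => ω (uc ρ)) (fun ρ => measurable_pi_apply (uc ρ))
    (τ := fun _ => τ) measurable_const (w := fun ω => ω) measurable_id' he

lemma measurable_Am (hS : S.Ok) (τ : ℝ) : Measurable (S.Am G τ) :=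
  measurable_pi_lambda _ fun _ => Measurable.ite ((MeasurableSet.const _).inter
    (measurableSet_eq_fun (bm_eff hS τ _).1 measurable_const).compl) (measurable_yy hT hS _)
    (measurable_pi_apply _)

lemma law_Am (hS : S.Ok) (τ : ℝ) (o : V) {F : Om V → ℝ} (hF : BM F) :
    ∫ ω, F (S.Am G τ ω) ∂PO V = ∫ ω, F ω * Zr G S.θ (S.St0 τ ω) o ∂PO V := by
  generalize hn : S.R.card = n
  induction n generalizing S F with
  | zero =>
    rw [card_eq_zero] at hn
    congr 1; funext ω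
    have a : S.Am G τ ω = ω := by funext p; simp [Am, eff, hn]
    have b : S.St0 τ ω = fun _ _ => 1 := by funext v s; simp [St0, ell, hn]
    rw [a, b, Zr, msg_one]; simp [zz]
  | succ n ih =>
    set I : V × ℤ → Om V → ℝ := fun ρ ω =>
      if ∀ σ ∈ S.R, σ ≠ ρ → tm σ ω < tm ρ ω then 1 else 0 with hI
    have bI : ∀ ρ, BM (I ρ) := fun ρ => BM.ite (by
      simp only [Set.ofPred_forall]
      exact S.R.measurableSet_biInter fun σ _ => MeasurableSet.iInter fun _ =>
        measurableSet_lt (measurable_tm _) (measurable_tm _)) (BM.const 1) (BM.const 0)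
    have Itc : ∀ ρ ω ω', (∀ σ, ω (tc σ) = ω' (tc σ)) → I ρ ω = I ρ ω' := fun ρ ω ω' h => by
      have : ∀ σ, tm σ ω = tm σ ω' := fun σ => by simp only [tm, h]
      exact if_congr (by simp only [this]) rfl rfl
    have split : ∀ f : Om V → ℝ, BM f → ∫ ω, f ω ∂PO V = ∑ ρ ∈ S.R, ∫ ω, I ρ ω * f ω ∂PO V := by
      intro f hf
      rw [← BM.int_sum _ fun ρ _ => (bI ρ).mul hf]
      refine integral_congr_ae ?_
      filter_upwards [ae_distinct S.R] with ω hω
      obtain ⟨ρ, h1, h2⟩ := S.R.exists_max_image (fun ρ => tm ρ ω) (card_pos.1 (by omega))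
      rw [sum_eq_single_of_mem ρ h1]
      · simp only [hI]
        rw [if_pos fun σ a b => lt_of_le_of_ne (h2 σ a) (hω σ a ρ h1 b), one_mul]
      · intro σ a b
        simp only [hI]
        rw [if_neg fun c => (h2 σ a).not_gt (c ρ h1 b.symm), zero_mul]
    rw [split _ (hF.comp (measurable_Am hT hS τ)), split _ (hF.mul (bm_Z0 hT hS τ o))]
    refine sum_congr rfl fun ρ hρ => ?_
    have hS' := hS.del ρ
    set c : Om V → ℝ := fun ω => S.eff τ ω ρ * Bm G S.θ ((S.del ρ).St0 τ ω) ρ.1 ρ.1 with hc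
    have bc : BM c := (bm_eff hS τ ρ).mul (bm_B0 hT hS' τ (ed_root _))
    have cb : ∀ ω, |c ω| ≤ 1 / 2 := fun ω => by
      have a : |S.eff τ ω ρ| ≤ 1 / 2 := by
        unfold eff; split_ifs
        exacts [hS.bd _ _, by norm_num]
      have b := abs_Bm_lt hT hS.h0 hS.h1 (St0_fs (S := S.del ρ) τ ω) (St0_pos hS' τ ω) (ed_root ρ.1)
      rw [hc, abs_mul]
      nlinarith [abs_nonneg (S.eff τ ω ρ), abs_nonneg (Bm G S.θ ((S.del ρ).St0 τ ω) ρ.1 ρ.1)]
    set F' : Om V → ℝ := fun ω => ∫ x : unitInterval,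
      I ρ ω * F (Function.update ω (uc ρ) x) * (1 + c ω * (2 * x - 1)) with hF'
    have bx : BM fun q : Om V × unitInterval => 2 * (q.2 : ℝ) - 1 :=
      ⟨by fun_prop, 1, fun q => abs_le.2 ⟨by linarith [q.2.2.1], by linarith [q.2.2.2]⟩⟩
    have bF' : BM F' := ((((bI ρ).comp measurable_fst).mul (bm_upd hF (uc ρ))).mul
      ((BM.const 1).add ((bc.comp measurable_fst).mul bx))).integral_right volume
    have e1 : ∀ ω u, I ρ (Function.update ω (uc ρ) u) * F (S.Am G τ (Function.update ω (uc ρ) u)) =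
        I ρ ((S.del ρ).Am G τ ω) * F (Function.update ((S.del ρ).Am G τ ω) (uc ρ)
          (GI (c ((S.del ρ).Am G τ ω)) u)) := by
      intro ω u
      have t1 : ∀ σ, Function.update ω (uc ρ) u (tc σ) = ω (tc σ) := fun σ =>
        Function.update_of_ne (tc_ne_uc _ _) _ _
      have t2 : ∀ σ, tm σ (Function.update ω (uc ρ) u) = tm σ ω := fun σ => by simp [tm, t1]
      rw [Itc ρ _ ω t1, Itc ρ ((S.del ρ).Am G τ ω) ω (Am_tc τ ω)]
      by_cases hl : ∀ σ ∈ S.R, σ ≠ ρ → tm σ ω < tm ρ ω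
      swap
      · simp only [hI, if_neg hl, zero_mul]
      congr 2
      have key : ∀ τ₁ τ₂, τ₁ ≤ tm ρ ω → (∀ σ ∈ S.R, σ ≠ ρ → (tm σ ω < τ₁ ↔ tm σ ω < τ₂)) →
          S.St G τ₁ (Function.update ω (uc ρ) u) = (S.del ρ).St G τ₂ ω := by
        intro τ₁ τ₂ a b
        rw [St_upd_u τ₁ ω ρ a]
        refine (loc (S := S) (S' := S.del ρ) rfl fun σ => ⟨?_, fun _ => ⟨rfl, rfl⟩⟩).2
        rw [eff_del]
        by_cases d : σ = ρ
        · simp [d, eff, a.not_gt]
        · by_cases d' : σ ∈ S.R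
          · simp [d, eff, b σ d' d]
          · simp [d, eff, d']
      funext ⟨v, m, b⟩
      by_cases d : (v, m, b) = uc ρ
      · rw [d, Function.update_self]
        have ee : S.Am G τ (Function.update ω (uc ρ) u) (uc ρ) = if S.eff τ ω ρ ≠ 0 then
            S.yy G (Function.update ω (uc ρ) u) ρ else u := by
          rw [← eff_congr t1]; simp [Am, uc]
        simp only [hc, St0_Am, eff_congr (Am_tc τ ω), ee]
        split_ifs with d'
        · have c1 : ρ ∈ S.R ∧ tm ρ ω < τ := by by_contra e; exact d' (if_neg e)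
          rw [yy_eq _ hρ, B, t2, key _ τ le_rfl fun σ a b => by
            simp [hl σ a b, (hl σ a b).trans c1.2]]
          simp [eff, c1, act, t1]
        · push Not at d'
          simp [d', GI_zero]
      · rw [Function.update_of_ne d]
        simp only [Am, eff_congr t1, eff_del, Function.update_of_ne d]
        cases b
        · simp
        have d1 : (v, m) ≠ ρ := by rintro rfl; exact d rfl
        simp only [true_and, if_neg d1]
        split_ifs with d'
        · have c1 : (v, m) ∈ S.R ∧ tm (v, m) ω < τ := by by_contra e; exact d' (if_neg e)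
          rw [yy_eq _ c1.1, yy_eq (S := S.del ρ) _ (mem_erase.2 ⟨d1, c1.1⟩), B, B, t2,
            key _ _ (hl _ c1.1 d1).le fun _ _ _ => Iff.rfl,
            Function.update_of_ne fun h => d1 (uc_inj h)]
          simp only [act, t1]
          rfl
        · rfl
    calc ∫ ω, I ρ ω * F (S.Am G τ ω) ∂PO V = ∫ ω, F' ((S.del ρ).Am G τ ω) ∂PO V := by
          rw [int_resample ((bI ρ).mul (hF.comp (measurable_Am hT hS τ))) (uc ρ)]
          congr 1; funext ω
          simp only [e1, hF']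
          exact int_GI (cb _) fun x => I ρ ((S.del ρ).Am G τ ω) *
            F (Function.update ((S.del ρ).Am G τ ω) (uc ρ) x)
      _ = ∫ ω, F' ω * Zr G S.θ ((S.del ρ).St0 τ ω) o ∂PO V :=
          ih hS' bF' (by simp [del, card_erase_of_mem hρ, hn])
      _ = _ := by
          rw [int_resample ((bI ρ).mul (hF.mul (bm_Z0 hT hS τ o))) (uc ρ)]
          congr 1; funext ω
          rw [hF', ← integral_mul_const]
          congr 1; funext x
          rw [St0_upd hρ, Zr_bump hT hS.h0 hS.h1 (St0_fs τ ω) (St0_pos hS' τ ω),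
            Itc ρ (Function.update ω (uc ρ) x) ω fun σ => Function.update_of_ne (tc_ne_uc _ _) _ _]
          simp only [hc]
          ring

lemma law_St (hS : S.Ok) (τ : ℝ) (o : V) (Φ : (V → Bool → ℝ) → ℝ)
    (hΦ : BM fun ω => Φ (S.St0 τ ω)) :
    ∫ ω, Φ (S.St G τ ω) ∂PO V = ∫ ω, Φ (S.St0 τ ω) * Zr G S.θ (S.St0 τ ω) o ∂PO V := by
  rw [← law_Am hT hS τ o hΦ]
  simp only [St0_Am]

lemma int_Z_mul (hS : S.Ok) (τ : ℝ) (o : V) {p : V → Bool → ℝ} (hp : Fs p) :
    ∫ ω, Zr G S.θ (fun v s => S.St0 τ ω v s * p v s) o ∂PO V = Zr G S.θ p o := by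
  generalize hn : S.R.card = n
  induction n generalizing S with
  | zero =>
    rw [card_eq_zero] at hn
    simp [St0, ell, hn]
  | succ n ih =>
    obtain ⟨ρ, hρ⟩ : S.R.Nonempty := card_pos.1 (by omega)
    have bZ : BM fun ω => Zr G S.θ (fun v s => S.St0 τ ω v s * p v s) o :=
      ((bm_msg hT _ _ (bm_amp0 hS τ) hp (ed_root o) true).add
        (bm_msg hT _ _ (bm_amp0 hS τ) hp (ed_root o) false)).div_const 2
    have ih' : ∫ ω, Zr G S.θ (fun v s => (S.del ρ).St0 τ ω v s * p v s) o ∂PO V = Zr G S.θ p o :=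
      ih (S := S.del ρ) (hS.del ρ) (by simp [del, card_erase_of_mem hρ, hn])
    rw [int_resample bZ (uc ρ), ← ih']
    congr 1; funext ω
    have hfs := (St0_fs (S := S.del ρ) τ ω).mul hp
    have e : ∀ x : unitInterval, Zr G S.θ
        (fun v s => S.St0 τ (Function.update ω (uc ρ) x) v s * p v s) o =
        Zr G S.θ (fun v s => (S.del ρ).St0 τ ω v s * p v s) o +
          (msg G S.θ (fun v s => (S.del ρ).St0 τ ω v s * p v s) ρ.1 ρ.1 true -
            msg G S.θ (fun v s => (S.del ρ).St0 τ ω v s * p v s) ρ.1 ρ.1 false) / 2 *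
            S.eff τ ω ρ * (2 * x - 1) := by
      intro x
      have : (fun v s => S.St0 τ (Function.update ω (uc ρ) x) v s * p v s) =
          mulAt (fun v s => (S.del ρ).St0 τ ω v s * p v s) ρ.1
            fun s => 1 + sg s * (S.eff τ ω ρ * (2 * x - 1)) := by
        funext v s
        rw [St0_upd hρ]
        unfold mulAt
        split_ifs <;> ring
      rw [this, Zr_mulAt hT hfs, Zr_eq hT hfs o ρ.1]
      simp only [Zr, zz, sg_true, sg_false]
      ring
    simp only [e]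
    rw [integral_add (integrable_const _) (Integrable.const_mul (BM.integrable ⟨by fun_prop, 1,
      fun q => abs_le.2 ⟨by linarith [q.2.1], by linarith [q.2.2]⟩⟩ _) _), integral_const_mul,
      int_lin]
    simp [del]

/-- the posterior probability of a pattern averages to the Ising weight -/
lemma int_pat (hS : S.Ok) (τ : ℝ) (o : V) {A : Finset V} (hA : (G.induce (A : Set V)).Connected)
    (η : V → Bool) :
    |Crest.ProbabilityR.TreeIsing.isingWeight G S.θ A η -
      ∫ ω, ∏ v ∈ A, (1 + sg (η v) * S.B G τ ω v v) / 2 ∂PO V| ≤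
      ∑ v ∈ A, ∫ ω, (1 - S.B G τ ω v v ^ 2) ∂PO V := by
  have hz : ∀ ω, 0 < Zr G S.θ (S.St0 τ ω) o := fun ω =>
    zz_pos (msg_pos hT hS.h0 hS.h1 (St0_fs τ ω) (St0_pos hS τ ω) (ed_root o))
  have bZ : BM fun ω => Zr G S.θ (fun v s => S.St0 τ ω v s * pat A η v s) o :=
    ((bm_msg hT _ _ (bm_amp0 hS τ) (pat_fs A η) (ed_root o) true).add
      (bm_msg hT _ _ (bm_amp0 hS τ) (pat_fs A η) (ed_root o) false)).div_const 2
  have b1 : BM fun ω => Zr G S.θ (fun v s => S.St0 τ ω v s * pat A η v s) o /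
      Zr G S.θ (S.St0 τ ω) o := by
    refine ⟨bZ.1.div (bm_Z0 hT hS τ o).1, 1, fun ω => ?_⟩
    have z0 := Zr_mono hT hS.h0 hS.h1 ((St0_fs τ ω).mul (pat_fs A η)) (St0_fs (S := S) τ ω)
      (fun x s => ⟨mul_nonneg (St0_pos hS τ ω _ _).le (pat_bd A η _ _).1,
        mul_le_of_le_one_right (St0_pos hS τ ω _ _).le (pat_bd _ _ _ _).2⟩) o
    rw [abs_of_nonneg (div_nonneg z0.1 (hz ω).le)]
    exact (div_le_one (hz ω)).2 z0.2
  have e := law_St hT hS τ o (fun ℓ => Zr G S.θ (fun v s => ℓ v s * pat A η v s) o / Zr G S.θ ℓ o) b1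
  simp only [div_mul_cancel₀ _ (hz _).ne'] at e
  rw [int_Z_mul hT hS τ o (pat_fs A η), Zr_pat hT hA] at e
  have bB := fun v => bm_B hT hS (measurable_const (a := τ)) measurable_id (ed_root v)
  have b2 : BM fun ω => Zr G S.θ (fun v s => S.St G τ ω v s * pat A η v s) o /
      Zr G S.θ (S.St G τ ω) o := by
    simpa only [St0_Am] using b1.comp (measurable_Am hT hS τ)
  have b3 : BM fun ω => ∏ v ∈ A, (1 + sg (η v) * S.B G τ ω v v) / 2 :=
    BM.prod _ fun v _ => ((BM.const 1).add ((bB v).cmul _)).div_const 2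
  have b4 : ∀ v ∈ A, BM fun ω => 1 - S.B G τ ω v v ^ 2 := fun v _ => (BM.const 1).sub ((bB v).pow 2)
  rw [← e, ← b2.int_sub b3, ← BM.int_sum _ b4]
  refine abs_integral_le_integral_abs.trans ((b2.sub b3).abs.mono (BM.sum _ b4) _ fun ω => ?_)
  exact pat_close hT hS.h0 hS.h1 (St_fs τ ω) (St_pos hS τ ω) A η o

end Sys

end

end Crest.Agent.H0241
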