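import Crest.Agent.H0241.Cauchy

set_option autoImplicit false
set_option linter.unusedSectionVars false
open Finset Filter MeasureTheory

namespace Crest.Agent.H0241

noncomputable section
open Classical

variable {V : Type*} {G : SimpleGraph V} [G.LocallyFinite]

lemma le_tm (ρ : V × ℤ) (ω : Om V) : (ρ.2 : ℝ) ≤ tm ρ ω := by
  unfold tm; linarith [(ω (tc ρ)).2.1]

lemma grid {a : ℤ} {H : ℕ} (hH : 0 < H) (i : ℕ) :
    ((a + (i / H : ℕ) : ℤ) : ℝ) ≤ a + (i : ℝ) / H ∧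
      a + ((i + 1 : ℕ) : ℝ) / H ≤ ((a + (i / H : ℕ) : ℤ) : ℝ) + 1 := by
  have h0 : (0 : ℝ) < H := by exact_mod_cast hH
  have h1 : ((i / H : ℕ) : ℝ) * H ≤ i := by exact_mod_cast Nat.div_mul_le_self i H
  have h2 : ((i + 1 : ℕ) : ℝ) ≤ (((i / H : ℕ) : ℝ) + 1) * H := by
    have := Nat.lt_div_mul_add (a := i) hH
    have : i + 1 ≤ (i / H + 1) * H := by nlinarith
    exact_mod_cast this
  rw [Int.cast_add, Int.cast_natCast]
  exact ⟨by linarith [(le_div_iff₀ h0).2 h1], by linarith [(div_le_iff₀ h0).2 h2]⟩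

lemma conv_of_summable {x y : ℕ → ℝ} (h1 : Summable fun n => |x n - x (n + 1)|)
    (h2 : Summable fun n => |y n - x n|) : Tendsto y atTop (nhds (limsup x atTop)) := by
  obtain ⟨l, hl⟩ := cauchySeq_tendsto_of_complete (cauchySeq_of_summable_dist (f := x)
    (by simpa only [Real.dist_eq] using h1))
  rw [hl.limsup_eq]
  have : Tendsto (fun n => y n - x n) atTop (nhds 0) := h2.of_abs.tendsto_atTop_zero
  simpa using this.add hl

/-- the infinite-volume cavity magnetisations -/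
def Bl (G : SimpleGraph V) [G.LocallyFinite] (θ : ℝ) (N : ℕ) (τ : ℝ) (ω : Om V) (a b : V) : ℝ :=
  limsup (fun R => (Sy G θ N a R).B G τ ω a b) atTop

lemma Bl_aut (g : G ≃g G) (θ : ℝ) (N : ℕ) (τ : ℝ) (ω : Om V) (a b : V) :
    Bl G θ N τ ω (g a) (g b) = Bl G θ N τ (tr g ω) a b := by
  unfold Bl
  congr 1
  funext R
  refine Sys.B_aut g (S := Sy G θ N (g a) R) (S' := Sy G θ N a R) rfl rfl (fun v n => ?_) τ ω a b
  simp only [Sy, mem_product, bl_aut]
  exact and_congr_left fun _ => mem_map' _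

variable {d : ℕ} (H : TR G d) {θ : ℝ} (h0 : 0 ≤ θ) (h : ((d : ℝ) - 1) * θ ^ 2 < 1) (N : ℕ) (τ : ℝ)
include H h0 h

lemma Sy_ok' (c : V) (R : ℕ) : (Sy G θ N c R).Ok := Sy_ok h0 (lt_one_of_sq (H.half h.le)) N c R

lemma bm_Sy (c : V) (R : ℕ) {a b : V} (he : Ed G a b) :
    BM fun ω => (Sy G θ N c R).B G τ ω a b :=
  Sys.bm_B H.tree (Sy_ok' H h0 h N c R) measurable_const measurable_id' he

lemma cauchy_fin : ∃ C p, 0 ≤ C ∧ 0 ≤ p ∧ p < 1 ∧ ∀ (c c' : V) (R R' : ℕ) (o : V) (ρ : ℕ),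
    (∀ u, G.dist u o < ρ → u ∈ bl G R c c ∧ u ∈ bl G R' c' c') →
    ∫ ω, ((Sy G θ N c R).B G τ ω o o - (Sy G θ N c' R').B G τ ω o o) ^ 2 ∂PO V ≤ C * p ^ ρ := by
  obtain ⟨C, l, C0, l1, hK⟩ := Kf_bound H h0 h
  obtain ⟨M, hM⟩ := exists_nat_gt C
  have M0 : (0 : ℝ) < M := C0.trans_lt hM
  obtain ⟨m, hm⟩ := exists_nat_ge ((τ + N) * M)
  have l0 : 0 < l := by linarith
  refine ⟨Real.exp (2 * ∑ _ ∈ range m, C / (2 * M)) * ∑ _ ∈ range m, C / (2 * M), 1 / l,
    by positivity, by positivity, (div_lt_one l0).2 l1, fun c c' R R' o₀ ρ hρ => ?_⟩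
  have hS := Sy_ok' H h0 h N c R
  have hS' := Sy_ok' H h0 h N c' R'
  set a : V → ℝ → ℝ := fun u t =>
    ∫ ω, ((Sy G θ N c R).B G t ω u u - (Sy G θ N c' R').B G t ω u u) ^ 2 ∂PO V with ha
  have a0 : ∀ u t, 0 ≤ a u t := fun u t => integral_nonneg fun _ => sq_nonneg _
  have a4 : ∀ u t, a u t ≤ 4 := fun u t => by
    refine ((((bm_Sy H h0 h N t c R (ed_root u)).sub (bm_Sy H h0 h N t c' R' (ed_root u))).pow
      2).mono (BM.const 4) _ fun ω => ?_).trans (by simp)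
    have b1 := abs_lt.1 (Sys.abs_B_lt H.tree hS t ω (ed_root u))
    have b2 := abs_lt.1 (Sys.abs_B_lt H.tree hS' t ω (ed_root u))
    nlinarith
  set f : ℝ → ℝ := fun t => ⨆ u, a u t / l ^ G.dist u o₀ with hf
  have f1 : ∀ u t, a u t ≤ f t * l ^ G.dist u o₀ := fun u t => by
    rw [← div_le_iff₀ (by positivity)]
    refine le_ciSup (f := fun u => a u t / l ^ G.dist u o₀) ⟨4, ?_⟩ u
    rintro _ ⟨u, rfl⟩
    exact (div_le_self (a0 _ _) (one_le_pow₀ l1.le)).trans (a4 _ _)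
  have f0 : ∀ t, 0 ≤ f t := fun t => by simpa using (a0 o₀ t).trans (f1 o₀ t)
  have : Nonempty V := ⟨o₀⟩
  have g := gron (x := fun i => f ((-N : ℤ) + (i : ℝ) / M)) (p := fun _ => C / (2 * M))
    (q := fun _ => C / (2 * M) * (1 / l) ^ ρ) (f0 _)
    (fun _ => ⟨by positivity, by rw [div_le_iff₀ (by positivity)]; linarith⟩)
    (fun _ => by positivity) m fun i _ => by
      obtain ⟨g1, g2⟩ := grid (a := -N) (by exact_mod_cast M0 : 0 < M) i
      have st : ((-N : ℤ) : ℝ) + ((i + 1 : ℕ) : ℝ) / M - ((-N : ℤ) + (i : ℝ) / M) = 1 / M := by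
        push_cast; ring
      have st' : ((-N : ℤ) : ℝ) + (i : ℝ) / M ≤ (-N : ℤ) + ((i + 1 : ℕ) : ℝ) / M := by
        rw [← sub_nonneg, st]; positivity
      rw [sub_le_iff_le_add]
      refine ciSup_le fun o => ?_
      have e := Sys.energy_sup H.tree hS hS' rfl rfl (A := bl G R c c ∪ bl G R' c' c')
        (fun _ h => mem_union_left _ (mem_product.1 h).1)
        (fun _ h => mem_union_right _ (mem_product.1 h).1) o g1 st' g2
        (by have := f0 ((-N : ℤ) + ((i + 1 : ℕ) : ℝ) / M); positivity)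
        fun t _ ht => hK _ _ hS hS' rfl rfl _ o₀ ρ
          (fun u hu => by simp [Sy, hρ u hu]) t _ (f0 ((-N : ℤ) + ((i + 1 : ℕ) : ℝ) / M))
          (fun u => (Sys.energy_mono H.tree hS hS' u ht.le).trans (f1 u _)) _ o
      rw [st] at e
      have e1 := f1 o ((-N : ℤ) + (i : ℝ) / M)
      have e2 : en (-N + (i / M : ℕ)) ^ 2 ≤ (1 / 2) ^ 2 :=
        pow_le_pow_left₀ (en_pos _).le (en_le _) 2
      have e3 : 0 ≤ 1 / M * (C * (f ((-N : ℤ) + ((i + 1 : ℕ) : ℝ) / M) + (1 / l) ^ ρ) *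
        l ^ G.dist o o₀) := by have := f0 ((-N : ℤ) + ((i + 1 : ℕ) : ℝ) / M); positivity
      have e4 := mul_le_mul_of_nonneg_right e2 e3
      rw [div_le_iff₀ (by positivity)]
      simp only [ha] at e1 ⊢
      linear_combination e + e1 + 2 * e4
  have z : f ((-N : ℤ) + ((0 : ℕ) : ℝ) / M) = 0 := by
    have : ∀ (c : V) R ω u, (Sy G θ N c R).B G ((-N : ℤ) + ((0 : ℕ) : ℝ) / M) ω u u = 0 :=
      fun c R ω u => Sys.B_empty H.tree (fun ρ hρ => le_trans (by
        have : ((-N : ℤ) : ℝ) ≤ ρ.2 := by exact_mod_cast (mem_Icc.1 (mem_product.1 hρ).2).1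
        simpa using this) (le_tm ρ ω)) u u
    simp only [hf, ha, this]
    simp
  rw [z, zero_add, ← sum_mul, ← mul_assoc] at g
  refine le_trans ?_ g
  have := f1 o₀ ((-N : ℤ) + (m : ℝ) / M)
  rw [SimpleGraph.dist_self, pow_zero, mul_one] at this
  refine (Sys.energy_mono H.tree hS hS' o₀ ?_).trans this
  have := (le_div_iff₀ M0).2 hm
  push_cast; linarith

lemma cauchy_ae (c c' : V) {a b : V} (he : Ed G a b) (φ : ℕ → ℕ) (hφ : ∀ R, R ≤ φ R) :
    ∀ᵐ ω ∂PO V, Summable fun R =>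
      |(Sy G θ N c R).B G τ ω a b - (Sy G θ N c' (φ R)).B G τ ω a b| := by
  obtain ⟨C, p, C0, p0, p1, hC⟩ := cauchy_fin H h0 h N τ
  set D := G.dist a c + G.dist a c' + G.dist b c + G.dist b c'
  have key : ∀ o R, G.dist o c ≤ D → G.dist o c' ≤ D → ∫ ω, ((Sy G θ N c (R + D)).B G τ ω o o -
      (Sy G θ N c' (φ (R + D))).B G τ ω o o) ^ 2 ∂PO V ≤ C * p ^ R := fun o R h1 h2 =>
    hC _ _ _ _ _ _ fun u hu => by
      have t1 := H.tree.connected.dist_triangle (u := u) (v := o) (w := c)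
      have t2 := H.tree.connected.dist_triangle (u := u) (v := o) (w := c')
      have := hφ (R + D)
      simp only [mem_ball H.tree]
      omega
  have bb := fun R a b he => (bm_Sy H h0 h N τ c (R + D) (a := a) (b := b) he).sub
    (bm_Sy H h0 h N τ c' (φ (R + D)) he)
  have := ae_summable (PO V) (fun R => bb R a b he) (C := 294 * C) p0 p1
    fun R => by
      have k1 := key a R (by omega) (by omega)
      have k2 := key b R (by omega) (by omega)
      have : 0 ≤ C * p ^ R := by positivity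
      rcases he with he | rfl
      · refine (((bb R _ _ (Or.inl he)).pow 2).mono ((((bb R _ _ (ed_root a)).pow 2).add
          ((bb R _ _ (ed_root b)).pow 2)).cmul 147) _ fun ω => ?_).trans ?_
        · simpa [Sy] using (Sys.edgeOK H.tree (Sy_ok' H h0 h N c (R + D)) τ ω).diff
            (Sys.edgeOK H.tree (Sy_ok' H h0 h N c' (φ (R + D))) τ ω) h0 (H.half h.le) h0
            (H.half h.le) he
        · rw [integral_const_mul, BM.int_add ((bb R _ _ (ed_root _)).pow 2)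
            ((bb R _ _ (ed_root _)).pow 2)]
          linarith
      · linarith
  filter_upwards [this] with ω hω using (summable_nat_add_iff D).1 hω

lemma ae_conv : ∀ᵐ ω ∂PO V, ∀ c a b, Ed G a b →
    Tendsto (fun R => (Sy G θ N c R).B G τ ω a b) atTop (nhds (Bl G θ N τ ω a b)) := by
  have := H.countable
  simp only [ae_all_iff]
  intro c a b he
  filter_upwards [cauchy_ae H h0 h N τ a a he (· + 1) Nat.le_succ,
    cauchy_ae H h0 h N τ c a he (fun R => R) fun _ => le_rfl] with ω h1 h2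
  exact conv_of_summable h1 h2

lemma abs_Bl (ω : Om V) {a b : V} (he : Ed G a b) : |Bl G θ N τ ω a b| ≤ 1 := by
  have := fun R => abs_lt.1 (Sys.abs_B_lt H.tree (Sy_ok' H h0 h N a R) τ ω he)
  exact abs_le.2 ⟨le_limsup_of_frequently_le (Frequently.of_forall fun R => (this R).1.le)
    (isBoundedUnder_of ⟨1, fun R => (this R).2.le⟩), limsup_le_of_le
    (isCoboundedUnder_le_of_le _ fun R => (this R).1.le) (Eventually.of_forall fun R => (this R).2.le)⟩

lemma bm_Bl {a b : V} (he : Ed G a b) : BM fun ω => Bl G θ N τ ω a b :=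
  ⟨Measurable.limsup fun R => (bm_Sy H h0 h N τ a R he).1, 1, fun ω => abs_Bl H h0 h N τ ω he⟩

lemma ae_edgeOK : ∀ᵐ ω ∂PO V, EdgeOK G θ (Bl G θ N τ ω) := by
  filter_upwards [ae_conv H h0 h N τ] with ω hω
  refine ⟨fun a b => abs_Bl H h0 h N τ ω, fun w v he => ?_⟩
  refine tendsto_nhds_unique (hω w w w (ed_root w)) ?_
  simp only [fun R => (Sys.edgeOK H.tree (Sy_ok' H h0 h N w R) τ ω).eq w v he]
  have t1 := hω w w v (Or.inl he)
  have t2 := hω w v w (Or.inl he.symm)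
  exact (t1.add (t2.const_mul _)).div ((t1.mul (t2.const_mul _)).const_add _)
    (den_pos h0 (lt_one_of_sq (H.half h.le)) (abs_Bl H h0 h N τ ω (Or.inl he))
      (abs_Bl H h0 h N τ ω (Or.inl he.symm))).ne'

end

end Crest.Agent.H0241
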