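import Crest.Agent.H0241.Rate

set_option autoImplicit false
set_option linter.unusedSectionVars false
open Finset Filter MeasureTheory

namespace Crest.Agent.H0241

noncomputable section
open Classical

lemma block_sum (f : ℕ → ℝ) {M : ℕ} (hM : 0 < M) (m : ℕ) :
    ∑ i ∈ range (m * M), f (i / M) = M * ∑ k ∈ range m, f k := by
  induction m with
  | zero => simp
  | succ m ih =>
    rw [Nat.succ_mul, sum_range_add, ih, sum_range_succ, mul_add,
      sum_congr (g := fun _ => f m) (s₂ := range M) rfl fun i hi => by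
        rw [Nat.add_comm, Nat.add_mul_div_right _ _ hM, Nat.div_eq_of_lt (mem_range.1 hi), zero_add]]
    simp

lemma half_sum (L M : ℕ) :
    ∑ m ∈ range M, (1 / 2 : ℝ) ^ (L - m) ≤ (1 / 2) ^ (L - M) + (M - L : ℕ) := by
  induction M with
  | zero => simp
  | succ M ih =>
    rw [sum_range_succ]
    rcases lt_or_ge M L with c | c
    · rw [show L - M = L - (M + 1) + 1 by omega, show M - L = 0 by omega] at *
      rw [show M + 1 - L = 0 by omega, pow_succ] at *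
      linarith
    · rw [show L - M = 0 by omega] at *
      rw [show L - (M + 1) = 0 by omega, show M + 1 - L = M - L + 1 by omega]
      push_cast; linarith

lemma choose_j (a b : ℝ) {ε : ℝ} (hε : 0 < ε) (b0 : 0 ≤ b) : ∃ j : ℕ, 1 ≤ j ∧
    Real.exp (a * (j ^ 2 * 2 ^ j)) * (b * (4 ^ j * j ^ 2) * Real.exp (-4 ^ j)) ≤ ε := by
  have t1 := (tendsto_pow_const_div_const_pow_of_one_lt 2 (r := 2) one_lt_two).const_mul a
  have t2 := (tendsto_pow_const_div_const_pow_of_one_lt 0 (r := 4) (by norm_num)).const_mul (48 * b)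
  rw [mul_zero] at t1 t2
  obtain ⟨j, j1, h1, h2⟩ := ((eventually_ge_atTop 1).and ((t1.eventually_le_const one_half_pos).and
    (t2.eventually_le_const hε))).exists
  refine ⟨j, j1, le_trans ?_ h2⟩
  have e : (4 : ℝ) ^ j = 2 ^ j * 2 ^ j := by rw [← mul_pow]; norm_num
  have c1 : (j : ℝ) ^ 2 ≤ 4 ^ j := by
    rw [e, ← sq]
    exact pow_le_pow_left₀ (by positivity) (by exact_mod_cast Nat.lt_two_pow_self.le) 2
  have c2 : a * (j ^ 2 * 2 ^ j) ≤ 4 ^ j / 2 := by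
    rw [← mul_div_assoc, div_le_iff₀ (by positivity)] at h1
    rw [e]
    nlinarith [mul_le_mul_of_nonneg_right h1 (by positivity : (0 : ℝ) ≤ 2 ^ j)]
  have y0 : (0 : ℝ) < 4 ^ j := by positivity
  generalize (4 : ℝ) ^ j = y at *
  have c3 := Real.pow_div_factorial_le_exp (y / 2) (by positivity) 3
  have c4 : Real.exp (a * (j ^ 2 * 2 ^ j)) * Real.exp (-y) * Real.exp (y / 2) ≤ 1 := by
    rw [← Real.exp_add, ← Real.exp_add, Real.exp_le_one_iff]; linarith
  have c5 := mul_le_mul_of_nonneg_left c3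
    (by positivity : 0 ≤ Real.exp (a * (j ^ 2 * 2 ^ j)) * Real.exp (-y))
  have c6 := mul_le_mul_of_nonneg_left c1
    (by positivity : 0 ≤ Real.exp (a * (j ^ 2 * 2 ^ j)) * Real.exp (-y) * b * y ^ 2)
  rw [pow_zero, mul_one_div, le_div_iff₀ y0]
  norm_num [Nat.factorial] at c5
  linear_combination c6 + 48 * b * c5 + 48 * b * c4

lemma ultra_cauchy (x : ℕ → ℝ) {a b : ℝ} (hx : ∀ᶠ N in atTop, x N ∈ Set.Icc a b) {δ : ℝ} (hδ : 0 < δ) :
    ∃ U ∈ hyperfilter ℕ, ∀ N ∈ U, ∀ N' ∈ U, (x N - x N') ^ 2 ≤ δ := by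
  obtain ⟨l, -, hl⟩ := isCompact_Icc.ultrafilter_le_nhds' ((hyperfilter ℕ).map x)
    (Nat.hyperfilter_le_atTop hx)
  refine ⟨x ⁻¹' Metric.ball l (√δ / 2), hl (Metric.ball_mem_nhds _ (by positivity)),
    fun N h N' h' => ?_⟩
  rw [Set.mem_preimage, Metric.mem_ball, Real.dist_eq, abs_lt] at h h'
  rw [← Real.sq_sqrt hδ.le]
  exact sq_le_sq' (by linarith) (by linarith)

lemma small (c : ℝ) {ε : ℝ} (hε : 0 < ε) : ∃ g, 0 < g ∧ c * g ≤ ε := by
  refine ⟨ε / (|c| + 1), by positivity, ?_⟩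
  rw [← mul_div_assoc, div_le_iff₀ (by positivity)]
  nlinarith [le_abs_self c]

def th (θ : ℝ) (N : ℕ) : ℝ := θ * (1 - 1 / (N + 2))

lemma th_bd (N : ℕ) : (0 : ℝ) ≤ 1 - 1 / (N + 2) ∧ (1 : ℝ) - 1 / (N + 2) < 1 :=
  ⟨sub_nonneg.2 ((div_le_one (by positivity)).2 (by linarith [N.cast_nonneg (α := ℝ)])),
    sub_lt_self _ (by positivity)⟩

lemma th_nonneg {θ : ℝ} (h0 : 0 ≤ θ) (N : ℕ) : 0 ≤ th θ N := mul_nonneg h0 (th_bd N).1

lemma th_sub {θ k : ℝ} (h : k * θ ^ 2 ≤ 1) (N : ℕ) : k * th θ N ^ 2 < 1 := by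
  rw [th, mul_pow, ← mul_assoc]
  exact (mul_le_of_le_one_left (sq_nonneg _) h).trans_lt
    (pow_lt_one₀ (th_bd N).1 (th_bd N).2 two_ne_zero)

lemma th_lim (θ : ℝ) : Tendsto (th θ) atTop (nhds θ) := by
  have : Tendsto (fun N : ℕ => (1 : ℝ) / (N + 2)) atTop (nhds 0) :=
    tendsto_const_nhds.div_atTop (tendsto_atTop_add_const_right _ _ tendsto_natCast_atTop_atTop)
  unfold th
  simpa only [sub_zero, mul_one] using (this.const_sub 1).const_mul θ

variable {V : Type*} {G : SimpleGraph V} [G.LocallyFinite] {d : ℕ} (H : TR G d)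
include H

lemma exists_adj (o : V) : ∃ w, G.Adj w o := by
  have := H.hd
  obtain ⟨w, hw⟩ := card_pos.1 (show 0 < (ch G o o).card by rw [card_ch_root H.reg]; omega)
  exact ⟨w, ch_adj hw⟩

lemma step : ∃ C C', 0 ≤ C ∧ 0 ≤ C' ∧ ∀ {θ θ' : ℝ}, 0 ≤ θ → ((d : ℝ) - 1) * θ ^ 2 < 1 → 0 ≤ θ' →
    ((d : ℝ) - 1) * θ' ^ 2 < 1 → ∀ (N N' : ℕ) {n m : ℤ} {s t : ℝ}, m ≤ n → n ≤ s → s ≤ t →
    t ≤ n + 1 → -N ≤ n - 1 → n ≤ N → -N' ≤ n - 1 → n ≤ N' → ∀ {w o : V}, G.Adj w o →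
    ∀ j : ℕ, 1 ≤ j → ∀ δ g : ℝ, 0 < g → (θ - θ') ^ 2 ≤ δ →
    (xi G θ N w o s - xi G θ' N' w o s) ^ 2 ≤ δ →
    Aa G θ θ' N N' o t - Aa G θ θ' N N' o s ≤ (t - s) *
      (C * (j ^ 2 * (2 ^ j * (1 / 2) ^ (-n).toNat * Aa G θ θ' N N' o t + Real.exp (-4 ^ j) +
        2 ^ j * δ) + 3 * δ + C' / gam d m ^ 6 * (2 * g +
        ((vv G θ N o t + vv G θ' N' o t) - (vv G θ N o s + vv G θ' N' o s)) / g))) := by
  obtain ⟨C, C0, hC⟩ := round_bound H
  obtain ⟨C', C0', hC'⟩ := modulus H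
  refine ⟨C, 3 * C', C0, by positivity, fun {θ θ'} h0 h h0' h' N N' n m s t mn hs st ht n1 n2 n1' n2'
    w o e j hj δ g g0 d1 d2 => ?_⟩
  have e0 := en_pos n
  have γ0 := (gam_bd H m).1
  have hd : (3 : ℝ) ≤ d := by exact_mod_cast H.hd
  have γ1 : C' / gam d n ^ 6 ≤ C' / gam d m ^ 6 := div_le_div_of_nonneg_left C0' (by positivity)
    (pow_le_pow_left₀ γ0.le (div_le_div_of_nonneg_right (en_mono (by omega)) (by linarith)) 6)
  have δ0 := (sq_nonneg _).trans d1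
  have A0 : 0 ≤ Aa G θ θ' N N' o t := integral_nonneg fun _ => sq_nonneg _
  have v1 := sub_nonneg.2 (add_le_add (vv_mono H h0 h N o st) (vv_mono H h0' h' N' o st))
  generalize hB : C * (_ : ℝ) = B
  have B0 : 0 ≤ B := by rw [← hB]; positivity
  refine (Aa_energy H h0 h N h0' h' N' (mem_Icc.2 ⟨by omega, n2⟩) (mem_Icc.2 ⟨by omega, n2'⟩) o hs st
    ht (K := B / (2 * en n ^ 2)) (by positivity) fun τ t1 t2 => ?_).trans_eq (by field_simp)
  rw [le_div_iff₀' (by positivity), ← hB]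
  refine (hC h0 h h0' h' N N' (hs.trans t1) (t2.le.trans ht) n1 (by omega) n1' (by omega) e j
    hj).trans (mul_le_mul_of_nonneg_left ?_ C0)
  have a1 := mul_le_mul_of_nonneg_left (Aa_mono H h0 h N h0' h' N' o t2.le)
    (by positivity : (0 : ℝ) ≤ j ^ 2 * (2 ^ j * (1 / 2) ^ (-n).toNat))
  have a2 := mul_le_mul_of_nonneg_left d1 (by positivity : (0 : ℝ) ≤ j ^ 2 * 2 ^ j)
  have b1 := sub_nonneg.2 (vv_mono H h0 h N o t1)
  have b2 := sub_nonneg.2 (vv_mono H h0' h' N' o t1)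
  have a3 := (hC' h0 h N hs t1 n1 (by omega) e g g0).trans
    (mul_le_mul_of_nonneg_right γ1 (by positivity))
  have a4 := (hC' h0' h' N' hs t1 n1' (by omega) e g g0).trans
    (mul_le_mul_of_nonneg_right γ1 (by positivity))
  have a5 := mul_le_mul_of_nonneg_left (add_le_add (vv_mono H h0 h N o t2.le)
    (vv_mono H h0' h' N' o t2.le)) (by positivity : 0 ≤ C' / gam d m ^ 6 / g)
  generalize xi G θ N w o τ = x at *
  generalize xi G θ' N' w o τ = x' at *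
  generalize xi G θ N w o s = y at *
  generalize xi G θ' N' w o s = y' at *
  linear_combination a1 + a2 + 3 * a3 + 3 * a4 + 3 * a5 + 3 * d2 + sq_nonneg (x - y - (y - y')) +
    sq_nonneg (x - y + (x' - y')) + sq_nonneg (y - y' + (x' - y'))

lemma main_cauchy {θ : ℝ} (h0 : 0 ≤ θ) (h : ((d : ℝ) - 1) * θ ^ 2 ≤ 1) (T : ℕ) {ε : ℝ} (hε : 0 < ε) :
    ∃ U ∈ hyperfilter ℕ, ∀ N ∈ U, ∀ N' ∈ U, ∀ v, Aa G (th θ N) (th θ N') N N' v T ≤ ε := by
  obtain ⟨o⟩ := H.tree.connected.nonempty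
  obtain ⟨w, e⟩ := exists_adj H o
  obtain ⟨C, C', C0, C0', hC⟩ := step H
  have hd : (3 : ℝ) ≤ d := by exact_mod_cast H.hd
  have ε0 : 0 < ε / 4 := by positivity
  obtain ⟨j, j1, hj⟩ := choose_j (2 * C * (T + 1)) (8 * (d - 1) + (1 + T) * C) ε0
    (by nlinarith [T.cast_nonneg (α := ℝ)])
  obtain ⟨L, hL⟩ : ∃ L : ℕ, L = 4 ^ j := ⟨_, rfl⟩
  have hL' : (4 : ℝ) ^ j = L := by rw [hL]; push_cast; rfl
  obtain ⟨E, hE⟩ : ∃ E, E = Real.exp (2 * C * (T + 1) * (j ^ 2 * 2 ^ j)) := ⟨_, rfl⟩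
  obtain ⟨c, hc⟩ : ∃ c, c = C' / gam d (-L) ^ 6 := ⟨_, rfl⟩
  have c0 : 0 ≤ c := by rw [hc]; positivity
  obtain ⟨g, g0, hg⟩ := small (E * ((L + T) * C * c * 2)) ε0
  obtain ⟨M, M0, M1, M2⟩ := ((eventually_gt_atTop 0).and
    (((tendsto_const_div_atTop_nhds_zero_nat (C * (j ^ 2 * 2 ^ j) : ℝ)).eventually_le_const
      one_half_pos).and ((tendsto_const_div_atTop_nhds_zero_nat
      (E * (C * c * 2 / g))).eventually_le_const ε0))).exists
  have M0' : (0 : ℝ) < M := by exact_mod_cast M0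
  obtain ⟨δ, δ0, hδ⟩ := small (E * ((L + T) * C * (j ^ 2 * 2 ^ j + 3))) ε0
  have k0 := th_nonneg h0
  have k := th_sub h
  obtain ⟨U0, hU0, u0⟩ := ultra_cauchy (th θ) (Eventually.of_forall fun N =>
    ⟨k0 N, (lt_one_of_sq (H.half (k N).le)).le⟩) δ0
  have := fun i : ℕ => ultra_cauchy (fun N => xi G (th θ N) N w o ((-L : ℤ) + (i : ℝ) / M))
    ((eventually_ge_atTop (L + 1)).mono fun N hN => (chi_four H (k0 N) (k N) N _ (n := -L)
      (le_add_of_nonneg_right (by positivity)) (by omega) (by omega) e).2) δ0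
  choose U hU u using this
  refine ⟨({N | L + T + 1 ≤ N} ∩ U0) ∩ ⋂ i ∈ range ((L + T) * M), U i, inter_mem (inter_mem
    (Nat.hyperfilter_le_atTop (eventually_ge_atTop _)) hU0) ((biInter_finset_mem _).2 fun i _ => hU i),
    fun N ⟨⟨n1, n2⟩, n3⟩ N' ⟨⟨n1', n2'⟩, n3'⟩ v => ?_⟩
  simp only [Set.mem_ofPred_eq, Set.mem_iInter, mem_range] at n1 n3 n1' n3'
  have F := fld_Bl H (k0 N) (k N) N
  have F' := fld_Bl H (k0 N') (k N') N'
  obtain ⟨z, ez⟩ := exists_adj H v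
  rw [Aa, int_tr H (F := fun ω a _ => (Bl G (th θ N) N T ω a a - Bl G (th θ N') N' T ω a a) ^ 2)
    (fun g ω a b => by simp only [Bl_aut]) e.symm ez.symm ((F T).bmM H (F' T) o)]
  set W : ℕ → ℝ := fun i => vv G (th θ N) N o ((-L : ℤ) + (i : ℝ) / M) +
    vv G (th θ N') N' o ((-L : ℤ) + (i : ℝ) / M) with hW
  have st : ∀ i : ℕ, ((-L : ℤ) : ℝ) + ((i + 1 : ℕ) : ℝ) / M - ((-L : ℤ) + (i : ℝ) / M) = 1 / M :=
    fun i => by push_cast; ring
  have st' : ∀ i : ℕ, ((-L : ℤ) : ℝ) + (i : ℝ) / M ≤ (-L : ℤ) + ((i + 1 : ℕ) : ℝ) / M := fun i => by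
    rw [← sub_nonneg, st]; positivity
  have gr := gron (x := fun i => Aa G (th θ N) (th θ N') N N' o ((-L : ℤ) + (i : ℝ) / M))
    (p := fun i => C * (j ^ 2 * 2 ^ j) / M * (1 / 2) ^ (L - i / M))
    (q := fun i => C / M * (j ^ 2 * (Real.exp (-4 ^ j) + 2 ^ j * δ) + 3 * δ + c * 2 * g) +
      C / M * c / g * (W (i + 1) - W i))
    (integral_nonneg fun _ => sq_nonneg _)
    (fun i => ⟨by positivity, (mul_le_of_le_one_right (by positivity)
      (pow_le_one₀ (by norm_num) (by norm_num))).trans M1⟩)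
    (fun i => by
      have := sub_nonneg.2 (add_le_add (vv_mono H (k0 N) (k N) N o (st' i))
        (vv_mono H (k0 N') (k N') N' o (st' i)))
      positivity) ((L + T) * M) fun i hi => by
      obtain ⟨g1, g2⟩ := grid (a := -L) M0 i
      have := (Nat.div_lt_iff_lt_mul M0).2 hi
      generalize i / M = r at *
      have := hC (k0 N) (k N) (k0 N') (k N') N N' (m := -L) (by omega) g1 (st' i) g2 (by omega)
        (by omega) (by omega) (by omega) e j j1 δ g g0 (u0 N n2 N' n2') (u i N (n3 i hi) N' (n3' i hi))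
      rw [st, ← hc, show (-(-(L : ℤ) + r)).toNat = L - r by omega] at this
      refine this.trans_eq ?_
      simp only [hW]
      ring
  rw [← mul_sum, block_sum (fun m => (1 / 2 : ℝ) ^ (L - m)) M0, sum_add_distrib, ← mul_sum (range _) _ (C / M * c / g),
    sum_range_sub, sum_const, card_range, nsmul_eq_mul] at gr
  simp only [Nat.cast_mul, mul_div_cancel_right₀ _ M0'.ne', Nat.cast_add, Int.cast_neg,
    Int.cast_natCast, neg_add_cancel_left, Nat.cast_zero, zero_div, add_zero] at gr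
  have hs := half_sum L (L + T)
  rw [show L - (L + T) = 0 by omega, Nat.add_sub_cancel_left, pow_zero] at hs
  have x0 : Aa G (th θ N) (th θ N') N N' o (-L) ≤ 8 * (d - 1) * Real.exp (-4 ^ j) := by
    have a := mom_root H (k0 N) (k N) N (-L) (n := -L) (by push_cast; linarith) (by omega) e.symm
    have a' := mom_root H (k0 N') (k N') N' (-L) (n := -L) (by push_cast; linarith) (by omega) e.symm
    have b := ((F (-L)).bm (ed_root o)).pow 2
    have b' := ((F' (-L)).bm (ed_root o)).pow 2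
    have := ((F (-L)).bmM H (F' (-L)) o).mono ((b.add b').cmul 2) (PO V) fun ω => by
      nlinarith [sq_nonneg (Bl G (th θ N) N (-L) ω o o + Bl G (th θ N') N' (-L) ω o o)]
    rw [integral_const_mul, b.int_add b'] at this
    have z : 2 * en (-L) ≤ Real.exp (-4 ^ j) := by
      rw [en, hL', neg_neg, Int.toNat_natCast, mul_div_cancel₀ _ two_ne_zero,
        show -(L : ℝ) = L * (-1) by ring, Real.exp_nat_mul]
      refine pow_le_pow_left₀ (by norm_num) ?_ _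
      rw [Real.exp_neg, one_div]
      exact inv_anti₀ (Real.exp_pos _) (by linarith [Real.exp_one_lt_d9])
    unfold Aa
    nlinarith
  have W1 : W ((L + T) * M) - W 0 ≤ 2 := by
    simp only [hW]
    linarith [vv_bd H (k0 N) (k N) N ((-L : ℤ) + (((L + T) * M : ℕ) : ℝ) / M) o,
      vv_bd H (k0 N') (k N') N' ((-L : ℤ) + (((L + T) * M : ℕ) : ℝ) / M) o,
      vv_bd H (k0 N) (k N) N ((-L : ℤ) + ((0 : ℕ) : ℝ) / M) o,
      vv_bd H (k0 N') (k N') N' ((-L : ℤ) + ((0 : ℕ) : ℝ) / M) o]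
  have J1 : (1 : ℝ) ≤ j ^ 2 := one_le_pow₀ (by exact_mod_cast j1)
  have L1 : (1 : ℝ) ≤ L := by rw [← hL']; exact one_le_pow₀ (by norm_num)
  have E0 : 0 < E := by rw [hE]; positivity
  refine gr.trans ((mul_le_mul (b := E) (d := (8 * (d - 1) + (1 + T) * C) * (4 ^ j * j ^ 2) *
    Real.exp (-4 ^ j) + (L + T) * C * c * 2 * g + C * c * 2 / g / M +
    (L + T) * C * (j ^ 2 * 2 ^ j + 3) * δ) ?_ ?_ ?_ E0.le).trans ?_)
  · rw [hE, Real.exp_le_exp]
    have := mul_le_mul_of_nonneg_left hs (by positivity : 0 ≤ 2 * C * (j ^ 2 * 2 ^ j))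
    field_simp
    field_simp at this
    linarith
  · have a1 := mul_le_mul_of_nonneg_left W1 (by positivity : 0 ≤ C / M * c / g)
    have a2 := mul_le_mul_of_nonneg_left (one_le_mul_of_one_le_of_one_le L1 J1)
      (show 0 ≤ 8 * ((d : ℝ) - 1) * Real.exp (-4 ^ j) from mul_nonneg (by linarith) (by positivity))
    have a3 := mul_le_mul_of_nonneg_left L1
      (by positivity : 0 ≤ T * C * j ^ 2 * Real.exp (-4 ^ j))
    rw [show ∀ X : ℝ, (L + T) * M * (C / M * X) = (L + T) * C * X from fun X => by field_simp]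
    rw [hL'] at *
    linear_combination x0 + a1 + a2 + a3
  · have : 0 ≤ Aa G (th θ N) (th θ N') N N' o (-L) := integral_nonneg fun _ => sq_nonneg _
    have : 0 ≤ W ((L + T) * M) - W 0 := by
      have : ((-L : ℤ) : ℝ) + ((0 : ℕ) : ℝ) / M ≤ (-L : ℤ) + (((L + T) * M : ℕ) : ℝ) / M := by
        gcongr; positivity
      exact sub_nonneg.2 (add_le_add (vv_mono H (k0 N) (k N) N o this)
        (vv_mono H (k0 N') (k N') N' o this))
    positivity
  · rw [← hE] at hj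
    linear_combination hj + hg + M2 + hδ

end

end Crest.Agent.H0241
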