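import Crest.Agent.H0241.Cosh
import Crest.Agent.H0241.Lim

set_option autoImplicit false
set_option linter.unusedSectionVars false
open Finset Filter MeasureTheory

namespace Crest.Agent.H0241

noncomputable section
open Classical

lemma exp_cvx {a x : ℝ} (h0 : 0 ≤ a) (h1 : a ≤ 1) : Real.exp (a * x) ≤ 1 - a + a * Real.exp x := by
  simpa using convexOn_exp.2 (Set.mem_univ 0) (Set.mem_univ x) (sub_nonneg.2 h1) h0 (by ring)

lemma exp_conv {x y k : ℝ} (hk : 2 ≤ k) (hy : 0 ≤ y) (h : k * y ≤ x) :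
    Real.exp y ≤ 1 + y + (Real.exp x - 1) / (2 * k) := by
  have k0 : 0 < k := by linarith
  have a := exp_cvx (x := k * y / 2) (by positivity : 0 ≤ 2 / k) ((div_le_one k0).2 hk)
  rw [show 2 / k * (k * y / 2) = y by field_simp] at a
  have b : Real.exp (k * y / 2) ≤ 1 + k * y / 2 + (Real.exp x - 1) / 4 := by
    have e1 : Real.exp (k * y / 2) ^ 2 ≤ Real.exp x := by
      rw [← Real.exp_nat_mul]; exact Real.exp_le_exp.2 (by push_cast; linarith)
    have e2 := Real.add_one_le_exp (-(k * y / 2))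
    rw [Real.exp_neg] at e2
    have t1 := Real.one_le_exp (by positivity : 0 ≤ k * y / 2)
    generalize Real.exp (k * y / 2) = t at *
    have e3 : t⁻¹ ≤ (t ^ 2 - 1) / 4 - t + 2 := by
      rw [inv_le_iff_one_le_mul₀ (by linarith)]
      nlinarith [mul_nonneg (sub_nonneg.2 t1) (by nlinarith [sq_nonneg (t - 3 / 2)] :
        0 ≤ t ^ 2 - 3 * t + 4)]
    linarith
  have := mul_le_mul_of_nonneg_left b (by positivity : 0 ≤ 2 / k)
  have e : 2 / k * (1 + k * y / 2 + (Real.exp x - 1) / 4) =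
      2 / k + y + (Real.exp x - 1) / (2 * k) := by field_simp; ring
  linarith

lemma pow_low {y : ℝ} (h1 : y ≤ 1) {k : ℕ} (hk : 2 ≤ k) : 1 - k * y + y ^ 2 ≤ (1 - y) ^ k := by
  obtain ⟨m, rfl⟩ := Nat.exists_eq_add_of_le hk
  have := mul_le_mul_of_nonneg_left (one_add_mul_le_pow (by linarith : -2 ≤ -y) m)
    (sq_nonneg (1 - y))
  rw [pow_add, sub_eq_add_neg 1 y]
  rw [sub_eq_add_neg 1 y] at this
  push_cast
  nlinarith [mul_nonneg (mul_nonneg (Nat.cast_nonneg (α := ℝ) m) (sq_nonneg y))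
    (by linarith : 0 ≤ 2 - y)]

lemma pow_up {y : ℝ} (h0 : 0 ≤ y) (h1 : y ≤ 1) (k : ℕ) : (1 - y) ^ k ≤ 1 - k * y + (k * y) ^ 2 := by
  have : (1 - y) ^ k * (1 + k * y) ≤ 1 := by
    refine (mul_le_mul_of_nonneg_left (one_add_mul_le_pow (by linarith) k)
      (pow_nonneg (by linarith) k)).trans ?_
    rw [← mul_pow]
    exact pow_le_one₀ (by nlinarith) (by nlinarith)
  have t : 0 ≤ k * y := by positivity
  refine le_of_mul_le_mul_right (this.trans ?_) (by linarith : 0 < 1 + k * y)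
  nlinarith [pow_nonneg t 3]

lemma Part.prod_sub {ι κ : Type*} {U : Set ι} {s J : Finset κ} (hJ : J ⊆ s)
    {L : κ → (ι → unitInterval) → Bool → ℝ} {A : κ → Set ι} (h : ∀ i ∈ s, Part U (A i) (L i))
    (hd : ∀ i ∈ s, ∀ j ∈ s, i ≠ j → Disjoint (A i) (A j)) :
    ww (fun ω b => ∏ i ∈ J, L i ω b) ≤ ww (fun ω b => ∏ i ∈ s, L i ω b) := by
  simp only [← prod_sdiff hJ, mul_comm (∏ i ∈ s \ J, _)]
  have p := Part.prod (s \ J) (fun j hj => h j (sdiff_subset hj))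
    fun j hj k hk => hd j (sdiff_subset hj) k (sdiff_subset hk)
  have p' := Part.prod J (fun j hj => h j (hJ hj)) fun j hj k hk => hd j (hJ hj) k (hJ hk)
  have := p'.ww_gain p (Set.disjoint_iUnion₂_left.2 fun i hi => Set.disjoint_iUnion₂_right.2
    fun j hj => hd i (hJ hi) j (sdiff_subset hj) (by rintro rfl; exact (mem_sdiff.1 hj).2 hi))
  linarith [mul_nonneg (sq_nonneg (1 - ww fun ω b => ∏ i ∈ J, L i ω b)) p.ww_bd.1]

lemma eval_mp {ι : Type*} (i : ι) :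
    MeasurePreserving (fun ω : ι → unitInterval => ω i) (PI ι) volume :=
  measurePreserving_eval_infinitePi _ i

variable {V : Type*} {G : SimpleGraph V} [G.LocallyFinite]

def UU (V : Type*) : Set (V × (ℤ × Bool)) := {p | p.2.2 = true}

lemma edge_ind (hT : G.IsTree) (A : Finset V) (P : V → V → Prop)
    (h0 : ∀ w v, G.Adj w v → (∀ u, Sd G w v u → u ∉ A) → P w v)
    (h1 : ∀ w v, G.Adj w v → (∀ z ∈ ch G w v, P z w) → P w v) {w v : V} (h : G.Adj w v) : P w v := by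
  obtain ⟨n, hn⟩ := exists_rad (G := G) A w
  have hn' : ∀ u, Sd G w v u → n ≤ G.dist u w → u ∉ A := fun u _ => hn u
  clear hn
  induction n generalizing w v with
  | zero => exact h0 w v h fun u hu => hn' u hu (Nat.zero_le _)
  | succ n ih =>
    refine h1 w v h fun z hz => ih (ch_adj hz) fun u hu a => hn' u (sd_ch hT (Or.inl h) hz hu) ?_
    rw [(sd_adj hT (ch_adj hz)).1 hu]; omega

namespace Sys
variable (S : Sys V) (τ : ℝ)

def rg (ρ : V × ℤ) (ω : Om V) (s : Bool) : ℝ := 1 + sg s * S.amp (fun ρ => ω (uc ρ)) τ ω ρ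

def ow (v : V) (ω : Om V) : Bool → ℝ := S.St0 τ ω v

def Mg (G : SimpleGraph V) [G.LocallyFinite] (w v : V) (ω : Om V) : Bool → ℝ :=
  msg G S.θ (S.St0 τ ω) w v

def B0 (G : SimpleGraph V) [G.LocallyFinite] (ω : Om V) : V → V → ℝ := Bm G S.θ (S.St0 τ ω)

variable {S}

lemma mg_rg (ρ : V × ℤ) (ω : Om V) : mg (S.rg τ ρ ω) = S.amp (fun ρ => ω (uc ρ)) τ ω ρ := by
  simp only [mg, rg, sg_true, sg_false]; ring

lemma zz_rg (ρ : V × ℤ) (ω : Om V) : zz (S.rg τ ρ ω) = 1 := by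
  simp only [zz, rg, sg_true, sg_false]; ring

lemma part_rg (hS : S.Ok) (ρ : V × ℤ) : Part (UU V) {p | (p.1, p.2.1) = ρ} (S.rg τ ρ) := by
  have f : ∀ ω, S.amp (fun ρ => fl (UU V) ω (uc ρ)) τ (fl (UU V) ω) ρ =
      -S.amp (fun ρ => ω (uc ρ)) τ ω ρ := fun ω => by
    simp only [amp, eff_congr (S := S) (ω := fl (UU V) ω) (ω' := ω) fun σ => by simp [fl, UU, tc]]
    simp [fl, UU, uc]; ring
  refine ⟨fun s => (BM.const 1).add ((bm_amp0 hS τ ρ).cmul _), ⟨1 / 2, by norm_num, fun ω s => ?_⟩,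
    fun x y e => ?_, fun ω s => by simp only [rg, f, sg_not]; ring, fun s => ?_⟩
  · have := abs_le.1 (amp_bd hS (fun ρ => ω (uc ρ)) τ ω ρ)
    cases s <;> simp only [rg, sg_true, sg_false] <;> linarith
  · funext s
    simp only [rg, amp, eff, act, tm, e (tc ρ) rfl, e (uc ρ) rfl]
  · have := (bm_amp0 hS τ ρ).int_comp (fl_mp (UU V))
    simp only [f, integral_neg] at this
    simp only [rg]
    rw [(BM.const 1).int_add ((bm_amp0 hS τ ρ).cmul _), integral_const_mul,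
      show ∫ ω, S.amp (fun ρ => ω (uc ρ)) τ ω ρ ∂PO V = 0 by linarith]
    simp

lemma rg_disj (ρ ρ' : V × ℤ) (h : ρ ≠ ρ') :
    Disjoint {p : V × (ℤ × Bool) | (p.1, p.2.1) = ρ} {p | (p.1, p.2.1) = ρ'} :=
  Set.disjoint_left.2 fun _ a b => h (a.symm.trans b)

lemma ow_eq (v : V) : S.ow τ v = fun ω s => ∏ ρ ∈ S.R with ρ.1 = v, S.rg τ ρ ω s := rfl

lemma part_ow (hS : S.Ok) (v : V) : Part (UU V) {p | p.1 = v} (S.ow τ v) :=
  (Part.prod _ (fun ρ _ => part_rg τ hS ρ) fun ρ _ ρ' _ => rg_disj ρ ρ').mono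
    (Set.iUnion₂_subset fun ρ hρ p hp => by
      rw [Set.mem_ofPred_eq, ← (mem_filter.1 hρ).2, ← show _ = ρ from hp])

lemma ww_rg (hS : S.Ok) {e : ℤ → ℝ} (he : S.ef = efn e) {ρ : V × ℤ} (h : ρ ∈ S.R)
    (ht : ρ.2 + (1 : ℝ) / 2 ≤ τ) : ww (S.rg τ ρ) = e ρ.2 ^ 2 / 6 := by
  have b1 : BM fun x => efn e ρ.2 x ^ 2 := BM.pow ⟨he ▸ hS.ms _, _, he ▸ hS.bd _⟩ 2
  have b2 : BM fun x : unitInterval => (2 * (x : ℝ) - 1) ^ 2 := BM.pow ⟨by fun_prop, 1, abs_lin⟩ 2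
  have e1 : ∀ ω : Om V, S.amp (fun ρ => ω (uc ρ)) τ ω ρ ^ 2 =
      efn e ρ.2 (ω (tc ρ)) ^ 2 * (2 * (ω (uc ρ) : ℝ) - 1) ^ 2 := fun ω => by
    simp only [amp, eff, act, he, efn, tm, h, true_and]
    split_ifs with a b
    · ring
    · ring
    · linarith
    · ring
  simp only [ww, Ex, mg_rg, zz_rg, mul_one, e1]
  rw [int_indep (b1.comp (measurable_pi_apply (tc ρ))) (b2.comp (measurable_pi_apply (uc ρ)))
    (A := {tc ρ}) (B := {uc ρ}) (fun x y e => by simp only [e _ rfl])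
    (fun x y e => by simp only [e _ rfl]) (by simpa using tc_ne_uc ρ ρ),
    b1.int_comp (eval_mp (tc ρ)), b2.int_comp (eval_mp (uc ρ)), int_lin_sq]
  have hs : MeasurableSet {x : unitInterval | ¬ (x : ℝ) < 1 / 2} :=
    (measurableSet_lt measurable_subtype_coe measurable_const).compl
  have e2 := integral_indicator_const (μ := (volume : Measure unitInterval)) (e ρ.2 ^ 2) hs
  rw [vol_half] at e2
  have e3 : ∀ x, efn e ρ.2 x ^ 2 =
      e ρ.2 ^ 2 - {x : unitInterval | ¬ (x : ℝ) < 1 / 2}.indicator (fun _ => e ρ.2 ^ 2) x := by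
    intro x
    simp only [efn, Set.indicator, Set.mem_ofPred_eq]
    split_ifs <;> ring
  simp only [e3]
  rw [integral_sub (integrable_const _) ((integrable_const _).indicator hs), e2]
  simp; ring

lemma mg_rg_le {e : ℤ → ℝ} (he : S.ef = efn e) (e0 : ∀ m, 0 ≤ e m) {n : ℤ} (ht : τ ≤ n + 1)
    (ρ : V × ℤ) (ω : Om V) : |mg (S.rg τ ρ ω)| ≤ if ρ.2 ≤ n then e ρ.2 else 0 := by
  rw [mg_rg, amp, abs_mul]
  refine (mul_le_of_le_one_right (abs_nonneg _) (abs_lin _)).trans ?_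
  simp only [eff, act, he, efn]
  by_cases c : ρ.2 ≤ n
  · rw [if_pos c]
    split_ifs <;> simp [e0, abs_of_nonneg]
  · have : ((n + 1 : ℤ) : ℝ) ≤ ρ.2 := by exact_mod_cast not_le.1 c
    push_cast at this
    rw [if_neg c, if_neg fun a => by unfold tm at a; linarith [a.2, (ω (tc ρ)).2.1], abs_zero]

section
variable (hT : G.IsTree)
include hT

lemma Mg_rec {w v : V} (he : Ed G w v) :
    S.Mg τ G w v = fun ω s => S.ow τ w ω s * ∏ z ∈ ch G w v, Ch S.θ (S.Mg τ G z w ω) s := by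
  funext ω s; exact msg_rec hT (St0_fs τ ω) he s

lemma Mg_edge {w v : V} (he : G.Adj w v) :
    S.Mg τ G w w = fun ω s => S.Mg τ G w v ω s * Ch S.θ (S.Mg τ G v w ω) s := by
  funext ω s; exact msg_edge hT (St0_fs τ ω) he s

lemma Mg_one {w v : V} (he : G.Adj w v) (h : ∀ u, Sd G w v u → u ∉ S.R.image Prod.fst) :
    S.Mg τ G w v = fun _ _ => 1 := by
  funext ω
  rw [Mg, msg_congr hT (Or.inl he) (ℓ := S.St0 τ ω) (ℓ' := fun _ _ => 1)
    fun u hu => funext (ell_off _ _ (h u hu)), msg_one]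

lemma ch_disj (w v : V) : ∀ z ∈ ch G w v, ∀ z' ∈ ch G w v, z ≠ z' →
    Disjoint {p : V × (ℤ × Bool) | Sd G z w p.1} {p | Sd G z' w p.1} := fun _ hz _ hz' h =>
  Set.disjoint_left.2 fun _ a b => h (sd_unique hT (ch_adj hz) (ch_adj hz') a b)

lemma ow_disj {w v : V} {s : Finset V} (hs : s ⊆ ch G w v) :
    Disjoint {p : V × (ℤ × Bool) | p.1 = w} (⋃ z ∈ s, {p | Sd G z w p.1}) :=
  Set.disjoint_iUnion₂_right.2 fun z hz => Set.disjoint_left.2 fun p a b =>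
    not_sd hT (ch_adj (hs hz)) (by simpa only [Set.mem_ofPred_eq, show p.1 = w from a] using b)

lemma edge_disj {w v : V} (he : G.Adj w v) :
    Disjoint {p : V × (ℤ × Bool) | Sd G w v p.1} {p | Sd G v w p.1} :=
  Set.disjoint_left.2 fun _ a => (sd_total hT he _).1 a

variable (hS : S.Ok)
include hS

lemma part_Mg {w v : V} (he : Ed G w v) : Part (UU V) {p | Sd G w v p.1} (S.Mg τ G w v) := by
  have step : ∀ w v, Ed G w v → (∀ z ∈ ch G w v, Part (UU V) {p | Sd G z w p.1} (S.Mg τ G z w)) →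
      Part (UU V) {p | Sd G w v p.1} (S.Mg τ G w v) := fun w v he ih => by
    rw [Mg_rec τ hT he]
    refine ((part_ow τ hS w).mul (Part.prod _ (fun z hz => (ih z hz).ch hS.h0 hS.h1)
      (ch_disj hT w v)) (ow_disj hT Subset.rfl)).mono (Set.union_subset ?_
        (Set.iUnion₂_subset fun z hz p hp => sd_ch hT he hz hp))
    rintro p rfl
    exact sd_self _ _
  have : ∀ w v, G.Adj w v → Part (UU V) {p | Sd G w v p.1} (S.Mg τ G w v) := fun w v h =>
    edge_ind hT (S.R.image Prod.fst) (fun w v => Part (UU V) {p | Sd G w v p.1} (S.Mg τ G w v))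
      (fun w v h a => Mg_one τ hT h a ▸ Part.const _ _) (fun w v h => step w v (Or.inl h)) h
  exact step w v he fun z hz => this z w (ch_adj hz)

lemma part_ch {w v : V} : ∀ z ∈ ch G w v,
    Part (UU V) {p | Sd G z w p.1} fun ω => Ch S.θ (S.Mg τ G z w ω) := fun _ hz =>
  (part_Mg τ hT hS (ch_ed hz)).ch hS.h0 hS.h1

lemma part_chs {w v : V} {s : Finset V} (hs : s ⊆ ch G w v) :
    Part (UU V) (⋃ z ∈ s, {p | Sd G z w p.1}) fun ω b => ∏ z ∈ s, Ch S.θ (S.Mg τ G z w ω) b :=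
  Part.prod s (fun z hz => part_ch τ hT hS z (hs hz)) fun z hz z' hz' =>
    ch_disj hT w v z (hs hz) z' (hs hz')

lemma int_B {w v : V} (he : Ed G w v) (Φ : (V → V → ℝ) → ℝ) (b : BM fun ω => Φ (S.B0 τ G ω))
    (dep : DependsOn (fun ω => Φ (S.B0 τ G ω)) {p | Sd G w v p.1}) :
    ∫ ω, Φ (S.B G τ ω) ∂PO V = Ex (S.Mg τ G w v) fun ω => Φ (S.B0 τ G ω) := by
  refine (law_St hT hS τ w (fun ℓ => Φ (Bm G S.θ ℓ)) b).trans ?_
  change Ex (S.Mg τ G w w) (fun ω => Φ (S.B0 τ G ω)) = _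
  rcases he with he | rfl
  · rw [Mg_edge τ hT he]
    exact (part_Mg τ hT hS (Or.inl he)).Ex_mul ((part_Mg τ hT hS (Or.inl he.symm)).ch hS.h0 hS.h1)
      (edge_disj hT he) b dep
  · rfl

lemma root_low {o : V} {J : Finset (V × ℤ)} (hJ : ∀ ρ ∈ J, ρ ∈ S.R ∧ ρ.1 = o) {x : ℝ} (x0 : 0 ≤ x)
    (hx : ∀ ρ ∈ J, x ≤ ww (S.rg τ ρ)) : (1 - ww (S.Mg τ G o o)) * (1 + x * J.card) ≤ 1 := by
  have a := Part.prod_gain J (fun ρ _ => part_rg τ hS ρ) (fun ρ _ ρ' _ => rg_disj ρ ρ') hx x0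
  have b := Part.prod_sub (s := S.R.filter fun ρ => ρ.1 = o) (fun ρ h => mem_filter.2 (hJ ρ h))
    (fun ρ _ => part_rg τ hS ρ) fun ρ _ ρ' _ => rg_disj ρ ρ'
  have p := part_chs τ hT hS (Subset.rfl (s := ch G o o))
  have c := (part_ow τ hS o).ww_gain p (ow_disj hT Subset.rfl)
  rw [← Mg_rec τ hT (ed_root o)] at c
  rw [← ow_eq] at b
  refine le_trans (mul_le_mul_of_nonneg_right ?_ (by positivity)) a
  linarith [mul_nonneg (sq_nonneg (1 - ww (S.ow τ o))) p.ww_bd.1]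

end

def chi (G : SimpleGraph V) [G.LocallyFinite] (θ : ℝ) (n : ℕ) (B : V → V → ℝ) (w v : V) : ℝ :=
  DS G (fun a b => rr θ (B a b) ^ 2) (fun _ => 1) n w v

variable {d : ℕ} (H : TR G d) (hS : S.Ok) (hθ : ((d : ℝ) - 1) * S.θ ^ 2 ≤ 1)
include H hS hθ

omit hS hθ in
lemma card_ch' {w v : V} (h : G.Adj w v) : ((ch G w v).card : ℝ) = d - 1 := by
  rw [card_ch H.reg h, Nat.cast_sub (by have := H.hd; omega), Nat.cast_one]

lemma ww_up {y : ℝ} (y0 : 0 ≤ y) (y1 : ((d : ℝ) - 1) * y ≤ 1) (h : ∀ v, ww (S.ow τ v) ≤ y ^ 2)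
    {w v : V} (he : G.Adj w v) : ww (S.Mg τ G w v) ≤ ((d : ℝ) - 1) * y := by
  have hd : (3 : ℝ) ≤ d := by exact_mod_cast H.hd
  refine edge_ind H.tree (S.R.image Prod.fst) (fun w v => ww (S.Mg τ G w v) ≤ ((d : ℝ) - 1) * y)
    (fun w v h a => by rw [Mg_one τ H.tree h a, ww_one]; nlinarith) (fun w v he ih => ?_) he
  have y2 : y ≤ 1 := by nlinarith
  have a := Part.prod_up (ch G w v) (part_ch τ H.tree hS) (ch_disj H.tree w v) (x := fun _ => y)
    fun z hz => ⟨by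
      rw [ww_Ch]
      nlinarith [mul_le_mul_of_nonneg_left (ih z hz) (sq_nonneg S.θ)], y2⟩
  have p := part_chs τ H.tree hS (Subset.rfl (s := ch G w v))
  have b := (part_ow τ hS w).ww_up p (ow_disj H.tree Subset.rfl)
  rw [← Mg_rec τ H.tree (Or.inl he)] at b
  have c := pow_low y2 (k := (ch G w v).card) (by rw [card_ch H.reg he]; have := H.hd; omega)
  rw [card_ch' H he] at c
  rw [prod_const] at a
  nlinarith [h w, mul_nonneg (part_ow τ hS w).ww_bd.1 p.ww_bd.1]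

lemma root_up {y : ℝ} (h : ∀ w v, G.Adj w v → ww (S.Mg τ G w v) ≤ y) {w v : V} (he : G.Adj w v) :
    ww (S.Mg τ G w w) ≤ 2 * y := by
  have p := part_Mg τ H.tree hS (Or.inl he)
  have q := part_Mg τ H.tree hS (Or.inl he.symm)
  have := p.ww_up (q.ch hS.h0 hS.h1) (edge_disj H.tree he)
  rw [← Mg_edge τ H.tree he, ww_Ch] at this
  nlinarith [h w v he, h v w he.symm, mul_nonneg p.ww_bd.1 (mul_nonneg (sq_nonneg S.θ) q.ww_bd.1),
    H.half hθ, q.ww_bd.1]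

lemma cosh_up {μ x y : ℝ} (hμ : 10 ≤ μ) (h : ∀ w v, G.Adj w v → ww (S.Mg τ G w v) ≤ y)
    (hx : ∀ v ν, |ν| ≤ μ → FF (S.ow τ v) ν ≤ Real.exp x)
    (hy : 9 / 2 * (μ + 1) ^ 2 * y + x ≤ 1 / 100) {w v : V} (he : G.Adj w v) :
    Ex (S.Mg τ G w v) (fun ω => Real.cosh (μ * hh (S.Mg τ G w v ω))) ≤ 5 / 4 := by
  refine edge_ind H.tree (S.R.image Prod.fst)
    (fun w v => Ex (S.Mg τ G w v) (fun ω => Real.cosh (μ * hh (S.Mg τ G w v ω))) ≤ 5 / 4)
    (fun w v h a => by rw [Mg_one τ H.tree h a]; simp [Ex, hh, zz]; norm_num)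
    (fun w v he ih => ?_) he
  have y0 : 0 ≤ y := (part_Mg τ H.tree hS (Or.inl he)).ww_bd.1.trans (h w v he)
  have : ∀ ν, |ν| ≤ μ → FF (S.Mg τ G w v) ν ≤ 5 / 4 := fun ν hν => by
    have p := part_chs τ H.tree hS (Subset.rfl (s := ch G w v))
    have a := Part.FF_prod (ch G w v) (part_ch τ H.tree hS) (ch_disj H.tree w v) (μ := ν)
      (x := fun _ => S.θ ^ 2 * (9 / 2 * (μ + 1) ^ 2 * y + 37 / 200)) fun z hz =>
        ((part_Mg τ H.tree hS (ch_ed hz)).FF_ch hS.h0 (H.half hθ) hμ hν (ih z hz)).trans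
          (Real.exp_le_exp.2 (by have := h z w (ch_adj hz); gcongr))
    rw [Mg_rec τ H.tree (Or.inl he), (part_ow τ hS w).FF_mul p (ow_disj H.tree Subset.rfl)]
    refine (mul_le_mul (hx w ν hν) a (p.FF_nonneg ν) (Real.exp_pos _).le).trans ?_
    rw [← Real.exp_add, sum_const, nsmul_eq_mul, card_ch' H he, ← mul_assoc]
    have b := mul_le_mul_of_nonneg_right hθ
      (by positivity : 0 ≤ 9 / 2 * (μ + 1) ^ 2 * y + 37 / 200)
    refine (Real.exp_le_exp.2 (show _ ≤ 1 / 5 by linarith)).trans ?_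
    have := Real.exp_bound_div_one_sub_of_interval (x := 1 / 5) (by norm_num) (by norm_num)
    linarith
  rw [(part_Mg τ H.tree hS (Or.inl he)).Ex_cosh]
  have a : |μ| ≤ μ := (abs_of_nonneg (by linarith)).le
  linarith [this μ a, this (-μ) (by rwa [abs_neg])]

lemma ww_low {A : Set V} {s c : ℝ} (hA : ∀ v ∈ A, s ≤ ww (S.ow τ v)) (c0 : 0 ≤ c)
    (hc : 16 * c ^ 2 ≤ s) (s1 : s ≤ 1 / 4) (hη : 1 - ((d : ℝ) - 1) * S.θ ^ 2 ≤ c) (n : ℕ) :
    ∀ w v, G.Adj w v → (∀ u, G.dist u w < n → u ∈ A) → min (n * s / 2) c ≤ ww (S.Mg τ G w v) := by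
  have s0 : 0 ≤ s := by nlinarith [sq_nonneg c]
  have c1 : c ≤ 1 / 8 := by nlinarith
  induction n with
  | zero => exact fun w v he _ => by simpa [c0] using (part_Mg τ H.tree hS (Or.inl he)).ww_bd.1
  | succ n ih =>
    intro w v he hn
    have hx : min (((n + 1 : ℕ) : ℝ) * s / 2) c ≤ min (n * s / 2) c + s / 2 := by
      rw [← min_add_add_right]
      exact min_le_min (by push_cast; linarith) (by linarith)
    have x0 : 0 ≤ min (n * s / 2) c := le_min (by positivity) c0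
    have x1 : min (n * s / 2) c ≤ c := min_le_right _ _
    have ih' : ∀ z ∈ ch G w v, min (n * s / 2) c ≤ ww (S.Mg τ G z w) := fun z hz =>
      ih z w (ch_adj hz) fun u hu => hn u (by
        have := H.tree.connected.dist_triangle (u := u) (v := z) (w := w)
        rw [SimpleGraph.dist_eq_one_iff_adj.2 (ch_adj hz)] at this
        omega)
    generalize min (n * s / 2) c = x at *
    have t := H.half hθ
    have t0 := mul_nonneg (sq_nonneg S.θ) x0
    have t1 : S.θ ^ 2 * x ≤ 1 / 2 := by nlinarith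
    have a := Part.prod_low (ch G w v) (part_ch τ H.tree hS) (ch_disj H.tree w v)
      (x := S.θ ^ 2 * x) (fun z hz => by
        rw [ww_Ch]; exact mul_le_mul_of_nonneg_left (ih' z hz) (sq_nonneg _)) t1
    have b := pow_up (y := 2 * (S.θ ^ 2 * x)) (by linarith) (by linarith) (ch G w v).card
    rw [card_ch' H he] at b
    have b0 := pow_nonneg (by linarith : 0 ≤ 1 - 2 * (S.θ ^ 2 * x)) (ch G w v).card
    have e := (part_ow τ hS w).ww_low (part_chs τ H.tree hS (Subset.rfl (s := ch G w v)))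
      (ow_disj H.tree Subset.rfl) (hA w (hn w (by simp))) (by linarith)
      (y := (1 - (1 - 2 * (S.θ ^ 2 * x)) ^ (ch G w v).card) / 2) (by linarith) (by linarith)
    rw [← Mg_rec τ H.tree (Or.inl he)] at e
    generalize (1 - 2 * (S.θ ^ 2 * x)) ^ (ch G w v).card = P at *
    obtain ⟨r, hr⟩ : ∃ r, r = ((d : ℝ) - 1) * S.θ ^ 2 := ⟨_, rfl⟩
    rw [show ((d : ℝ) - 1) * (2 * (S.θ ^ 2 * x)) = 2 * r * x by rw [hr]; ring] at b
    rw [← hr] at hθ hη
    have f1 : (1 - r) * x ≤ c * c := mul_le_mul hη x1 x0 c0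
    have f2 : (r * x) ^ 2 ≤ c ^ 2 := pow_le_pow_left₀ (mul_nonneg (by linarith) x0)
      (by nlinarith) 2
    have f3 : P ≤ 1 - 2 * x + 3 / 8 * s := by nlinarith
    have f4 := mul_le_mul_of_nonneg_left f3 (by linarith : 0 ≤ 1 - 2 * s)
    nlinarith [mul_le_mul_of_nonneg_left (x1.trans c1) s0, mul_nonneg s0 s0]

end Sys

end

end Crest.Agent.H0241
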