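import Crest.Agent.H0241.Mom

set_option autoImplicit false
set_option linter.unusedSectionVars false
open Finset Filter MeasureTheory

namespace Crest.Agent.H0241

noncomputable section
open Classical

variable {V : Type*} {G : SimpleGraph V} [G.LocallyFinite]

namespace Sys
variable {S : Sys V} (τ : ℝ)

lemma chi_zero (θ : ℝ) (B : V → V → ℝ) (w v : V) : chi G θ 0 B w v = 0 := rfl

lemma chi_succ (θ : ℝ) (n : ℕ) (B : V → V → ℝ) (w v : V) :
    chi G θ (n + 1) B w v = 1 + ∑ z ∈ ch G w v, rr θ (B z w) ^ 2 * chi G θ n B z w := rfl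

lemma chi_nonneg (θ : ℝ) (n : ℕ) (B : V → V → ℝ) (w v : V) : 0 ≤ chi G θ n B w v :=
  DS_nonneg (fun _ _ _ => sq_nonneg _) (fun _ => zero_le_one) n w v

variable {d : ℕ} (H : TR G d) (hS : S.Ok)
include H hS

lemma bm_r0 {w v : V} (he : G.Adj w v) : BM fun ω => rr S.θ (S.B0 τ G ω w v) :=
  bm_rr hS.h0 hS.h1 (part_Mg τ H.tree hS (Or.inl he)).bmg.1
    fun ω => ((part_Mg τ H.tree hS (Or.inl he)).mlt ω).le

lemma bm_chi (n : ℕ) (w v : V) : BM fun ω => chi G S.θ n (S.B0 τ G ω) w v :=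
  bm_DS (fun _ _ h => (bm_r0 τ H hS h).pow 2) (fun _ => BM.const 1) n w v

lemma dep_chi (n : ℕ) : ∀ w v, Ed G w v →
    DependsOn (fun ω => chi G S.θ n (S.B0 τ G ω) w v) {p | Sd G w v p.1} := by
  induction n with
  | zero => exact fun _ _ _ _ _ _ => (chi_zero _ _ _ _).trans (chi_zero _ _ _ _).symm
  | succ n ih =>
    intro w v he x y e
    simp only [chi_succ]
    congr 1
    refine sum_congr rfl fun z hz => ?_
    have e' : ∀ p ∈ {p : V × (ℤ × Bool) | Sd G z w p.1}, x p = y p := fun p hp =>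
      e p (sd_ch H.tree he hz hp)
    exact congrArg₂ (fun a b => rr S.θ a ^ 2 * b)
      ((part_Mg τ H.tree hS (ch_ed hz)).depf mg e') (ih z w (ch_ed hz) e')

lemma flip_r0 {w v : V} (he : G.Adj w v) (ω : Om V) :
    rr S.θ (S.B0 τ G (fl (UU V) ω) w v) = rr S.θ (S.B0 τ G ω w v) := by
  rw [show S.B0 τ G (fl (UU V) ω) w v = -S.B0 τ G ω w v from
    (part_Mg τ H.tree hS (Or.inl he)).mg_flip ω]
  simp [rr]

lemma flip_chi (ω : Om V) (n : ℕ) : ∀ w v,
    chi G S.θ n (S.B0 τ G (fl (UU V) ω)) w v = chi G S.θ n (S.B0 τ G ω) w v := by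
  induction n with
  | zero => exact fun _ _ => (chi_zero _ _ _ _).trans (chi_zero _ _ _ _).symm
  | succ n ih =>
    intro w v
    simp only [chi_succ, ih]
    congr 1
    exact sum_congr rfl fun z hz => by rw [flip_r0 τ H hS (ch_adj hz)]

/-- the contribution of one child -/
def Yc (G : SimpleGraph V) [G.LocallyFinite] (S : Sys V) (τ : ℝ) (n : ℕ) (w v : V) (ω : Om V) : ℝ :=
  rr S.θ (S.B0 τ G ω w v) ^ 2 * chi G S.θ n (S.B0 τ G ω) w v

lemma bm_Yc (n : ℕ) {w v : V} (he : G.Adj w v) : BM (Yc G S τ n w v) :=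
  ((bm_r0 τ H hS he).pow 2).mul (bm_chi τ H hS n w v)

lemma dep_Yc (n : ℕ) {w v : V} (he : G.Adj w v) : DependsOn (Yc G S τ n w v) {p | Sd G w v p.1} :=
  fun _ _ e => congrArg₂ (fun a b => rr S.θ a ^ 2 * b)
    ((part_Mg τ H.tree hS (Or.inl he)).depf mg e) (dep_chi τ H hS n w v (Or.inl he) e)

omit H hS in
lemma Yc_nonneg (n : ℕ) (w v : V) (ω : Om V) : 0 ≤ Yc G S τ n w v ω :=
  mul_nonneg (sq_nonneg _) (chi_nonneg _ _ _ _ _)

lemma Ex_exp_step (l : ℝ) (n : ℕ) {w v : V} (he : G.Adj w v) :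
    Ex (S.Mg τ G w v) (fun ω => Real.exp (l * chi G S.θ (n + 1) (S.B0 τ G ω) w v)) =
      Real.exp l * ∏ z ∈ ch G w v, Ex (S.Mg τ G z w) fun ω => Real.exp (l * Yc G S τ n z w ω) := by
  have b : ∀ z ∈ ch G w v, BM fun ω => Real.exp (l * Yc G S τ n z w ω) := fun z hz =>
    ((bm_Yc τ H hS n (ch_adj hz)).cmul l).cont Real.continuous_exp
  have dp : ∀ z ∈ ch G w v, DependsOn (fun ω => Real.exp (l * Yc G S τ n z w ω))
      {p | Sd G z w p.1} := fun z hz x y e => by simp only [dep_Yc τ H hS n (ch_adj hz) e]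
  have := Part.Ex_prod (ch G w v) (part_ch τ H.tree hS) (ch_disj H.tree w v) b dp fun z hz ω => by
    simp only [Yc, flip_r0 τ H hS (ch_adj hz), flip_chi τ H hS]
  simp only [Ex_Ch] at this
  rw [← this, ← (part_chs τ H.tree hS Subset.rfl).Ex_mul (part_ow τ hS w)
    (ow_disj H.tree Subset.rfl).symm (BM.prod _ b)
    (fun x y e => prod_congr rfl fun z hz => dp z hz fun p hp => e p (Set.mem_biUnion hz hp)),
    ← Ex_cmul, Mg_rec τ H.tree (Or.inl he)]
  simp only [chi_succ, mul_add, mul_one, Real.exp_add, mul_sum, Real.exp_sum, mul_comm (S.ow τ w _ _)]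
  rfl

lemma Mg_split {w v z : V} (he : G.Adj w v) (hz : z ∈ ch G w v) :
    ∃ A M, Part (UU V) A M ∧ Disjoint {p | Sd G z w p.1} A ∧
      S.Mg τ G w v = (fun ω s => Ch S.θ (S.Mg τ G z w ω) s * M ω s) ∧
      ∃ z' ∈ ch G w v, S.θ ^ 2 * ww (S.Mg τ G z' w) ≤ ww M := by
  have p := part_chs τ H.tree hS (erase_subset z (ch G w v))
  have dj := (ow_disj H.tree (erase_subset z (ch G w v))).symm
  refine ⟨_, _, p.mul (part_ow τ hS w) dj, Set.disjoint_union_right.2
    ⟨Set.disjoint_iUnion₂_right.2 fun y hy => ch_disj H.tree w v z hz y (mem_of_mem_erase hy)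
      (ne_of_mem_erase hy).symm, ?_⟩, ?_, ?_⟩
  · simpa using (ow_disj H.tree (singleton_subset_iff.2 hz)).symm
  · rw [Mg_rec τ H.tree (Or.inl he)]
    funext ω s
    rw [← mul_prod_erase _ _ hz]; ring
  · obtain ⟨z', hz'⟩ : ((ch G w v).erase z).Nonempty := by
      rw [← card_pos, card_erase_of_mem hz, card_ch H.reg he]; have := H.hd; omega
    refine ⟨z', mem_of_mem_erase hz', ?_⟩
    have a := Part.le_prod _ (fun y hy => part_ch τ H.tree hS y (mem_of_mem_erase hy))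
      (fun y hy y' hy' => ch_disj H.tree w v y (mem_of_mem_erase hy) y' (mem_of_mem_erase hy')) hz'
    have b := p.ww_gain (part_ow τ hS w) dj
    rw [ww_Ch] at a
    exact a.trans (le_trans (le_add_of_nonneg_right
      (mul_nonneg (sq_nonneg _) (part_ow τ hS w).ww_bd.1)) b)

omit hS in
lemma deep_ch {A : Set V} {w v z : V} (hz : z ∈ ch G w v) {m m' : ℕ} (hm : m' + 1 ≤ m)
    (h : ∀ u, G.dist u w < m → u ∈ A) : ∀ u, G.dist u z < m' → u ∈ A := fun u hu => h u (by
  have := H.tree.connected.dist_triangle (u := u) (v := z) (w := w)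
  rw [SimpleGraph.dist_eq_one_iff_adj.2 (ch_adj hz)] at this
  omega)

variable (hθ : ((d : ℝ) - 1) * S.θ ^ 2 ≤ 1) {A : Set V} {β γ : ℝ} {n₀ : ℕ} (γ0 : 0 < γ)
  (γ1 : γ ≤ 1) (β1 : β ≤ 1) (hγ : ((d : ℝ) - 1) * S.θ ^ 2 * (1 - β / 2) ≤ 1 - γ)
  (hD : ∀ w v, G.Adj w v → (∀ u, G.dist u w < n₀ → u ∈ A) → β ≤ S.θ ^ 2 * ww (S.Mg τ G w v))
include hθ γ0 γ1 β1 hγ hD

lemma zeta (n : ℕ) : ∀ w v, G.Adj w v → (∀ u, G.dist u w < n + n₀ → u ∈ A) →
    Ex (S.Mg τ G w v) (Yc G S τ n w v) ≤ S.θ ^ 2 / γ := by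
  induction n with
  | zero =>
    intro w v he _
    have : Yc G S τ 0 w v = fun _ => 0 := by funext ω; simp [Yc, chi_zero]
    rw [this, (part_Mg τ H.tree hS (Or.inl he)).Ex_const]; positivity
  | succ n ih =>
    intro w v he hn
    have p := part_Mg τ H.tree hS (Or.inl he)
    have b : ∀ z ∈ ch G w v, BM fun ω => Yc G S τ n z w ω +
        -(1 / 2) * (Yc G S τ n z w ω * mg (S.Mg τ G w v ω) ^ 2) := fun z hz =>
      (bm_Yc τ H hS n (ch_adj hz)).add (((bm_Yc τ H hS n (ch_adj hz)).mul (p.bmg.pow 2)).cmul _)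
    refine (p.Ex_mono (bm_Yc τ H hS _ he) (((BM.const 1).add (BM.sum _ b)).cmul (S.θ ^ 2))
      fun ω => ?_).trans ?_
    · have a := rr_le hS.h0 (H.half hθ) (p.mlt ω).le
      refine (mul_le_mul_of_nonneg_right a (chi_nonneg _ _ _ _ _)).trans ?_
      rw [mul_assoc, chi_succ, sum_add_distrib, ← mul_sum, ← sum_mul]
      refine mul_le_mul_of_nonneg_left ?_ (sq_nonneg _)
      simp only [Yc]
      nlinarith [sq_nonneg (mg (S.Mg τ G w v ω))]
    rw [Ex_cmul, p.Ex_add (BM.const 1) (BM.sum _ b), p.Ex_const, p.Ex_sum _ b]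
    have := sum_le_sum (s := ch G w v) (g := fun _ => S.θ ^ 2 / γ * (1 - β / 2))
      (f := fun z => Ex (S.Mg τ G w v) fun ω => Yc G S τ n z w ω +
        -(1 / 2) * (Yc G S τ n z w ω * mg (S.Mg τ G w v ω) ^ 2)) fun z hz => by
      have bY := bm_Yc τ H hS n (ch_adj hz)
      obtain ⟨B, M, pM, dj, e, z', hz', hw⟩ := Mg_split τ H hS he hz
      have q := part_ch τ H.tree hS z hz
      have a1 := q.X_low pM dj bY (dep_Yc τ H hS n (ch_adj hz)) (Yc_nonneg τ n z w)
      have a2 := q.Ex_mul pM dj bY (dep_Yc τ H hS n (ch_adj hz))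
      rw [p.Ex_add bY ((bY.mul (p.bmg.pow 2)).cmul _), Ex_cmul]
      rw [Ex_Ch] at a1 a2
      have a3 := ih z w (ch_adj hz) (deep_ch H hz (by omega) hn)
      have a4 := (hD z' w (ch_adj hz') (deep_ch H hz' (by omega) hn)).trans hw
      have a5 := (part_Mg τ H.tree hS (ch_ed hz)).Ex_nonneg (Yc_nonneg (G := G) (S := S) τ n z w)
      have a6 := mul_le_mul_of_nonneg_left a4 a5
      have a7 := mul_le_mul_of_nonneg_right a3 (by linarith : 0 ≤ 1 - β / 2)
      simp only [e] at *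
      linarith
    rw [sum_const, nsmul_eq_mul, card_ch' H he] at this
    have e : ((d : ℝ) - 1) * (S.θ ^ 2 / γ * (1 - β / 2)) ≤ 1 / γ - 1 := by
      rw [show ((d : ℝ) - 1) * (S.θ ^ 2 / γ * (1 - β / 2)) =
        ((d : ℝ) - 1) * S.θ ^ 2 * (1 - β / 2) / γ by ring, div_sub_one γ0.ne']
      exact div_le_div_of_nonneg_right hγ γ0.le
    rw [div_eq_mul_one_div (S.θ ^ 2)]
    exact mul_le_mul_of_nonneg_left (by linarith) (sq_nonneg _)

omit γ0 γ1 β1 hγ hD in
lemma Yc_le (n : ℕ) {w v : V} (he : G.Adj w v) (ω : Om V) :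
    ((d : ℝ) - 1) * Yc G S τ n w v ω ≤ chi G S.θ n (S.B0 τ G ω) w v := by
  have hd : (3 : ℝ) ≤ d := by exact_mod_cast H.hd
  have a := rr_bd hS.h0 hS.h1 ((part_Mg τ H.tree hS (Or.inl he)).mlt ω).le
  rw [Yc, ← mul_assoc]
  exact mul_le_of_le_one_left (chi_nonneg _ _ _ _ _) (le_trans (mul_le_mul_of_nonneg_left
    (pow_le_pow_left₀ a.1 a.2 2) (by linarith)) hθ)

lemma exp_base (n : ℕ) : ∀ w v, G.Adj w v → (∀ u, G.dist u w < n + n₀ → u ∈ A) →
    Ex (S.Mg τ G w v) (fun ω => Real.exp (γ / 16 * chi G S.θ n (S.B0 τ G ω) w v)) ≤ 2 := by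
  have hd : (3 : ℝ) ≤ d := by exact_mod_cast H.hd
  induction n with
  | zero =>
    intro w v he _
    simp only [chi_zero, mul_zero, Real.exp_zero, (part_Mg τ H.tree hS (Or.inl he)).Ex_const]
    norm_num
  | succ n ih =>
    intro w v he hn
    rw [Ex_exp_step τ H hS _ n he]
    have := prod_le_prod (s := ch G w v)
      (g := fun _ => Real.exp (S.θ ^ 2 / 16 + 1 / (2 * ((d : ℝ) - 1))))
      (f := fun z => Ex (S.Mg τ G z w) fun ω => Real.exp (γ / 16 * Yc G S τ n z w ω))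
      (fun z hz => (part_Mg τ H.tree hS (ch_ed hz)).Ex_nonneg fun _ => (Real.exp_pos _).le)
      fun z hz => by
        have p := part_Mg τ H.tree hS (ch_ed hz)
        have bY := (bm_Yc τ H hS n (ch_adj hz)).cmul (γ / 16)
        have bE := (((bm_chi τ H hS n z w).cmul (γ / 16)).cont Real.continuous_exp).cmul
          (1 / (2 * ((d : ℝ) - 1)))
        refine (p.Ex_mono (bY.cont Real.continuous_exp) ((bY.add bE).add
          (BM.const (1 - 1 / (2 * ((d : ℝ) - 1))))) fun ω => ?_).trans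
          (le_trans ?_ (Real.add_one_le_exp _))
        · refine (exp_conv (k := (d : ℝ) - 1) (x := γ / 16 * chi G S.θ n (S.B0 τ G ω) z w)
            (by linarith) (mul_nonneg (by positivity) (Yc_nonneg τ n z w ω)) ?_).trans_eq (by ring)
          rw [mul_left_comm]
          exact mul_le_mul_of_nonneg_left (Yc_le τ H hS hθ n (ch_adj hz) ω) (by positivity)
        · rw [p.Ex_add (bY.add bE) (BM.const _), p.Ex_add bY bE, p.Ex_const, Ex_cmul, Ex_cmul]
          have a1 := mul_le_mul_of_nonneg_left (zeta τ H hS hθ γ0 γ1 β1 hγ hD n z w (ch_adj hz)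
            (deep_ch H hz (by omega) hn)) (by positivity : 0 ≤ γ / 16)
          have a2 := mul_le_mul_of_nonneg_left (ih z w (ch_adj hz) (deep_ch H hz (by omega) hn))
            (div_nonneg zero_le_one (by linarith) : 0 ≤ 1 / (2 * ((d : ℝ) - 1)))
          rw [show γ / 16 * (S.θ ^ 2 / γ) = S.θ ^ 2 / 16 by field_simp] at a1
          linarith
    refine (mul_le_mul_of_nonneg_left this (Real.exp_pos _).le).trans ?_
    rw [prod_const, ← Real.exp_nat_mul, card_ch' H he, ← Real.exp_add,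
      ← Real.le_log_iff_exp_le two_pos]
    have : ((d : ℝ) - 1) * (1 / (2 * ((d : ℝ) - 1))) = 1 / 2 := by
      have : (d : ℝ) - 1 ≠ 0 := by linarith
      field_simp
    linarith [Real.log_two_gt_d9]

lemma exp_boost (i : ℕ) : ∀ (n : ℕ) w v, G.Adj w v → (∀ u, G.dist u w < n + n₀ → u ∈ A) →
    ∀ l, 0 ≤ l → l ≤ 2 ^ i * (γ / 16) →
    Ex (S.Mg τ G w v) (fun ω => Real.exp (l * chi G S.θ n (S.B0 τ G ω) w v)) ≤
      Real.exp (l * (i + 16 / γ)) := by
  have hd : (3 : ℝ) ≤ d := by exact_mod_cast H.hd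
  induction i with
  | zero =>
    intro n w v he hn l l0 l1
    have p := part_Mg τ H.tree hS (Or.inl he)
    have a0 : 0 ≤ l * (16 / γ) := by positivity
    have a1 : l * (16 / γ) ≤ 1 := by
      rw [← mul_div_assoc, div_le_one γ0]; linarith
    have bE := (((bm_chi τ H hS n w v).cmul (γ / 16)).cont Real.continuous_exp).cmul (l * (16 / γ))
    refine (p.Ex_mono (((bm_chi τ H hS n w v).cmul l).cont Real.continuous_exp)
      ((BM.const (1 - l * (16 / γ))).add bE) fun ω => ?_).trans (le_trans ?_ (Real.add_one_le_exp _))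
    · refine le_trans (le_of_eq ?_) (exp_cvx a0 a1)
      congr 1; field_simp
    · rw [p.Ex_add (BM.const _) bE, p.Ex_const, Ex_cmul]
      have := mul_le_mul_of_nonneg_left (exp_base τ H hS hθ γ0 γ1 β1 hγ hD n w v he hn) a0
      simp only [Nat.cast_zero, zero_add]
      linarith
  | succ i ih =>
    intro n w v he hn l l0 l1
    cases n with
    | zero =>
      simp only [chi_zero, mul_zero, Real.exp_zero, (part_Mg τ H.tree hS (Or.inl he)).Ex_const]
      exact Real.one_le_exp (by positivity)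
    | succ n =>
      rw [Ex_exp_step τ H hS _ n he]
      have k0 : 0 < (d : ℝ) - 1 := by linarith
      have := prod_le_prod (s := ch G w v)
        (g := fun _ => Real.exp (l / ((d : ℝ) - 1) * (i + 16 / γ)))
        (f := fun z => Ex (S.Mg τ G z w) fun ω => Real.exp (l * Yc G S τ n z w ω))
        (fun z hz => (part_Mg τ H.tree hS (ch_ed hz)).Ex_nonneg fun _ => (Real.exp_pos _).le)
        fun z hz => by
          refine le_trans ((part_Mg τ H.tree hS (ch_ed hz)).Ex_mono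
            (((bm_Yc τ H hS n (ch_adj hz)).cmul l).cont Real.continuous_exp)
            (((bm_chi τ H hS n z w).cmul _).cont Real.continuous_exp)
            fun ω => Real.exp_le_exp.2 ?_) (ih n z w (ch_adj hz) (deep_ch H hz (by omega) hn) _
              (by positivity) ?_)
          · rw [div_mul_eq_mul_div, le_div_iff₀ k0, mul_assoc, mul_comm (Yc _ _ _ _ _ _ _)]
            exact mul_le_mul_of_nonneg_left (Yc_le τ H hS hθ n (ch_adj hz) ω) l0
          · rw [div_le_iff₀ k0]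
            rw [pow_succ] at l1
            nlinarith [show (0 : ℝ) ≤ 2 ^ i * (γ / 16) by positivity]
      refine (mul_le_mul_of_nonneg_left this (Real.exp_pos _).le).trans_eq ?_
      rw [prod_const, ← Real.exp_nat_mul, card_ch' H he, ← Real.exp_add]
      congr 1
      push_cast; field_simp; ring

lemma kappa {w v : V} (he : G.Adj w v) (hn : ∀ u, G.dist u w < n₀ → u ∈ A) :
    γ ≤ Ex (S.Mg τ G w v) fun ω => 1 - (((d : ℝ) - 1) * rr S.θ (S.B0 τ G ω w v) ^ 2) ^ 2 := by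
  have hd : (3 : ℝ) ≤ d := by exact_mod_cast H.hd
  have p := part_Mg τ H.tree hS (Or.inl he)
  have b := (p.bmg.pow 2).cmul (((d : ℝ) - 1) * S.θ ^ 2 / 2)
  refine le_trans ?_ (p.Ex_mono ((BM.const (1 - ((d : ℝ) - 1) * S.θ ^ 2)).add b)
    ((BM.const 1).sub ((((bm_r0 τ H hS he).pow 2).cmul _).pow 2)) fun ω => ?_)
  · rw [p.Ex_add (BM.const _) b, p.Ex_const, Ex_cmul]
    have a := (hD w v he hn).trans (mul_le_of_le_one_left p.ww_bd.1 (by linarith [H.half hθ]))
    have := mul_le_mul_of_nonneg_left a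
      (by have := sq_nonneg S.θ; nlinarith : 0 ≤ ((d : ℝ) - 1) * S.θ ^ 2 / 2)
    unfold ww at this
    linarith
  · have a := mul_le_mul_of_nonneg_left (rr_le hS.h0 (H.half hθ) (p.mlt ω).le)
      (by linarith : 0 ≤ (d : ℝ) - 1)
    have a0 := mul_nonneg (by linarith : 0 ≤ (d : ℝ) - 1) (sq_nonneg (rr S.θ (mg (S.Mg τ G w v ω))))
    have a1 := mul_nonneg (mul_nonneg (by linarith : 0 ≤ (d : ℝ) - 1) (sq_nonneg S.θ))
      (sq_nonneg (mg (S.Mg τ G w v ω)))
    change _ ≤ 1 - (((d : ℝ) - 1) * rr S.θ (mg (S.Mg τ G w v ω)) ^ 2) ^ 2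
    generalize ((d : ℝ) - 1) * rr S.θ (mg (S.Mg τ G w v ω)) ^ 2 = x at *
    nlinarith

end Sys

end

end Crest.Agent.H0241
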