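import Crest.Agent.H0241.Mom2

set_option autoImplicit false
set_option linter.unusedSectionVars false
open Finset Filter MeasureTheory

namespace Crest.Agent.H0241

noncomputable section
open Classical

variable {V : Type*} {G : SimpleGraph V} [G.LocallyFinite]

lemma rr_cont {θ b : ℝ} (h : θ ^ 2 ≤ 1 / 2) (hb : |b| ≤ 1) : ContinuousAt (rr θ) b := by
  unfold rr
  exact ContinuousAt.div (by fun_prop) (by fun_prop) (by linarith [den_ge h hb])

lemma measurable_rr (θ : ℝ) : Measurable (rr θ) := by unfold rr; fun_prop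

def chiI (G : SimpleGraph V) [G.LocallyFinite] (θ : ℝ) (B : V → V → ℝ) (w v : V) : ℝ :=
  DI G (fun a b => rr θ (B a b) ^ 2) (fun _ => 1) w v

def gam (d : ℕ) (n : ℤ) : ℝ := en (n - 1) / (40 * ((d : ℝ) - 1))

lemma bd_rr2 {θ : ℝ} (h0 : 0 ≤ θ) (h1 : θ < 1) {B : V → V → ℝ} (h : ∀ a b, Ed G a b → |B a b| ≤ 1) :
    Bd G (fun a b => rr θ (B a b) ^ 2) (θ ^ 2) := fun a b c =>
  ⟨sq_nonneg _, pow_le_pow_left₀ (Sys.rr_bd h0 h1 (h a b (Or.inl c))).1
    (Sys.rr_bd h0 h1 (h a b (Or.inl c))).2 2⟩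

lemma one_sub_sum_le {κ : Type*} (s : Finset κ) {x : κ → ℝ} (h0 : ∀ i, 0 ≤ x i)
    (h1 : ∀ i, x i ≤ 1) : 1 - ∑ i ∈ s, x i ≤ ∏ i ∈ s, (1 - x i) := by
  induction s using Finset.induction_on with
  | empty => simp
  | insert v B hv ih =>
    rw [sum_insert hv, prod_insert hv]
    have := prod_le_one (s := B) (f := fun i => 1 - x i) (fun v _ => by linarith [h1 v])
      fun v _ => by linarith [h0 v]
    nlinarith [h0 v]

lemma en_sum {n : ℤ} (hn : n ≤ 0) (R : Finset (V × ℤ)) (v : V) :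
    ∑ ρ ∈ R with ρ.1 = v, (if ρ.2 ≤ n then en ρ.2 else 0) ^ 2 ≤ 2 * en n ^ 2 := by
  have : ∑ ρ ∈ (R.filter fun ρ => ρ.1 = v) with ρ.2 ≤ n, (1 / 2 : ℝ) ^ (n - ρ.2).toNat ≤ 2 := by
    rw [← sum_image (f := fun j => (1 / 2 : ℝ) ^ j) (g := fun ρ : V × ℤ => (n - ρ.2).toNat)
      fun a ha b hb e => ?_]
    · exact (summable_geometric_two.sum_le_tsum _ fun _ _ => by positivity).trans_eq
        tsum_geometric_two
    · simp only [coe_filter, mem_filter, Set.mem_ofPred_eq] at ha hb e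
      exact Prod.ext (ha.1.2.trans hb.1.2.symm) (by omega)
  refine le_trans ?_ (mul_le_mul_of_nonneg_right this (sq_nonneg _))
  rw [sum_filter (fun ρ : V × ℤ => ρ.2 ≤ n), sum_mul]
  refine sum_le_sum fun ρ _ => ?_
  split_ifs with c
  · have e : en ρ.2 = (1 / 16) ^ (n - ρ.2).toNat * en n := by
      rw [en, en, show (-ρ.2).toNat = (n - ρ.2).toNat + (-n).toNat by omega, pow_add]; ring
    rw [e, mul_pow, ← pow_mul, mul_comm _ 2, pow_mul]
    gcongr; norm_num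
  · simp

variable {d : ℕ} (H : TR G d) {θ : ℝ} (h0 : 0 ≤ θ) (h : ((d : ℝ) - 1) * θ ^ 2 < 1) (N : ℕ) (τ : ℝ)
include H h0 h

lemma Bl_lim1 (c : V) {w v : V} (he : Ed G w v) {φ : ℝ → ℝ} (hm : Measurable φ)
    (hc : ∀ x, |x| ≤ 1 → ContinuousAt φ x) :
    Tendsto (fun R => Ex ((Sy G θ N c R).Mg τ G w v) fun ω => φ (mg ((Sy G θ N c R).Mg τ G w v ω)))
      atTop (nhds (∫ ω, φ (Bl G θ N τ ω w v) ∂PO V)) := by
  obtain ⟨C, hC⟩ := (isCompact_Icc (a := (-1 : ℝ)) (b := 1)).exists_bound_of_continuousOn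
    (f := φ) fun x hx => (hc x (abs_le.2 hx)).continuousWithinAt
  have hS := Sy_ok' H h0 h N c
  refine (tendsto_int (PO V) C (F := fun R ω => φ ((Sy G θ N c R).B G τ ω w v))
    (fun R => hm.comp (bm_Sy H h0 h N τ c R he).1)
    (fun R ω => hC _ (abs_le.1 (Sys.abs_B_lt H.tree (hS R) τ ω he).le)) ?_).congr fun R => ?_
  · filter_upwards [ae_conv H h0 h N τ] with ω hω
    exact (hc _ (abs_Bl H h0 h N τ ω he)).tendsto.comp (hω c w v he)
  · have p := Sys.part_Mg τ H.tree (hS R) he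
    exact Sys.int_B τ H.tree (hS R) he (fun B => φ (B w v))
      ⟨hm.comp p.bmg.1, C, fun ω => hC _ (abs_le.1 (p.mlt ω).le)⟩ (p.depf fun l => φ (mg l))

lemma bm_chiI {w v : V} (he : Ed G w v) : BM fun ω => chiI G θ (Bl G θ N τ ω) w v :=
  bm_DI H (sq_nonneg θ) h
    (fun ω => bd_rr2 h0 (lt_one_of_sq (H.half h.le)) fun _ _ => abs_Bl H h0 h N τ ω)
    (C := 1) (fun _ _ => by simp)
    (fun _ _ c => ((measurable_rr θ).comp (bm_Bl H h0 h N τ (Or.inl c)).1).pow_const 2)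
    (fun _ => measurable_const) he

lemma Bl_exp {w v : V} (he : G.Adj w v) (l K : ℝ)
    (hK : ∀ m, ∀ᶠ R in atTop, Ex ((Sy G θ N w R).Mg τ G w v)
      (fun ω => Real.exp (l * Sys.chi G θ m ((Sy G θ N w R).B0 τ G ω) w v)) ≤ K) :
    ∫ ω, Real.exp (l * chiI G θ (Bl G θ N τ ω) w v) ∂PO V ≤ K := by
  have hS := Sy_ok' H h0 h N w
  have h1 := lt_one_of_sq (H.half h.le)
  have bd : ∀ m (B : V → V → ℝ), (∀ a b, Ed G a b → |B a b| ≤ 1) →
      |Real.exp (l * Sys.chi G θ m B w v)| ≤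
        Real.exp (|l| * (1 * (2 / (1 - ((d : ℝ) - 1) * θ ^ 2)))) := fun m B hB => by
    rw [abs_of_pos (Real.exp_pos _)]
    refine Real.exp_le_exp.2 ((le_abs_self _).trans ?_)
    rw [abs_mul]
    exact mul_le_mul_of_nonneg_left (DS_bd H (sq_nonneg θ) h (bd_rr2 h0 h1 hB) (fun _ => by simp)
      m w v) (abs_nonneg _)
  have ms : ∀ m (B : Om V → V → V → ℝ), (∀ a b, Ed G a b → Measurable fun ω => B ω a b) →
      (∀ ω a b, Ed G a b → |B ω a b| ≤ 1) →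
      Measurable fun ω => Real.exp (l * Sys.chi G θ m (B ω) w v) := fun m B hm hB =>
    ((bm_DS (fun a b c => (Sys.bm_rr h0 h1 (hm a b (Or.inl c)) fun ω => hB ω a b (Or.inl c)).pow 2)
      (fun _ => BM.const 1) m w v).1.const_mul l).exp
  refine le_of_tendsto' (tendsto_int (PO V) _
    (fun m => ms m _ (fun a b c => (bm_Bl H h0 h N τ c).1) fun ω a b => abs_Bl H h0 h N τ ω)
    (fun m ω => bd m _ fun a b => abs_Bl H h0 h N τ ω) (Eventually.of_forall fun ω =>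
      ((DI_lim H (sq_nonneg θ) h (bd_rr2 h0 h1 fun a b => abs_Bl H h0 h N τ ω) (C := 1)
        (fun _ => by simp) (Or.inl he)).const_mul l).rexp)) fun m => ?_
  refine le_of_tendsto (tendsto_int (PO V) _
    (fun R => ms m _ (fun a b c => (bm_Sy H h0 h N τ w R c).1)
      fun ω a b c => (Sys.abs_B_lt H.tree (hS R) τ ω c).le)
    (fun R ω => bd m _ fun a b c => (Sys.abs_B_lt H.tree (hS R) τ ω c).le) ?_) ?_
  · filter_upwards [ae_conv H h0 h N τ] with ω hω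
    exact ((DS_tendsto_fix (fun a b c => ((rr_cont (H.half h.le)
      (abs_Bl H h0 h N τ ω (Or.inl c))).tendsto.comp (hω w a b (Or.inl c))).pow 2) _ m w v).const_mul
        l).rexp
  · filter_upwards [hK m] with R hR
    refine le_trans (le_of_eq ?_) hR
    exact Sys.int_B τ H.tree (hS R) (Or.inl he) (fun B => Real.exp (l * Sys.chi G θ m B w v))
      (((Sys.bm_chi τ H (hS R) m w v).cmul l).cont Real.continuous_exp)
      fun x y e => congrArg (fun t => Real.exp (l * t)) (Sys.dep_chi τ H (hS R) m w v (Or.inl he) e)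

omit h0 h in
lemma gam_bd (n : ℤ) : 0 < gam d n ∧ gam d n ≤ 1 := by
  have hd : (3 : ℝ) ≤ d := by exact_mod_cast H.hd
  have := en_pos (n - 1)
  have := en_le (n - 1)
  exact ⟨div_pos (by linarith) (by linarith), (div_le_one (by linarith)).2 (by linarith)⟩

lemma deep {n : ℤ} (hτ : n ≤ τ) (h1 : -N ≤ n - 1) (h2 : n - 1 ≤ N) :
    ∃ (β : ℝ) (n₀ : ℕ), β ≤ 1 ∧ ((d : ℝ) - 1) * θ ^ 2 * (1 - β / 2) ≤ 1 - gam d n ∧
      ∀ c R w v, G.Adj w v → (∀ u, G.dist u w < n₀ → u ∈ (bl G R c c : Set V)) →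
        β ≤ θ ^ 2 * ww ((Sy G θ N c R).Mg τ G w v) := by
  have hd : (3 : ℝ) ≤ d := by exact_mod_cast H.hd
  have e0 := en_pos (n - 1)
  have e1 := en_le (n - 1)
  have g : gam d n * (40 * ((d : ℝ) - 1)) = en (n - 1) := div_mul_cancel₀ _ (by linarith)
  have g0 := (gam_bd H n).1
  have hh := H.half h.le
  by_cases c : 1 - ((d : ℝ) - 1) * θ ^ 2 ≤ en (n - 1) / 10
  · obtain ⟨n₀, hn⟩ := exists_nat_ge (en (n - 1) / 10 / (en (n - 1) ^ 2 / 6 / 2))
    rw [div_le_iff₀ (by positivity)] at hn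
    refine ⟨θ ^ 2 * (en (n - 1) / 10), n₀, by nlinarith, ?_, fun c' R w v he hn' => ?_⟩
    · have a : gam d n ≤ θ ^ 2 * (en (n - 1) / 10) / 2 := by
        refine le_of_mul_le_mul_right ?_ (by linarith : 0 < 40 * ((d : ℝ) - 1))
        rw [g]
        nlinarith [mul_le_mul_of_nonneg_right (show 1 / 2 ≤ ((d : ℝ) - 1) * θ ^ 2 by linarith) e0.le]
      refine (mul_le_of_le_one_left (by nlinarith) h.le).trans (by linarith)
    · have hS := Sy_ok' H h0 h N c' R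
      have := Sys.ww_low τ H hS h.le (A := bl G R c' c') (s := en (n - 1) ^ 2 / 6)
        (fun u hu => by
          have m : (u, n - 1) ∈ (Sy G θ N c' R).R := mem_product.2 ⟨hu, mem_Icc.2 ⟨h1, h2⟩⟩
          exact (Sys.ww_rg τ hS rfl m (by push_cast; linarith)).ge.trans (Part.le_prod _
            (fun ρ _ => Sys.part_rg τ hS ρ) (fun ρ _ ρ' _ => Sys.rg_disj ρ ρ')
            (mem_filter.2 ⟨m, rfl⟩)))
        (by positivity) (by nlinarith) (by nlinarith) c n₀ w v he hn'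
      rw [min_eq_right (by linarith)] at this
      exact mul_le_mul_of_nonneg_left this (sq_nonneg θ)
  · refine ⟨0, 0, zero_le_one, by nlinarith, fun c' R w v he _ => mul_nonneg (sq_nonneg θ)
      (Sys.part_Mg τ H.tree (Sy_ok' H h0 h N c' R) (Or.inl he)).ww_bd.1⟩

omit h0 h in
lemma ev_ball (w : V) (m : ℕ) : ∀ᶠ R in atTop, ∀ u, G.dist u w < m → u ∈ (bl G R w w : Set V) := by
  filter_upwards [eventually_ge_atTop m] with R hR u hu using (mem_ball H.tree).2 (hu.trans_le hR)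

lemma mom_exp {n : ℤ} (hτ : n ≤ τ) (h1 : -N ≤ n - 1) (h2 : n - 1 ≤ N) {w v : V} (he : G.Adj w v)
    (i : ℕ) {l : ℝ} (l0 : 0 ≤ l) (l1 : l ≤ 2 ^ i * (gam d n / 16)) :
    ∫ ω, Real.exp (l * chiI G θ (Bl G θ N τ ω) w v) ∂PO V ≤ Real.exp (l * (i + 16 / gam d n)) := by
  obtain ⟨β, n₀, a, b, c⟩ := deep H h0 h N τ hτ h1 h2
  refine Bl_exp H h0 h N τ he l _ fun m => ?_
  filter_upwards [ev_ball H w (m + n₀)] with R hR
  exact Sys.exp_boost τ H (Sy_ok' H h0 h N w R) h.le (gam_bd H n).1 (gam_bd H n).2 a b (c w R) i m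
    w v he hR l l0 l1

lemma mom_kappa {n : ℤ} (hτ : n ≤ τ) (h1 : -N ≤ n - 1) (h2 : n - 1 ≤ N) {w v : V} (he : G.Adj w v) :
    gam d n ≤ ∫ ω, (1 - (((d : ℝ) - 1) * rr θ (Bl G θ N τ ω w v) ^ 2) ^ 2) ∂PO V := by
  obtain ⟨β, n₀, a, b, c⟩ := deep H h0 h N τ hτ h1 h2
  refine ge_of_tendsto (Bl_lim1 H h0 h N τ w (Or.inl he)
    (φ := fun x => 1 - (((d : ℝ) - 1) * rr θ x ^ 2) ^ 2) (by have := measurable_rr θ; fun_prop)
    fun x hx => by have := rr_cont (H.half h.le) hx; fun_prop) ?_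
  filter_upwards [ev_ball H w n₀] with R hR
  exact Sys.kappa τ H (Sy_ok' H h0 h N w R) h.le (gam_bd H n).1 (gam_bd H n).2 a b (c w R) he hR

lemma ww_Sy {n : ℤ} (hτ : τ ≤ n + 1) (hn : n ≤ 0) (c : V) (R : ℕ) {w v : V} (he : G.Adj w v) :
    ww ((Sy G θ N c R).Mg τ G w v) ≤ ((d : ℝ) - 1) * (2 * en n) := by
  have hS := Sy_ok' H h0 h N c R
  by_cases c1 : ((d : ℝ) - 1) * (2 * en n) ≤ 1
  swap
  · exact (Sys.part_Mg τ H.tree hS (Or.inl he)).ww_bd.2.trans (not_le.1 c1).le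
  refine Sys.ww_up τ H hS h.le (by linarith [en_pos n]) c1 (fun u => ?_) he
  have a := Part.prod_up ((Sy G θ N c R).R.filter fun ρ => ρ.1 = u)
    (fun ρ _ => Sys.part_rg τ hS ρ) (fun ρ _ ρ' _ => Sys.rg_disj ρ ρ')
    (x := fun ρ => (if ρ.2 ≤ n then en ρ.2 else 0) ^ 2) fun ρ _ => by
      have p := Sys.part_rg τ hS ρ
      refine ⟨(p.Ex_mono (p.bmg.pow 2) (BM.const _) fun ω => ?_).trans (p.Ex_const _).le, ?_⟩
      · exact (sq_abs _).ge.trans (pow_le_pow_left₀ (abs_nonneg _)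
          (Sys.mg_rg_le τ rfl (fun m => (en_pos m).le) hτ ρ ω) 2)
      · split_ifs
        · nlinarith [en_pos ρ.2, en_le ρ.2]
        · norm_num
  have b : ∀ s : Finset (V × ℤ), 1 - ∑ ρ ∈ s, (if ρ.2 ≤ n then en ρ.2 else 0) ^ 2 ≤
      ∏ ρ ∈ s, (1 - (if ρ.2 ≤ n then en ρ.2 else 0) ^ 2) := fun s =>
    one_sub_sum_le s (fun _ => sq_nonneg _) fun ρ => by
      split_ifs
      · nlinarith [en_pos ρ.2, en_le ρ.2]
      · norm_num
  rw [Sys.ow_eq]
  nlinarith [b ((Sy G θ N c R).R.filter fun ρ => ρ.1 = u), en_sum hn (Sy G θ N c R).R u,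
    sq_nonneg (en n)]

lemma mom_root {n : ℤ} (hτ : τ ≤ n + 1) (hn : n ≤ 0) {w v : V} (he : G.Adj w v) :
    ∫ ω, Bl G θ N τ ω w w ^ 2 ∂PO V ≤ 2 * (((d : ℝ) - 1) * (2 * en n)) :=
  le_of_tendsto' (Bl_lim1 H h0 h N τ w (ed_root w) (φ := fun x => x ^ 2) (by fun_prop)
    fun x _ => by fun_prop) fun R => Sys.root_up τ H (Sy_ok' H h0 h N w R) h.le
      (fun _ _ => ww_Sy H h0 h N τ hτ hn w R) he

lemma mom_cosh {n : ℤ} (hτ : τ ≤ n + 1) (hn : n ≤ 0) {μ : ℝ} (hμ : 10 ≤ μ)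
    (hμ' : 900 * d * en n * (μ + 1) ^ 2 ≤ 1) {w v : V} (he : G.Adj w v) :
    ∫ ω, Real.cosh (μ * Bl G θ N τ ω w v) ∂PO V ≤ 5 / 4 := by
  refine le_of_tendsto' (Bl_lim1 H h0 h N τ w (Or.inl he) (φ := fun x => Real.cosh (μ * x))
    (by fun_prop) fun x _ => by fun_prop) fun R => ?_
  have hS := Sy_ok' H h0 h N w R
  have p := Sys.part_Mg τ H.tree hS (Or.inl he)
  refine (p.Ex_mono ((p.bmg.cmul μ).cont Real.continuous_cosh) (p.bcosh μ) fun ω => ?_).trans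
    (Sys.cosh_up τ H hS h.le hμ (fun _ _ => ww_Sy H h0 h N τ hτ hn w R)
      (x := 9 / 2 * (μ + 1) ^ 2 * (2 * en n ^ 2)) (fun u ν hν => ?_) ?_ he)
  · rw [Real.cosh_le_cosh, abs_mul, abs_mul, hh_eq (p.pos ω)]
    exact mul_le_mul_of_nonneg_left (le_ar (p.mlt ω)) (abs_nonneg _)
  · refine (Part.FF_prod _ (fun ρ _ => Sys.part_rg τ hS ρ) (fun ρ _ ρ' _ => Sys.rg_disj ρ ρ')
      fun ρ _ => (Sys.part_rg τ hS ρ).FF_small ?_
        (Sys.mg_rg_le τ rfl (fun m => (en_pos m).le) hτ ρ) hν).trans (Real.exp_le_exp.2 ?_)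
    · split_ifs
      · linarith [en_le ρ.2]
      · norm_num
    · rw [← mul_sum]
      exact mul_le_mul_of_nonneg_left (en_sum hn _ u) (by positivity)
  · have := mul_le_mul_of_nonneg_left (show en n ^ 2 ≤ en n by nlinarith [en_pos n, en_le n])
      (sq_nonneg (μ + 1))
    nlinarith

lemma mom_one {T : ℕ} (hT : T ≤ N) (hτ : T ≤ τ) (o : V) :
    (1 - ∫ ω, Bl G θ N τ ω o o ^ 2 ∂PO V) * (1 + 1 / 24 * T) ≤ 1 := by
  refine le_of_tendsto (((Bl_lim1 H h0 h N τ o (ed_root o) (φ := fun x => x ^ 2) (by fun_prop)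
    fun x _ => by fun_prop).const_sub 1).mul_const _) ?_
  filter_upwards [eventually_gt_atTop 0] with R hR
  have hS := Sy_ok' H h0 h N o R
  have m : ∀ ρ ∈ ({o} : Finset V) ×ˢ Ico (0 : ℤ) T, ρ ∈ (Sy G θ N o R).R ∧ ρ.1 = o := fun ρ hρ => by
    simp only [mem_product, mem_singleton, mem_Ico] at hρ
    exact ⟨mem_product.2 ⟨(mem_ball H.tree).2 (by simpa [hρ.1] using hR), mem_Icc.2 (by omega)⟩, hρ.1⟩
  have := Sys.root_low τ H.tree hS m (x := 1 / 24) (by norm_num) fun ρ hρ => by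
    have a := mem_Ico.1 (mem_product.1 hρ).2
    have b : ((ρ.2 + 1 : ℤ) : ℝ) ≤ ((T : ℤ) : ℝ) := by exact_mod_cast a.2
    rw [Sys.ww_rg τ hS rfl (m ρ hρ).1 (by push_cast at b; linarith), en,
      show (-ρ.2).toNat = 0 by omega]
    norm_num
  simpa [ww] using this

end

end Crest.Agent.H0241
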