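import Crest.Agent.H0241.Tree
import Crest.Prelude.Def_TreeIsing

set_option autoImplicit false
set_option linter.unusedSectionVars false
open Finset Filter

namespace Crest.Agent.H0241

noncomputable section
open Classical

def sg (s : Bool) : ℝ := if s then 1 else -1

@[simp] lemma sg_true : sg true = 1 := rfl
@[simp] lemma sg_false : sg false = -1 := rfl
lemma sg_not (s : Bool) : sg (!s) = -sg s := by cases s <;> simp

/-- the binary symmetric channel applied to a pair of likelihoods -/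
def Ch (θ : ℝ) (L : Bool → ℝ) (s : Bool) : ℝ := (1 + θ) / 2 * L s + (1 - θ) / 2 * L (!s)

def mg (L : Bool → ℝ) : ℝ := (L true - L false) / (L true + L false)

def zz (L : Bool → ℝ) : ℝ := (L true + L false) / 2

def rr (θ b : ℝ) : ℝ := θ * (1 - b ^ 2) / (1 - θ ^ 2 * b ^ 2)

lemma Ch_const (θ c : ℝ) (s : Bool) : Ch θ (fun _ => c) s = c := by unfold Ch; ring

lemma Ch_pos {θ : ℝ} (h0 : 0 ≤ θ) (h1 : θ < 1) {L : Bool → ℝ} (h : ∀ s, 0 < L s) (s : Bool) :
    0 < Ch θ L s := by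
  have := h s; have := h (!s); have : 0 < 1 - θ := by linarith
  unfold Ch; positivity

lemma Ch_mono {θ : ℝ} (h0 : 0 ≤ θ) (h1 : θ < 1) {L L' : Bool → ℝ} (h : ∀ s, L s ≤ L' s)
    (s : Bool) : Ch θ L s ≤ Ch θ L' s := by
  have := h s; have := h (!s); have : 0 < 1 - θ := by linarith
  unfold Ch; gcongr

lemma abs_mg_lt {L : Bool → ℝ} (h : ∀ s, 0 < L s) : |mg L| < 1 := by
  have a := h true; have b := h false
  rw [mg, abs_div, abs_of_pos (by linarith : 0 < L true + L false), div_lt_one (by linarith), abs_lt]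
  constructor <;> linarith

lemma eq_zz_mg {L : Bool → ℝ} (h : ∀ s, 0 < L s) (s : Bool) : L s = zz L * (1 + sg s * mg L) := by
  have a := h true; have b := h false
  cases s <;> simp only [zz, mg, sg_true, sg_false] <;> field_simp <;> ring

lemma zz_pos {L : Bool → ℝ} (h : ∀ s, 0 < L s) : 0 < zz L := by
  have a := h true; have b := h false
  unfold zz; positivity

lemma zz_Ch (θ : ℝ) (L : Bool → ℝ) : zz (Ch θ L) = zz L := by simp only [zz, Ch]; simp; ring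

lemma mg_Ch (θ : ℝ) (L : Bool → ℝ) : mg (Ch θ L) = θ * mg L := by
  simp only [mg, Ch, Bool.not_true, Bool.not_false]
  rw [← mul_div_assoc]
  congr 1 <;> ring

lemma one_add_mul_pos {a b : ℝ} (ha : |a| < 1) (hb : |b| ≤ 1) : 0 < 1 + a * b := by
  have : |a * b| < 1 := by
    rw [abs_mul]; nlinarith [abs_nonneg a, abs_nonneg b]
  linarith [(abs_lt.1 this).1]

lemma zz_mul {L L' : Bool → ℝ} (h : ∀ s, 0 < L s) (h' : ∀ s, 0 < L' s) :
    zz (fun s => L s * L' s) = zz L * zz L' * (1 + mg L * mg L') := by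
  have a := h true; have b := h false; have a' := h' true; have b' := h' false
  simp only [zz, mg]; field_simp; ring

lemma mg_mul {L L' : Bool → ℝ} (h : ∀ s, 0 < L s) (h' : ∀ s, 0 < L' s) :
    mg (fun s => L s * L' s) = (mg L + mg L') / (1 + mg L * mg L') := by
  have a := h true; have b := h false; have a' := h' true; have b' := h' false
  have e : 1 + mg L * mg L' = 2 * (L true * L' true + L false * L' false) /
      ((L true + L false) * (L' true + L' false)) := by simp only [mg]; field_simp; ring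
  rw [e]
  simp only [mg]; field_simp; ring

variable {V : Type*} (G : SimpleGraph V) [G.LocallyFinite]

def msgF (θ : ℝ) (ℓ : V → Bool → ℝ) : ℕ → V → V → Bool → ℝ
  | 0, _, _, _ => 1
  | n + 1, w, v, s => ℓ w s * ∏ z ∈ ch G w v, Ch θ (msgF θ ℓ n z w) s

/-- belief-propagation messages for finitely supported vertex weights -/
def msg (θ : ℝ) (ℓ : V → Bool → ℝ) (w v : V) (s : Bool) : ℝ :=
  limUnder atTop fun n => msgF G θ ℓ n w v s

def Bm (θ : ℝ) (ℓ : V → Bool → ℝ) (w v : V) : ℝ := mg (msg G θ ℓ w v)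

def Zr (θ : ℝ) (ℓ : V → Bool → ℝ) (o : V) : ℝ := zz (msg G θ ℓ o o)

def Fs (ℓ : V → Bool → ℝ) : Prop := ∃ S : Finset V, ∀ v ∉ S, ∀ s, ℓ v s = 1

def mulAt (ℓ : V → Bool → ℝ) (u : V) (f : Bool → ℝ) : V → Bool → ℝ :=
  fun v s => if v = u then ℓ v s * f s else ℓ v s

variable {G}

lemma Fs.mulAt {ℓ : V → Bool → ℝ} (h : Fs ℓ) (u : V) (f : Bool → ℝ) : Fs (mulAt ℓ u f) := by
  obtain ⟨S, hS⟩ := h
  refine ⟨insert u S, fun v hv s => ?_⟩
  rw [mem_insert, not_or] at hv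
  simp [H0241.mulAt, hv.1, hS v hv.2]

lemma Fs.mul {ℓ ℓ' : V → Bool → ℝ} (h : Fs ℓ) (h' : Fs ℓ') : Fs fun v s => ℓ v s * ℓ' v s := by
  obtain ⟨S, hS⟩ := h
  obtain ⟨S', hS'⟩ := h'
  refine ⟨S ∪ S', fun v hv s => ?_⟩
  rw [mem_union, not_or] at hv
  simp [hS v hv.1, hS' v hv.2]

lemma msgF_pos {θ : ℝ} (h0 : 0 ≤ θ) (h1 : θ < 1) {ℓ : V → Bool → ℝ} (h : ∀ v s, 0 < ℓ v s)
    (n : ℕ) : ∀ w v s, 0 < msgF G θ ℓ n w v s := by
  induction n with
  | zero => intros; exact one_pos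
  | succ n ih => exact fun w v s => mul_pos (h _ _) (prod_pos fun z _ => Ch_pos h0 h1 (ih z w) s)

lemma msgF_mono {θ : ℝ} (h0 : 0 ≤ θ) (h1 : θ < 1) {ℓ ℓ' : V → Bool → ℝ}
    (h : ∀ v s, 0 ≤ ℓ v s ∧ ℓ v s ≤ ℓ' v s) (n : ℕ) :
    ∀ w v s, 0 ≤ msgF G θ ℓ n w v s ∧ msgF G θ ℓ n w v s ≤ msgF G θ ℓ' n w v s := by
  induction n with
  | zero => intros; exact ⟨zero_le_one, le_rfl⟩
  | succ n ih =>
    intro w v s
    have a : ∀ z, 0 ≤ Ch θ (msgF G θ ℓ n z w) s := fun z =>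
      (Ch_const θ 0 s).ge.trans (Ch_mono h0 h1 (fun s => (ih z w s).1) s)
    exact ⟨mul_nonneg (h _ _).1 (prod_nonneg fun z _ => a z), mul_le_mul (h _ _).2
      (prod_le_prod (fun z _ => a z) fun z _ => Ch_mono h0 h1 (fun s => (ih z w s).2) s)
      (prod_nonneg fun z _ => a z) ((h w s).1.trans (h w s).2)⟩

lemma msgF_aut (g : G ≃g G) (θ : ℝ) (ℓ : V → Bool → ℝ) (n : ℕ) :
    ∀ w v, msgF G θ ℓ n (g w) (g v) = msgF G θ (fun a => ℓ (g a)) n w v := by
  induction n with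
  | zero => intros; rfl
  | succ n ih => intro w v; funext s; simp only [msgF, prod_ch_aut, ih]

lemma msg_aut (g : G ≃g G) (θ : ℝ) (ℓ : V → Bool → ℝ) (w v : V) :
    msg G θ ℓ (g w) (g v) = msg G θ (fun a => ℓ (g a)) w v := by
  funext s; simp only [msg, msgF_aut]

section
variable (hT : G.IsTree) {θ : ℝ}
include hT

lemma msgF_congr {ℓ ℓ' : V → Bool → ℝ} (n : ℕ) : ∀ w v, Ed G w v →
    (∀ u, Sd G w v u → ℓ u = ℓ' u) → msgF G θ ℓ n w v = msgF G θ ℓ' n w v := by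
  induction n with
  | zero => intros; rfl
  | succ n ih =>
    intro w v he h
    funext s
    simp only [msgF, h w (sd_self _ _)]
    congr 1
    exact prod_congr rfl fun z hz => by
      rw [ih z w (ch_ed hz) fun u hu => h u (sd_ch hT he hz hu)]

lemma msg_congr {ℓ ℓ' : V → Bool → ℝ} {w v : V} (he : Ed G w v)
    (h : ∀ u, Sd G w v u → ℓ u = ℓ' u) : msg G θ ℓ w v = msg G θ ℓ' w v := by
  funext s; simp only [msg, msgF_congr hT _ w v he h]

lemma msgF_stab {ℓ : V → Bool → ℝ} (n : ℕ) : ∀ w v, Ed G w v →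
    (∀ u, Sd G w v u → n ≤ G.dist u w → ∀ s, ℓ u s = 1) →
    msgF G θ ℓ (n + 1) w v = msgF G θ ℓ n w v := by
  induction n with
  | zero =>
    intro w v _ h
    funext s
    simp [msgF, h w (sd_self _ _) (Nat.zero_le _), Ch_const]
  | succ n ih =>
    intro w v he h
    funext s
    rw [msgF, msgF]
    congr 1
    refine prod_congr rfl fun z hz => ?_
    rw [ih z w (ch_ed hz) fun u hu hn => h u (sd_ch hT he hz hu) ?_]
    rw [(sd_adj hT (ch_adj hz)).1 hu]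
    omega

lemma msg_eq {ℓ : V → Bool → ℝ} {w v : V} (he : Ed G w v) {n : ℕ}
    (h : ∀ u, n ≤ G.dist u w → ∀ s, ℓ u s = 1) : msg G θ ℓ w v = msgF G θ ℓ n w v := by
  have : ∀ m, n ≤ m → msgF G θ ℓ m w v = msgF G θ ℓ n w v := by
    intro m hm
    induction m, hm using Nat.le_induction with
    | base => rfl
    | succ m hm ih => rw [msgF_stab hT m w v he fun u _ hu => h u (hm.trans hu), ih]
  funext s
  refine Tendsto.limUnder_eq (tendsto_const_nhds.congr' ?_)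
  filter_upwards [eventually_ge_atTop n] with m hm using by rw [this m hm]

omit hT in
lemma exists_rad (S : Finset V) (w : V) : ∃ n, ∀ u, n ≤ G.dist u w → u ∉ S :=
  ⟨S.sup (fun u => G.dist u w) + 1, fun u hu h => by
    have := le_sup (f := fun u => G.dist u w) h
    omega⟩

lemma msg_ev {ℓ : V → Bool → ℝ} (h : Fs ℓ) {w v : V} (he : Ed G w v) :
    ∀ᶠ n in atTop, msg G θ ℓ w v = msgF G θ ℓ n w v := by
  obtain ⟨S, hS⟩ := h
  obtain ⟨n, hn⟩ := exists_rad (G := G) S w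
  filter_upwards [eventually_ge_atTop n] with m hm
  exact msg_eq hT he fun u hu => hS u (hn u (hm.trans hu))

lemma msg_rec {ℓ : V → Bool → ℝ} (h : Fs ℓ) {w v : V} (he : Ed G w v) (s : Bool) :
    msg G θ ℓ w v s = ℓ w s * ∏ z ∈ ch G w v, Ch θ (msg G θ ℓ z w) s := by
  have a := (tendsto_add_atTop_nat 1).eventually (msg_ev (θ := θ) hT h he)
  have b : ∀ᶠ n in atTop, ∀ z ∈ ch G w v, msg G θ ℓ z w = msgF G θ ℓ n z w :=
    (eventually_all_finset _).2 fun z hz => msg_ev hT h (ch_ed hz)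
  obtain ⟨n, a, b⟩ := (a.and b).exists
  rw [a, msgF]
  congr 1
  exact prod_congr rfl fun z hz => by rw [b z hz]

lemma msg_edge {ℓ : V → Bool → ℝ} (h : Fs ℓ) {w v : V} (he : G.Adj w v) (s : Bool) :
    msg G θ ℓ w w s = msg G θ ℓ w v s * Ch θ (msg G θ ℓ v w) s := by
  rw [msg_rec hT h (ed_root w), msg_rec hT h (Or.inl he), ch_root_eq he,
    prod_insert (not_mem_ch _ _)]
  ring

lemma Zr_eq {ℓ : V → Bool → ℝ} (h : Fs ℓ) (w u : V) : Zr G θ ℓ w = Zr G θ ℓ u := by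
  refine path_ind hT u (fun w => Zr G θ ℓ w = Zr G θ ℓ u) rfl (fun z w a _ ih => ?_) w
  rw [← ih]
  simp only [Zr, zz, msg_edge hT h a, msg_edge hT h a.symm, Ch, Bool.not_true, Bool.not_false]
  ring

lemma msg_mulAt_off {ℓ : V → Bool → ℝ} {w v u : V} (he : Ed G w v) (hu : ¬ Sd G w v u)
    (f : Bool → ℝ) : msg G θ (mulAt ℓ u f) w v = msg G θ ℓ w v :=
  msg_congr hT he fun x hx => by
    funext s
    rw [mulAt, if_neg (by rintro rfl; exact hu hx)]

lemma msg_mulAt_self {ℓ : V → Bool → ℝ} (h : Fs ℓ) {w v : V} (he : Ed G w v) (f : Bool → ℝ)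
    (s : Bool) : msg G θ (mulAt ℓ w f) w v s = msg G θ ℓ w v s * f s := by
  rw [msg_rec hT (h.mulAt w f) he, msg_rec hT h he, mulAt, if_pos rfl,
    prod_congr rfl fun z hz => by rw [msg_mulAt_off hT (ch_ed hz) (not_sd hT (ch_adj hz))]]
  ring

lemma Zr_mulAt {ℓ : V → Bool → ℝ} (h : Fs ℓ) (o u : V) (f : Bool → ℝ) :
    Zr G θ (mulAt ℓ u f) o = (msg G θ ℓ u u true * f true + msg G θ ℓ u u false * f false) / 2 := by
  rw [Zr_eq hT (h.mulAt u f) o u]
  simp only [Zr, zz, msg_mulAt_self hT h (ed_root u)]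

variable (h0 : 0 ≤ θ) (h1 : θ < 1)
include h0 h1

lemma msg_pos {ℓ : V → Bool → ℝ} (h : Fs ℓ) (hp : ∀ v s, 0 < ℓ v s) {w v : V} (he : Ed G w v)
    (s : Bool) : 0 < msg G θ ℓ w v s := by
  obtain ⟨n, hn⟩ := (msg_ev (θ := θ) hT h he).exists
  rw [hn]; exact msgF_pos h0 h1 hp n w v s

lemma Zr_mono {ℓ ℓ' : V → Bool → ℝ} (h : Fs ℓ) (h' : Fs ℓ')
    (hle : ∀ v s, 0 ≤ ℓ v s ∧ ℓ v s ≤ ℓ' v s) (o : V) :
    0 ≤ Zr G θ ℓ o ∧ Zr G θ ℓ o ≤ Zr G θ ℓ' o := by
  obtain ⟨n, a, b⟩ := ((msg_ev (θ := θ) hT h (ed_root o)).and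
    (msg_ev (θ := θ) hT h' (ed_root o))).exists
  have c := msgF_mono (G := G) h0 h1 hle n o o
  simp only [Zr, zz, a, b]
  constructor <;> linarith [c true, c false]

lemma abs_Bm_lt {ℓ : V → Bool → ℝ} (h : Fs ℓ) (hp : ∀ v s, 0 < ℓ v s) {w v : V} (he : Ed G w v) :
    |Bm G θ ℓ w v| < 1 := abs_mg_lt (msg_pos hT h0 h1 h hp he)

lemma Bm_edge {ℓ : V → Bool → ℝ} (h : Fs ℓ) (hp : ∀ v s, 0 < ℓ v s) {w v : V} (he : G.Adj w v) :
    Bm G θ ℓ w w = (Bm G θ ℓ w v + θ * Bm G θ ℓ v w) / (1 + Bm G θ ℓ w v * (θ * Bm G θ ℓ v w)) := by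
  have : msg G θ ℓ w w = fun s => msg G θ ℓ w v s * Ch θ (msg G θ ℓ v w) s :=
    funext (msg_edge hT h he)
  rw [Bm, this, mg_mul (msg_pos hT h0 h1 h hp (Or.inl he))
    (Ch_pos h0 h1 (msg_pos hT h0 h1 h hp (Or.inl he.symm))), mg_Ch]
  rfl

lemma Zr_bump {ℓ : V → Bool → ℝ} (h : Fs ℓ) (hp : ∀ v s, 0 < ℓ v s) (o u : V) (c a : ℝ) :
    Zr G θ (mulAt ℓ u fun s => c + sg s * a) o = Zr G θ ℓ o * (c + a * Bm G θ ℓ u u) := by
  rw [Zr_mulAt hT h, Zr_eq hT h o u]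
  have := msg_pos hT h0 h1 h hp (ed_root u)
  rw [eq_zz_mg this true, eq_zz_mg this false]
  simp only [Zr, Bm, sg_true, sg_false]
  ring

lemma msg_bump {ℓ : V → Bool → ℝ} (h : Fs ℓ) (hp : ∀ v s, 0 < ℓ v s) (u w : V) :
    ∀ v, Ed G w v → Sd G w v u → ∃ c, ∀ a s, msg G θ (mulAt ℓ u fun s => 1 + sg s * a) w v s =
      msg G θ ℓ w v s * (1 + a * (c + PP G (fun a b => rr θ (Bm G θ ℓ a b)) w u * sg s)) := by
  refine path_ind hT u (fun w => ∀ v, Ed G w v → Sd G w v u → ∃ c, ∀ a s,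
    msg G θ (mulAt ℓ u fun s => 1 + sg s * a) w v s = msg G θ ℓ w v s *
      (1 + a * (c + PP G (fun a b => rr θ (Bm G θ ℓ a b)) w u * sg s))) ?_ ?_ w
  · intro v he _
    exact ⟨0, fun a s => by rw [msg_mulAt_self hT h he, PP_self]; ring⟩
  · intro z w hzw hs ih v he hv
    obtain ⟨c, hc⟩ := ih w (Or.inl hzw) hs
    have huw : w ≠ u := by rintro rfl; exact not_sd hT hzw hs
    obtain ⟨z', hz', hs'⟩ := exists_ch hT he hv huw.symm
    obtain rfl : z' = z := sd_unique hT (ch_adj hz') hzw hs' hs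
    set R := PP G (fun a b => rr θ (Bm G θ ℓ a b)) z' u
    set b := Bm G θ ℓ z' w with hb
    refine ⟨c + R * (b * (1 - θ ^ 2) / (1 - θ ^ 2 * b ^ 2)), fun a s => ?_⟩
    rw [msg_rec hT (h.mulAt u _) he, msg_rec hT h he, ← mul_prod_erase _ _ hz',
      ← mul_prod_erase _ _ hz', mulAt, if_neg huw, prod_congr rfl fun y hy => by
        rw [msg_mulAt_off hT (ch_ed (mem_of_mem_erase hy)) fun hy' => (ne_of_mem_erase hy)
          (sd_unique hT (ch_adj (mem_of_mem_erase hy)) hzw hy' hs)], PP_step hT _ hzw hs]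
    have hpos := msg_pos hT h0 h1 h hp (Or.inl hzw : Ed G z' w)
    have hb1 : |b| < 1 := abs_mg_lt hpos
    have hθ : |θ| ≤ 1 := by rw [abs_of_nonneg h0]; exact h1.le
    have p1 := one_add_mul_pos hb1 hθ
    have p2 := one_add_mul_pos hb1 (b := -θ) (by rwa [abs_neg])
    have p3 : 1 - θ ^ 2 * b ^ 2 ≠ 0 := by nlinarith [mul_pos p1 p2]
    have key : Ch θ (msg G θ (mulAt ℓ u fun s => 1 + sg s * a) z' w) s =
        Ch θ (msg G θ ℓ z' w) s * (1 + a * (c + R * (b * (1 - θ ^ 2) / (1 - θ ^ 2 * b ^ 2)) +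
          rr θ b * R * sg s)) := by
      have e1 := eq_zz_mg hpos true
      have e2 := eq_zz_mg hpos false
      cases s <;> simp only [Ch, hc, Bool.not_true, Bool.not_false, rr] <;> rw [e1, e2] <;>
        simp only [sg_true, sg_false] <;> change _ = _ <;> rw [show mg (msg G θ ℓ z' w) = b from rfl] <;>
        field_simp <;> ring
    rw [key]
    ring

/-- covariance of the spins at `o` and `u` -/
def Cv (G : SimpleGraph V) [G.LocallyFinite] (θ : ℝ) (B : V → V → ℝ) (o u : V) : ℝ :=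
  (1 - B o o ^ 2) * PP G (fun a b => rr θ (B a b)) o u

lemma Bm_bump {ℓ : V → Bool → ℝ} (h : Fs ℓ) (hp : ∀ v s, 0 < ℓ v s) (o u : V) {a : ℝ}
    (ha : |a| ≤ 1) : Bm G θ (mulAt ℓ u fun s => 1 + sg s * a) o o =
      Bm G θ ℓ o o + Cv G θ (Bm G θ ℓ) o u * (a / (1 + a * Bm G θ ℓ u u)) := by
  obtain ⟨c, hc⟩ := msg_bump hT h0 h1 h hp u o o (ed_root o) (sd_root _ _)
  set R := PP G (fun a b => rr θ (Bm G θ ℓ a b)) o u with hR
  have hpos := msg_pos hT h0 h1 h hp (ed_root o)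
  have hz := zz_pos hpos
  have e1 := eq_zz_mg hpos true
  have e2 := eq_zz_mg hpos false
  have hmu : Bm G θ ℓ u u = c + R * Bm G θ ℓ o o := by
    have := Zr_bump hT h0 h1 h hp o u 1 1
    simp only [Zr] at this
    rw [zz, hc, hc, e1, e2] at this
    simp only [sg_true, sg_false] at this
    have e : zz (msg G θ ℓ o o) * Bm G θ ℓ u u =
        zz (msg G θ ℓ o o) * (c + R * Bm G θ ℓ o o) := by
      unfold Bm at this ⊢; linarith
    exact mul_left_cancel₀ hz.ne' e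
  have p := one_add_mul_pos (abs_Bm_lt hT h0 h1 h hp (ed_root u)) ha
  rw [mul_comm, hmu] at p
  rw [Cv, ← hR, hmu]
  conv_lhs => rw [Bm, mg, hc, hc, e1, e2]
  simp only [sg_true, sg_false]
  rw [show mg (msg G θ ℓ o o) = Bm G θ ℓ o o from rfl]
  set m := Bm G θ ℓ o o
  set z := zz (msg G θ ℓ o o)
  have : z * (1 + 1 * m) * (1 + a * (c + R * 1)) + z * (1 + -1 * m) * (1 + a * (c + R * -1)) =
      2 * z * (1 + a * (c + R * m)) := by ring
  rw [this]
  have p' := p.ne'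
  rw [div_eq_iff (by positivity), add_mul, mul_assoc _ (a / _), div_mul_eq_mul_div,
    show a * (2 * z * (1 + a * (c + R * m))) = a * (2 * z) * (1 + a * (c + R * m)) by ring,
    mul_div_cancel_right₀ _ p']
  ring

end

end

end Crest.Agent.H0241
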