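import Crest.Agent.H0241.Edge

set_option autoImplicit false
set_option linter.unusedSectionVars false
open Finset Filter MeasureTheory

namespace Crest.Agent.H0241

noncomputable section
open Classical

variable {ι : Type*}

lemma int_prod_indep {κ : Type*} (s : Finset κ) {f : κ → (ι → unitInterval) → ℝ} {A : κ → Set ι}
    (hf : ∀ i ∈ s, BM (f i)) (hA : ∀ i ∈ s, DependsOn (f i) (A i))
    (h : ∀ i ∈ s, ∀ j ∈ s, i ≠ j → Disjoint (A i) (A j)) :
    ∫ ω, ∏ i ∈ s, f i ω ∂PI ι = ∏ i ∈ s, ∫ ω, f i ω ∂PI ι := by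
  induction s using Finset.induction_on with
  | empty => simp
  | insert i s hi ih =>
    simp only [prod_insert hi]
    rw [int_indep (hf i (mem_insert_self _ _)) (BM.prod _ fun j hj => hf j (mem_insert_of_mem hj))
      (hA i (mem_insert_self _ _)) (B := ⋃ j ∈ s, A j)
      (fun x y e => prod_congr rfl fun j hj => hA j (mem_insert_of_mem hj) fun p hp =>
        e p (Set.mem_biUnion hj hp))
      (Set.disjoint_iUnion₂_right.2 fun j hj => h i (mem_insert_self _ _) j (mem_insert_of_mem hj)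
        (by rintro rfl; exact hi hj)),
      ih (fun j hj => hf j (mem_insert_of_mem hj)) (fun j hj => hA j (mem_insert_of_mem hj))
        fun j hj k hk => h j (mem_insert_of_mem hj) k (mem_insert_of_mem hk)]

/-- a pair of likelihood ratios carried by the labels in `A` -/
structure Part (U A : Set ι) (L : (ι → unitInterval) → Bool → ℝ) : Prop where
  bm : ∀ s, BM fun ω => L ω s
  lb : ∃ c, 0 < c ∧ ∀ ω s, c ≤ L ω s
  dep : DependsOn L A
  flip : ∀ ω s, L (fl U ω) s = L ω (!s)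
  one : ∀ s, ∫ ω, L ω s ∂PI ι = 1

def Ex (L : (ι → unitInterval) → Bool → ℝ) (X : (ι → unitInterval) → ℝ) : ℝ :=
  ∫ ω, X ω * zz (L ω) ∂PI ι

def ww (L : (ι → unitInterval) → Bool → ℝ) : ℝ := Ex L fun ω => mg (L ω) ^ 2

def TT (a b : ℝ) : ℝ := (a ^ 2 + b ^ 2 - 2 * a ^ 2 * b ^ 2) / (1 - a ^ 2 * b ^ 2)

lemma TT_bd {a b : ℝ} (ha : |a| < 1) (hb : |b| < 1) :
    a ^ 2 + b ^ 2 - 2 * (a ^ 2 * b ^ 2) ≤ TT a b ∧ TT a b ≤ a ^ 2 + b ^ 2 - a ^ 2 * b ^ 2 ∧
      a ^ 2 + (1 - a ^ 2) ^ 2 * b ^ 2 ≤ TT a b ∧ b ^ 2 ≤ TT a b := by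
  have h1 : a ^ 2 < 1 := by rw [← sq_abs]; nlinarith [abs_nonneg a]
  have h2 : b ^ 2 < 1 := by rw [← sq_abs]; nlinarith [abs_nonneg b]
  have h3 := sq_nonneg a
  have h4 := sq_nonneg b
  unfold TT
  generalize a ^ 2 = x at *
  generalize b ^ 2 = y at *
  have p : 0 < 1 - x * y := by nlinarith
  have q := mul_nonneg h3 h4
  rw [le_div_iff₀ p, div_le_iff₀ p, le_div_iff₀ p, le_div_iff₀ p]
  refine ⟨?_, ?_, ?_, ?_⟩
  · have : 0 ≤ x + y - 2 * (x * y) := by nlinarith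
    nlinarith [mul_nonneg this q]
  · nlinarith [mul_nonneg q (mul_nonneg (sub_nonneg.2 h1.le) (sub_nonneg.2 h2.le))]
  · nlinarith [mul_nonneg q (mul_nonneg (sq_nonneg (1 - x)) h4)]
  · nlinarith [mul_nonneg h3 (sq_nonneg (1 - y))]

namespace Part
variable {U A B : Set ι} {L M : (ι → unitInterval) → Bool → ℝ}

lemma pos (h : Part U A L) (ω : ι → unitInterval) (s : Bool) : 0 < L ω s := by
  obtain ⟨c, a, b⟩ := h.lb; exact a.trans_le (b ω s)

lemma bmg (h : Part U A L) : BM fun ω => mg (L ω) := bm_mg h.bm h.pos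

lemma bzz (h : Part U A L) : BM fun ω => zz (L ω) := ((h.bm true).add (h.bm false)).div_const 2

lemma zpos (h : Part U A L) (ω : ι → unitInterval) : 0 < zz (L ω) := zz_pos (h.pos ω)

lemma mlt (h : Part U A L) (ω : ι → unitInterval) : |mg (L ω)| < 1 := abs_mg_lt (h.pos ω)

lemma depf (h : Part U A L) {α : Type*} (φ : (Bool → ℝ) → α) : DependsOn (fun ω => φ (L ω)) A :=
  fun _ _ e => congrArg φ (h.dep e)

lemma mg_flip (h : Part U A L) (ω : ι → unitInterval) : mg (L (fl U ω)) = -mg (L ω) := by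
  simp only [mg, h.flip, Bool.not_true, Bool.not_false]
  rw [add_comm, ← neg_div, neg_sub]

lemma const (U A : Set ι) : Part U A fun _ _ => 1 :=
  ⟨fun _ => BM.const 1, ⟨1, one_pos, fun _ _ => le_rfl⟩, fun _ _ _ => rfl, fun _ _ => rfl, by simp⟩

lemma mono (h : Part U A L) (hA : A ⊆ B) : Part U B L :=
  ⟨h.bm, h.lb, h.dep.mono hA, h.flip, h.one⟩

lemma mul (h : Part U A L) (h' : Part U B M) (hd : Disjoint A B) :
    Part U (A ∪ B) fun ω s => L ω s * M ω s := by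
  obtain ⟨c, c0, c1⟩ := h.lb
  obtain ⟨c', c0', c1'⟩ := h'.lb
  refine ⟨fun s => (h.bm s).mul (h'.bm s), ⟨c * c', by positivity, fun ω s =>
    mul_le_mul (c1 _ _) (c1' _ _) c0'.le (h.pos _ _).le⟩, fun x y e => ?_,
    fun ω s => by rw [h.flip, h'.flip], fun s => ?_⟩
  · simp only [h.dep fun i hi => e i (Or.inl hi), h'.dep fun i hi => e i (Or.inr hi)]
  · rw [int_indep (h.bm s) (h'.bm s) (h.depf (· s)) (h'.depf (· s)) hd, h.one, h'.one, one_mul]

lemma ch (h : Part U A L) {θ : ℝ} (h0 : 0 ≤ θ) (h1 : θ < 1) : Part U A fun ω => Ch θ (L ω) := by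
  obtain ⟨c, c0, c1⟩ := h.lb
  refine ⟨fun s => ((h.bm s).cmul _).add ((h.bm _).cmul _), ⟨c, c0, fun ω s =>
    (Ch_const θ c s).ge.trans (Ch_mono h0 h1 (c1 ω) s)⟩, h.depf _,
    fun ω s => by simp only [Ch, h.flip], fun s => ?_⟩
  simp only [Ch]
  rw [((h.bm s).cmul _).int_add ((h.bm _).cmul _), integral_const_mul, integral_const_mul, h.one,
    h.one]
  ring

lemma prod {κ : Type*} (s : Finset κ) {L : κ → (ι → unitInterval) → Bool → ℝ} {A : κ → Set ι}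
    (h : ∀ i ∈ s, Part U (A i) (L i)) (hd : ∀ i ∈ s, ∀ j ∈ s, i ≠ j → Disjoint (A i) (A j)) :
    Part U (⋃ i ∈ s, A i) fun ω b => ∏ i ∈ s, L i ω b := by
  induction s using Finset.induction_on with
  | empty => simpa using const U ∅
  | insert i s hi ih =>
    simp only [prod_insert hi, set_biUnion_insert]
    exact (h i (mem_insert_self _ _)).mul (ih (fun j hj => h j (mem_insert_of_mem hj))
      fun j hj k hk => hd j (mem_insert_of_mem hj) k (mem_insert_of_mem hk))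
      (Set.disjoint_iUnion₂_right.2 fun j hj => hd i (mem_insert_self _ _) j (mem_insert_of_mem hj)
        (by rintro rfl; exact hi hj))

/-- induction over products of independent parts -/
lemma prod_ind {κ : Type*} {L : κ → (ι → unitInterval) → Bool → ℝ} {A : κ → Set ι}
    (P : Finset κ → ((ι → unitInterval) → Bool → ℝ) → Prop) (s : Finset κ)
    (h : ∀ i ∈ s, Part U (A i) (L i)) (hd : ∀ i ∈ s, ∀ j ∈ s, i ≠ j → Disjoint (A i) (A j))
    (h0 : P ∅ fun _ _ => 1)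
    (h1 : ∀ i ∈ s, ∀ t, i ∉ t → ∀ B M, Part U B M → Disjoint (A i) B → P t M →
      P (insert i t) fun ω b => L i ω b * M ω b) :
    P s fun ω b => ∏ i ∈ s, L i ω b := by
  induction s using Finset.induction_on with
  | empty => simpa using h0
  | insert i s hi ih =>
    simp only [prod_insert hi]
    have a := fun j hj => h j (mem_insert_of_mem hj)
    have b := fun j hj k hk => hd j (mem_insert_of_mem hj) k (mem_insert_of_mem hk)
    exact h1 i (mem_insert_self _ _) s hi _ _ (prod s a b)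
      (Set.disjoint_iUnion₂_right.2 fun j hj => hd i (mem_insert_self _ _) j (mem_insert_of_mem hj)
        (by rintro rfl; exact hi hj)) (ih a b fun j hj => h1 j (mem_insert_of_mem hj))

lemma Ex_eq (h : Part U A L) {X : (ι → unitInterval) → ℝ} (hX : BM X) :
    Ex L X = (∫ ω, X ω * L ω true ∂PI ι + ∫ ω, X ω * L ω false ∂PI ι) / 2 := by
  rw [← (hX.mul (h.bm _)).int_add (hX.mul (h.bm _)), ← integral_div, Ex]
  congr 1; funext ω; unfold zz; ring

lemma Ex_const (h : Part U A L) (c : ℝ) : Ex L (fun _ => c) = c := by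
  rw [h.Ex_eq (BM.const c), integral_const_mul, integral_const_mul, h.one, h.one]; ring

lemma Ex_mono (h : Part U A L) {X Y : (ι → unitInterval) → ℝ} (hX : BM X) (hY : BM Y)
    (e : ∀ ω, X ω ≤ Y ω) : Ex L X ≤ Ex L Y :=
  (hX.mul h.bzz).mono (hY.mul h.bzz) _ fun ω => mul_le_mul_of_nonneg_right (e ω) (h.zpos ω).le

lemma Ex_add (h : Part U A L) {X Y : (ι → unitInterval) → ℝ} (hX : BM X) (hY : BM Y) :
    Ex L (fun ω => X ω + Y ω) = Ex L X + Ex L Y := by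
  simp only [Ex, add_mul]; exact (hX.mul h.bzz).int_add (hY.mul h.bzz) _

lemma _root_.Crest.Agent.H0241.Ex_cmul (L : (ι → unitInterval) → Bool → ℝ) (c : ℝ)
    (X : (ι → unitInterval) → ℝ) : Ex L (fun ω => c * X ω) = c * Ex L X := by
  simp only [Ex, mul_assoc]; exact integral_const_mul _ _

lemma Ex_sum (h : Part U A L) {κ : Type*} (s : Finset κ) {X : κ → (ι → unitInterval) → ℝ}
    (hX : ∀ i ∈ s, BM (X i)) : Ex L (fun ω => ∑ i ∈ s, X i ω) = ∑ i ∈ s, Ex L (X i) := by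
  simp only [Ex, sum_mul]; exact BM.int_sum s (fun i hi => (hX i hi).mul h.bzz) _

lemma Ex_nonneg (h : Part U A L) {X : (ι → unitInterval) → ℝ} (e : ∀ ω, 0 ≤ X ω) : 0 ≤ Ex L X :=
  integral_nonneg fun ω => mul_nonneg (e ω) (h.zpos ω).le

lemma ww_bd (h : Part U A L) : 0 ≤ ww L ∧ ww L ≤ 1 :=
  ⟨h.Ex_nonneg fun _ => sq_nonneg _, (h.Ex_mono (h.bmg.pow 2) (BM.const 1)
    fun ω => sq_le_one_of (h.mlt ω).le).trans (h.Ex_const 1).le⟩

lemma Ex_mul (h : Part U A L) (h' : Part U B M) (hd : Disjoint A B) {X : (ι → unitInterval) → ℝ}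
    (hX : BM X) (dX : DependsOn X A) : Ex (fun ω s => L ω s * M ω s) X = Ex L X := by
  have : ∀ s, ∫ ω, X ω * (L ω s * M ω s) ∂PI ι = ∫ ω, X ω * L ω s ∂PI ι := fun s => by
    simp only [← mul_assoc]
    rw [int_indep (hX.mul (h.bm s)) (h'.bm s) (fun x y e => by simp only [dX e, h.dep e])
      (h'.depf (· s)) hd, h'.one, mul_one]
  rw [(h.mul h' hd).Ex_eq hX, h.Ex_eq hX, this, this]

lemma int_flip (h : Part U A L) {X : (ι → unitInterval) → ℝ} (hX : BM X)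
    (fX : ∀ ω, X (fl U ω) = X ω) (s : Bool) : ∫ ω, X ω * L ω s ∂PI ι = Ex L X := by
  have := (hX.mul (h.bm true)).int_comp (fl_mp U)
  simp only [fX, h.flip, Bool.not_true] at this
  rw [h.Ex_eq hX, this]
  cases s
  · rw [this]; ring
  · ring

lemma Ex_prod {κ : Type*} (s : Finset κ) {L : κ → (ι → unitInterval) → Bool → ℝ} {A : κ → Set ι}
    (h : ∀ i ∈ s, Part U (A i) (L i)) (hd : ∀ i ∈ s, ∀ j ∈ s, i ≠ j → Disjoint (A i) (A j))
    {X : κ → (ι → unitInterval) → ℝ} (hX : ∀ i ∈ s, BM (X i)) (dX : ∀ i ∈ s, DependsOn (X i) (A i))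
    (fX : ∀ i ∈ s, ∀ ω, X i (fl U ω) = X i ω) :
    Ex (fun ω b => ∏ i ∈ s, L i ω b) (fun ω => ∏ i ∈ s, X i ω) = ∏ i ∈ s, Ex (L i) (X i) := by
  have : ∀ b, ∫ ω, (∏ i ∈ s, X i ω) * ∏ i ∈ s, L i ω b ∂PI ι = ∏ i ∈ s, Ex (L i) (X i) := fun b => by
    simp only [← prod_mul_distrib]
    rw [int_prod_indep s (fun i hi => (hX i hi).mul ((h i hi).bm b))
      (fun i hi x y e => by simp only [dX i hi e, (h i hi).dep e]) hd]
    exact prod_congr rfl fun i hi => (h i hi).int_flip (hX i hi) (fX i hi) b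
  rw [(prod s h hd).Ex_eq (BM.prod s hX), this, this]
  ring

lemma _root_.Crest.Agent.H0241.Ex_Ch (θ : ℝ) (L : (ι → unitInterval) → Bool → ℝ)
    (X : (ι → unitInterval) → ℝ) : Ex (fun ω => Ch θ (L ω)) X = Ex L X := by
  simp only [Ex, zz_Ch]

lemma _root_.Crest.Agent.H0241.ww_Ch (θ : ℝ) (L : (ι → unitInterval) → Bool → ℝ) :
    ww (fun ω => Ch θ (L ω)) = θ ^ 2 * ww L := by
  simp only [ww, Ex_Ch, mg_Ch, mul_pow, Ex_cmul]

lemma _root_.Crest.Agent.H0241.ww_one : ww (fun (_ : ι → unitInterval) _ => 1) = 0 := by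
  simp [ww, Ex, mg]

section two
variable (h : Part U A L) (h' : Part U B M) (hd : Disjoint A B)
include h h' hd

lemma bTT : BM fun ω => TT (mg (L ω)) (mg (M ω)) := by
  refine ⟨?_, 2, fun ω => ?_⟩
  · have := h.bmg.1; have := h'.bmg.1
    unfold TT; fun_prop
  · have a := TT_bd (h.mlt ω) (h'.mlt ω)
    have := sq_le_one_of (h.mlt ω).le
    have := sq_le_one_of (h'.mlt ω).le
    rw [abs_of_nonneg ((sq_nonneg _).trans a.2.2.2)]
    nlinarith [a.2.1, mul_nonneg (sq_nonneg (mg (L ω))) (sq_nonneg (mg (M ω)))]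

lemma two_msg {X : (ι → unitInterval) → ℝ} (hX : BM X) (dX : DependsOn X A) :
    Ex (fun ω s => L ω s * M ω s) (fun ω => X ω * mg (fun s => L ω s * M ω s) ^ 2) =
      ∫ ω, X ω * zz (L ω) * zz (M ω) * TT (mg (L ω)) (mg (M ω)) ∂PI ι := by
  have p := h.mul h' hd
  have b := (hX.mul (p.bmg.pow 2)).mul p.bzz
  have e := b.int_comp (fl_mp (U ∩ B))
  have e1 : ∀ ω, ∀ i ∈ A, fl (U ∩ B) ω i = ω i := fun ω i hi => by
    simp [fl, Set.disjoint_left.1 hd hi]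
  have e2 : ∀ ω, M (fl (U ∩ B) ω) = M (fl U ω) := fun ω => h'.dep fun i hi => by simp [fl, hi]
  have e3 : Ex (fun ω s => L ω s * M ω s) (fun ω => X ω * mg (fun s => L ω s * M ω s) ^ 2) =
      ∫ ω, (X ω * mg (fun s => L ω s * M ω s) ^ 2 * zz (fun s => L ω s * M ω s) +
        X (fl (U ∩ B) ω) * mg (fun s => L (fl (U ∩ B) ω) s * M (fl (U ∩ B) ω) s) ^ 2 *
          zz (fun s => L (fl (U ∩ B) ω) s * M (fl (U ∩ B) ω) s)) / 2 ∂PI ι := by
    rw [integral_div, b.int_add (b.comp (fl_mp _).measurable), e, Ex]; ring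
  rw [e3]
  congr 1; funext ω
  rw [dX (e1 ω), h.dep (e1 ω), e2, mg_mul (h.pos ω) (h'.pos _), mg_mul (h.pos ω) (h'.pos _),
    zz_mul (h.pos ω) (h'.pos _), zz_mul (h.pos ω) (h'.pos _), h'.mg_flip,
    show zz (M (fl U ω)) = zz (M ω) by simp only [zz, h'.flip]; simp [add_comm]]
  have a1 := (one_add_mul_pos (h.mlt ω) (h'.mlt ω).le).ne'
  have a2 := (one_add_mul_pos (h.mlt ω) (b := -mg (M ω)) (by rw [abs_neg]; exact (h'.mlt ω).le)).ne'
  rw [TT, show 1 - mg (L ω) ^ 2 * mg (M ω) ^ 2 =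
    (1 + mg (L ω) * mg (M ω)) * (1 + mg (L ω) * -mg (M ω)) by ring]
  generalize h1 : 1 + mg (L ω) * mg (M ω) = D1 at *
  generalize h2 : 1 + mg (L ω) * -mg (M ω) = D2 at *
  field_simp
  subst h1 h2
  ring

lemma Ex_indep {X Y : (ι → unitInterval) → ℝ} (hX : BM X) (dX : DependsOn X A) (hY : BM Y)
    (dY : DependsOn Y B) :
    ∫ ω, X ω * zz (L ω) * zz (M ω) * Y ω ∂PI ι = Ex L X * Ex M Y := by
  rw [Ex, Ex, ← int_indep (hX.mul h.bzz) (hY.mul h'.bzz) (fun x y e => by simp only [dX e, h.dep e])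
    (fun x y e => by simp only [dY e, h'.dep e]) hd]
  congr 1; funext ω; ring

lemma comb (c₁ c₂ c₃ c₄ : ℝ) :
    ∫ ω, 1 * zz (L ω) * zz (M ω) * (c₁ + c₂ * mg (L ω) ^ 2 + c₃ * mg (M ω) ^ 2 +
      c₄ * (mg (L ω) ^ 2 * mg (M ω) ^ 2)) ∂PI ι = c₁ + c₂ * ww L + c₃ * ww M + c₄ * (ww L * ww M) := by
  have b1 := (BM.const c₁).add ((h.bmg.pow 2).cmul c₂)
  have b2 := (BM.const c₃).add ((h.bmg.pow 2).cmul c₄)
  have a1 := h.Ex_indep h' hd b1 (h.depf fun l => c₁ + c₂ * mg l ^ 2) (BM.const 1) fun _ _ _ => rfl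
  have a2 := h.Ex_indep h' hd b2 (h.depf fun l => c₃ + c₄ * mg l ^ 2) (h'.bmg.pow 2)
    (h'.depf fun l => mg l ^ 2)
  rw [h.Ex_add (BM.const _) ((h.bmg.pow 2).cmul _), Ex_cmul, h.Ex_const] at a1 a2
  rw [h'.Ex_const] at a1
  have := (((b1.mul h.bzz).mul h'.bzz).mul (BM.const 1)).int_add
    (((b2.mul h.bzz).mul h'.bzz).mul (h'.bmg.pow 2)) (PI ι)
  rw [a1, a2] at this
  unfold ww
  convert this using 1
  · congr 1; funext ω; ring
  · ring

lemma ww_mul : ww (fun ω s => L ω s * M ω s) =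
    ∫ ω, 1 * zz (L ω) * zz (M ω) * TT (mg (L ω)) (mg (M ω)) ∂PI ι := by
  rw [← h.two_msg h' hd (BM.const 1) fun _ _ _ => rfl]
  simp only [ww, one_mul]

lemma ww_cmp (c₁ c₂ c₃ c₄ : ℝ) :
    ((∀ a b : ℝ, |a| < 1 → |b| < 1 → TT a b ≤ c₁ + c₂ * a ^ 2 + c₃ * b ^ 2 + c₄ * (a ^ 2 * b ^ 2)) →
      ww (fun ω s => L ω s * M ω s) ≤ c₁ + c₂ * ww L + c₃ * ww M + c₄ * (ww L * ww M)) ∧
    ((∀ a b : ℝ, |a| < 1 → |b| < 1 → c₁ + c₂ * a ^ 2 + c₃ * b ^ 2 + c₄ * (a ^ 2 * b ^ 2) ≤ TT a b) →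
      c₁ + c₂ * ww L + c₃ * ww M + c₄ * (ww L * ww M) ≤ ww (fun ω s => L ω s * M ω s)) := by
  have b0 := ((BM.const 1).mul h.bzz).mul h'.bzz
  have b1 := b0.mul (h.bTT h' hd)
  have b2 := b0.mul ((((BM.const c₁).add ((h.bmg.pow 2).cmul c₂)).add ((h'.bmg.pow 2).cmul c₃)).add
    (((h.bmg.pow 2).mul (h'.bmg.pow 2)).cmul c₄))
  have p : ∀ ω, 0 ≤ 1 * zz (L ω) * zz (M ω) := fun ω => by
    have := h.zpos ω; have := h'.zpos ω; positivity
  rw [h.ww_mul h' hd, ← h.comb h' hd]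
  exact ⟨fun e => b1.mono b2 _ fun ω => mul_le_mul_of_nonneg_left (e _ _ (h.mlt ω) (h'.mlt ω)) (p ω),
    fun e => b2.mono b1 _ fun ω => mul_le_mul_of_nonneg_left (e _ _ (h.mlt ω) (h'.mlt ω)) (p ω)⟩

lemma ww_up : ww (fun ω s => L ω s * M ω s) ≤ ww L + ww M - ww L * ww M := by
  linarith [(h.ww_cmp h' hd 0 1 1 (-1)).1 fun a b ha hb => by linarith [(TT_bd ha hb).2.1]]

lemma ww_gain : ww L + (1 - ww L) ^ 2 * ww M ≤ ww (fun ω s => L ω s * M ω s) := by
  have := (h.ww_cmp h' hd 0 1 (2 * (1 - ww L) - (1 - ww L) ^ 2) (-2 * (1 - ww L))).2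
    fun a b ha hb => by
      nlinarith [(TT_bd ha hb).2.2.1, mul_nonneg (sq_nonneg (1 - a ^ 2 - (1 - ww L))) (sq_nonneg b)]
  linarith

lemma ww_low {x y : ℝ} (hx : x ≤ ww L) (hx' : x ≤ 1 / 2) (hy : y ≤ ww M) (hy' : y ≤ 1 / 2) :
    1 - 2 * ww (fun ω s => L ω s * M ω s) ≤ (1 - 2 * x) * (1 - 2 * y) := by
  have a := (h.ww_cmp h' hd 0 1 1 (-2)).2 fun a b ha hb => by linarith [(TT_bd ha hb).1]
  have b := (h.ww_cmp h' hd 0 0 1 0).2 fun a b ha hb => by linarith [(TT_bd ha hb).2.2.2]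
  have c := h.ww_gain h' hd
  have c' := mul_nonneg (sq_nonneg (1 - ww L)) h'.ww_bd.1
  have p := mul_nonneg (by linarith : 0 ≤ 1 - 2 * x) (by linarith : 0 ≤ 1 - 2 * y)
  by_cases h1 : 1 / 2 ≤ ww L
  · linarith
  by_cases h2 : 1 / 2 ≤ ww M
  · linarith
  have := mul_le_mul (by linarith : 1 - 2 * ww L ≤ 1 - 2 * x) (by linarith : 1 - 2 * ww M ≤ 1 - 2 * y)
    (by linarith) (by linarith)
  linarith

lemma X_low {X : (ι → unitInterval) → ℝ} (hX : BM X) (dX : DependsOn X A) (X0 : ∀ ω, 0 ≤ X ω) :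
    Ex L X * ww M ≤
      Ex (fun ω s => L ω s * M ω s) (fun ω => X ω * mg (fun s => L ω s * M ω s) ^ 2) := by
  rw [h.two_msg h' hd hX dX, ww, ← h.Ex_indep h' hd hX dX (h'.bmg.pow 2) (h'.depf fun l => mg l ^ 2)]
  have b0 := (hX.mul h.bzz).mul h'.bzz
  refine (b0.mul (h'.bmg.pow 2)).mono (b0.mul (h.bTT h' hd)) _ fun ω =>
    mul_le_mul_of_nonneg_left (TT_bd (h.mlt ω) (h'.mlt ω)).2.2.2 ?_
  have := h.zpos ω; have := h'.zpos ω; have := X0 ω; positivity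

end two

section prods
variable {κ : Type*} (s : Finset κ) {L : κ → (ι → unitInterval) → Bool → ℝ} {A : κ → Set ι}
  (h : ∀ i ∈ s, Part U (A i) (L i)) (hd : ∀ i ∈ s, ∀ j ∈ s, i ≠ j → Disjoint (A i) (A j))
include h hd

lemma prod_up {x : κ → ℝ} (hx : ∀ i ∈ s, ww (L i) ≤ x i ∧ x i ≤ 1) :
    ∏ i ∈ s, (1 - x i) ≤ 1 - ww (fun ω b => ∏ i ∈ s, L i ω b) :=
  prod_ind (fun t M => t ⊆ s → ∏ i ∈ t, (1 - x i) ≤ 1 - ww M) s h hd (by simp [ww_one])
    (fun i hi t ht B M hM hdis ih hs => by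
      have a := ih ((subset_insert _ _).trans hs)
      have b := (h i hi).ww_up hM hdis
      have := mul_le_mul (by linarith [(hx i hi).1] : 1 - x i ≤ 1 - ww (L i)) a
        (prod_nonneg fun j hj => by linarith [(hx j (hs (mem_insert_of_mem hj))).2])
        (by linarith [(h i hi).ww_bd.2])
      rw [prod_insert ht]
      linarith) Subset.rfl

lemma prod_low {x : ℝ} (hx : ∀ i ∈ s, x ≤ ww (L i)) (x1 : x ≤ 1 / 2) :
    1 - 2 * ww (fun ω b => ∏ i ∈ s, L i ω b) ≤ (1 - 2 * x) ^ s.card :=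
  prod_ind (fun t M => 1 - 2 * ww M ≤ (1 - 2 * x) ^ t.card) s h hd (by simp [ww_one])
    fun i hi t ht B M hM hdis ih => by
      have p := pow_nonneg (by linarith : 0 ≤ 1 - 2 * x) t.card
      have := (h i hi).ww_low hM hdis (hx i hi) x1 (y := (1 - (1 - 2 * x) ^ t.card) / 2)
        (by linarith) (by linarith)
      rw [card_insert_of_notMem ht, pow_succ]
      linarith

lemma prod_gain {x : ℝ} (hx : ∀ i ∈ s, x ≤ ww (L i)) (x0 : 0 ≤ x) :
    (1 - ww (fun ω b => ∏ i ∈ s, L i ω b)) * (1 + x * s.card) ≤ 1 :=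
  prod_ind (fun t M => (1 - ww M) * (1 + x * t.card) ≤ 1) s h hd (by simp [ww_one])
    fun i hi t ht B M hM hdis ih => by
      have a := hM.ww_gain (h i hi) hdis.symm
      simp only [mul_comm (M _ _)] at a
      rw [card_insert_of_notMem ht]
      push_cast
      rw [mul_add x, mul_one, ← add_assoc]
      have b := mul_le_mul_of_nonneg_left (hx i hi) (sq_nonneg (1 - ww M))
      have u0 : 0 ≤ 1 - ww M := by linarith [hM.ww_bd.2]
      have u1 : 1 - ww M ≤ 1 := by linarith [hM.ww_bd.1]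
      have c0 : 0 ≤ x * t.card := by positivity
      have x1 : x ≤ 1 := (hx i hi).trans (h i hi).ww_bd.2
      generalize ww M = m at *
      generalize x * (t.card : ℝ) = c at *
      have d : (1 - m) * (1 - x * (1 - m)) * (1 + c + x) ≤ 1 := by
        have e1 : 0 ≤ 1 - x * (1 - m) := by nlinarith
        have := mul_le_mul_of_nonneg_right ih e1
        nlinarith [sq_nonneg (x * (1 - m))]
      have := mul_le_mul_of_nonneg_right
        (show 1 - ww (fun ω b => L i ω b * M ω b) ≤ (1 - m) * (1 - x * (1 - m)) by linarith)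
        (by linarith : 0 ≤ 1 + c + x)
      linarith

lemma le_prod {i : κ} (hi : i ∈ s) : ww (L i) ≤ ww (fun ω b => ∏ i ∈ s, L i ω b) := by
  simp only [← mul_prod_erase s _ hi]
  have p := prod (s.erase i) (fun j hj => h j (mem_of_mem_erase hj))
    fun j hj k hk => hd j (mem_of_mem_erase hj) k (mem_of_mem_erase hk)
  have := (h i hi).ww_gain p (Set.disjoint_iUnion₂_right.2 fun j hj =>
    hd i hi j (mem_of_mem_erase hj) (ne_of_mem_erase hj).symm)
  linarith [mul_nonneg (sq_nonneg (1 - ww (L i))) p.ww_bd.1]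

end prods

end Part

end

end Crest.Agent.H0241
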