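import Crest.Agent.H0241.Msg

set_option autoImplicit false
set_option linter.unusedSectionVars false
open Finset Filter

namespace Crest.Agent.H0241

noncomputable section
open Classical

variable {V : Type*} {G : SimpleGraph V} [G.LocallyFinite]

/-- indicator weights of a spin pattern -/
def pat (A : Finset V) (η : V → Bool) : V → Bool → ℝ :=
  fun v s => if v ∈ A ∧ s ≠ η v then 0 else 1

lemma pat_fs (A : Finset V) (η : V → Bool) : Fs (pat A η) :=
  ⟨A, fun v hv s => by simp [pat, hv]⟩

lemma pat_bd (A : Finset V) (η : V → Bool) (v : V) (s : Bool) : 0 ≤ pat A η v s ∧ pat A η v s ≤ 1 := by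
  unfold pat; split_ifs <;> norm_num

variable (hT : G.IsTree) {θ : ℝ}
include hT

lemma prod_bl (F : V → ℝ) (n : ℕ) (w v : V) :
    ∏ u ∈ bl G (n + 1) w v, F u = F w * ∏ z ∈ ch G w v, ∏ u ∈ bl G n z w, F u := by
  rw [bl, prod_insert, prod_biUnion]
  · intro z hz z' hz' hne
    refine disjoint_left.2 fun u h h' => hne ?_
    exact sd_unique hT (ch_adj hz) (ch_adj hz') ((mem_bl hT (ch_ed hz)).1 h).1
      ((mem_bl hT (ch_ed hz')).1 h').1
  · intro h
    obtain ⟨z, hz, h⟩ := mem_biUnion.1 h
    exact not_sd hT (ch_adj hz) ((mem_bl hT (ch_ed hz)).1 h).1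

lemma stp_eq {z w u : V} (h : G.Adj z w) (a : Sd G z w u) : stp G w u = z := by
  have hex : ∃ z, G.Adj z w ∧ Sd G z w u := ⟨z, h, a⟩
  unfold stp
  rw [dif_pos hex]
  exact sd_unique hT hex.choose_spec.1 h hex.choose_spec.2 a

lemma cross {z w x y : V} (h : G.Adj z w) (hxy : G.Adj x y) (hx : Sd G w z x) (hy : Sd G z w y) :
    y = z := by
  by_contra hne
  rw [sd_adj hT h.symm] at hx
  rw [sd_adj hT h] at hy
  have a := hT.dist_eq_dist_add_one_of_adj w hxy
  have b := hT.dist_eq_dist_add_one_of_adj z hxy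
  obtain ⟨y1, c1, c2⟩ := exists_step hT (Ne.symm hne)
  rw [sd_adj hT c1] at c2
  have c3 : G.dist w y1 ≤ G.dist w z + G.dist z y1 := hT.connected.dist_triangle
  rw [SimpleGraph.dist_eq_one_iff_adj.2 h.symm] at c3
  rw [G.dist_comm (u := x), G.dist_comm (u := x)] at hx
  rw [G.dist_comm (u := y), G.dist_comm (u := y)] at hy
  have : y1 = x := sd_unique hT c1 hxy (u := w) (by unfold Sd; omega) (by unfold Sd; omega)
  subst this
  omega

lemma closed_of_conn {A : Finset V} (hA : (G.induce (A : Set V)).Connected) {a : V} (ha : a ∈ A)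
    {w z : V} (hw : w ∈ A) (h : G.Adj z w) (hs : Sd G z w a) : z ∈ A := by
  obtain ⟨p⟩ := hA.preconnected ⟨w, hw⟩ ⟨a, ha⟩
  have : ∀ (x y : (A : Set V)) (_ : (G.induce (A : Set V)).Walk x y),
      Sd G w z x → Sd G z w y → z ∈ A := by
    intro x y p
    induction p with
    | nil => exact fun a b => absurd a ((sd_total hT h _).1 b)
    | @cons x x' y hx p ih =>
      intro a b
      by_cases c : Sd G z w x'
      · exact cross hT h hx a c ▸ x'.2
      · exact ih ((sd_total hT h.symm _).2 c) b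
  exact this _ _ p (sd_self _ _) hs

lemma Zr_pat {A : Finset V} (hA : (G.induce (A : Set V)).Connected) (η : V → Bool) (o : V) :
    Zr G θ (pat A η) o = Crest.ProbabilityR.TreeIsing.isingWeight G θ A η := by
  obtain ⟨⟨a, ha⟩⟩ := hA.nonempty
  have ha : a ∈ A := ha
  set W : V → ℝ := fun u => if u ∈ A then
    (if η u = η (stp G u a) then (1 + θ) / 2 else (1 - θ) / 2) else 1 with hW
  have key : ∀ n z w, G.Adj z w → Sd G w z a → ∀ s, (w ∈ A → s = η w) →
      Ch θ (msgF G θ (pat A η) n z w) s = ∏ u ∈ bl G n z w, W u := by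
    intro n
    induction n with
    | zero => intro z w _ _ s _; exact Ch_const θ 1 s
    | succ n ih =>
      intro z w h hs s hsw
      have hch : ∀ y ∈ ch G z w, Sd G z y a := fun y hy => (sd_total hT (ch_adj hy).symm a).2
        fun h' => (sd_total hT h a).1 (sd_ch hT (Or.inl h) hy h') hs
      have e : ∀ s', (z ∈ A → s' = η z) → msgF G θ (pat A η) (n + 1) z w s' =
          ∏ y ∈ ch G z w, ∏ u ∈ bl G n y z, W u := by
        intro s' hs'
        rw [msgF, pat, if_neg (fun h => h.2 (hs' h.1)), one_mul]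
        exact prod_congr rfl fun y hy => ih y z (ch_adj hy) (hch y hy) s' hs'
      rw [prod_bl hT]
      by_cases hz : z ∈ A
      · have e0 : msgF G θ (pat A η) (n + 1) z w (!η z) = 0 := by
          rw [msgF, pat, if_pos ⟨hz, by simp⟩, zero_mul]
        have e1 := e (η z) fun _ => rfl
        obtain rfl := hsw (closed_of_conn hT hA ha hz h.symm hs)
        simp only [hW, hz, if_true, stp_eq hT h.symm hs, Ch]
        split_ifs with c
        · rw [← c, e0, e1]; ring
        · have c' : η w = !η z := by cases h1 : η z <;> cases h2 : η w <;> simp_all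
          rw [c', Bool.not_not, e0, e1]; ring
      · simp only [Ch, e _ fun h => absurd h hz, hW, hz, if_false]
        ring
  obtain ⟨n, hn⟩ := exists_rad (G := G) A a
  have e : msg G θ (pat A η) a a = msgF G θ (pat A η) (n + 1) a a :=
    msg_eq hT (ed_root a) fun u hu s => by simp [pat, hn u (by omega)]
  have e0 : msgF G θ (pat A η) (n + 1) a a (!η a) = 0 := by
    rw [msgF, pat, if_pos ⟨ha, by simp⟩, zero_mul]
  have e1 : msgF G θ (pat A η) (n + 1) a a (η a) = ∏ u ∈ A.erase a, W u := by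
    rw [msgF, pat, if_neg (by simp), one_mul,
      prod_congr rfl fun z hz => key n z a (ch_adj hz) (sd_self _ _) _ fun _ => rfl]
    have h1 := prod_bl hT (fun u => if u = a then 1 else W u) n a a
    rw [if_pos rfl, one_mul, prod_congr rfl (s₂ := ch G a a) fun z hz => prod_congr rfl fun u hu =>
      if_neg (by rintro rfl; exact not_sd hT (ch_adj hz) ((mem_bl hT (ch_ed hz)).1 hu).1)] at h1
    rw [← h1]
    symm
    refine prod_subset_one_on_sdiff (fun u hu => (mem_ball hT).2 ?_) (fun u hu => ?_) fun u hu => ?_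
    · by_contra h
      exact hn u (by omega) (mem_of_mem_erase hu)
    · have := (mem_sdiff.1 hu).2
      by_cases h : u = a
      · simp [h]
      · simp only [mem_erase, ne_eq, h, not_false_eq_true, true_and] at this
        simp [hW, this]
    · rw [if_neg (ne_of_mem_erase hu)]
  have e2 : Zr G θ (pat A η) a = 1 / 2 * ∏ u ∈ A.erase a, W u := by
    rw [Zr, e, zz]
    cases h : η a <;> simp only [h, Bool.not_true, Bool.not_false] at e0 e1 <;> rw [e0, e1] <;> ring
  rw [Zr_eq hT (pat_fs A η) o a, e2, Crest.ProbabilityR.TreeIsing.isingWeight]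
  congr 1
  have hst : ∀ u ∈ A.erase a, G.Adj (stp G u a) u ∧ Sd G (stp G u a) u a := by
    intro u hu
    obtain ⟨z, h1, h2⟩ := exists_step hT (ne_of_mem_erase hu).symm
    rw [stp_eq hT h1 h2]; exact ⟨h1, h2⟩
  refine prod_bij (fun u _ => s(u, stp G u a)) (fun u hu => ?_) (fun u hu u' hu' h => ?_)
    (fun e he => ?_) fun u hu => ?_
  · simp only [mem_filter, mk_mem_sym2_iff, SimpleGraph.mem_edgeSet]
    exact ⟨⟨mem_of_mem_erase hu, closed_of_conn hT hA ha (mem_of_mem_erase hu) (hst u hu).1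
      (hst u hu).2⟩, (hst u hu).1.symm⟩
  · rcases Sym2.eq_iff.1 h with h | ⟨h1, h2⟩
    · exact h.1
    · have a1 := hst u hu
      have a2 := hst u' hu'
      rw [h2] at a1
      rw [← h1] at a2
      exact absurd a2.2 ((sd_total hT a1.1 a).1 a1.2)
  · induction e using Sym2.ind with
    | h x y =>
      simp only [mem_filter, mk_mem_sym2_iff, SimpleGraph.mem_edgeSet] at he
      obtain ⟨⟨hx, hy⟩, hxy⟩ := he
      by_cases c : Sd G x y a
      · refine ⟨y, mem_erase.2 ⟨?_, hy⟩, by rw [stp_eq hT hxy c, Sym2.eq_swap]⟩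
        rintro rfl
        exact not_sd hT hxy c
      · have c' := (sd_total hT hxy.symm a).2 c
        refine ⟨x, mem_erase.2 ⟨?_, hx⟩, by rw [stp_eq hT hxy.symm c']⟩
        rintro rfl
        exact c (sd_self _ _)
  · simp [hW, mem_of_mem_erase hu]

variable (h0 : 0 ≤ θ) (h1 : θ < 1)
include h0 h1

/-- the posterior probability of a pattern is close to the product of the marginals when the
spins are almost determined -/
lemma pat_close {ℓ : V → Bool → ℝ} (h : Fs ℓ) (hp : ∀ v s, 0 < ℓ v s) (A : Finset V)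
    (η : V → Bool) (o : V) :
    |Zr G θ (fun v s => ℓ v s * pat A η v s) o / Zr G θ ℓ o -
      ∏ v ∈ A, (1 + sg (η v) * Bm G θ ℓ v v) / 2| ≤ ∑ v ∈ A, (1 - Bm G θ ℓ v v ^ 2) := by
  have hz : 0 < Zr G θ ℓ o := zz_pos (msg_pos hT h0 h1 h hp (ed_root o))
  set p : V → ℝ := fun v => (1 + sg (η v) * Bm G θ ℓ v v) / 2 with hpdef
  have hm := fun v => abs_lt.1 (abs_Bm_lt hT h0 h1 h hp (ed_root v))
  have p0 : ∀ v, 0 ≤ p v ∧ p v ≤ 1 := fun v => by
    have := hm v
    simp only [hpdef]; cases η v <;> simp only [sg_true, sg_false] <;> constructor <;> linarith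
  have pe : ∀ v, 1 - Bm G θ ℓ v v ^ 2 = 4 * p v * (1 - p v) := fun v => by
    simp only [hpdef]; cases η v <;> simp only [sg_true, sg_false] <;> ring
  have one : ∀ v (c : ℝ), Zr G θ (mulAt ℓ v fun s => 1 / 2 + sg s * c) o =
      Zr G θ ℓ o * (1 / 2 + c * Bm G θ ℓ v v) := fun v c => Zr_bump hT h0 h1 h hp o v _ _
  have up : ∀ v ∈ A, Zr G θ (fun v s => ℓ v s * pat A η v s) o ≤ Zr G θ ℓ o * p v := by
    intro v hv
    refine le_trans (Zr_mono hT h0 h1 (h.mul (pat_fs A η)) (h.mulAt v fun s =>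
      1 / 2 + sg s * (sg (η v) / 2)) (fun x s => ⟨mul_nonneg (hp _ _).le (pat_bd _ _ _ _).1, ?_⟩) o).2
      (by rw [one]; apply le_of_eq; simp only [hpdef]; ring)
    unfold mulAt
    split_ifs with hx
    · subst hx
      refine mul_le_mul_of_nonneg_left ?_ (hp _ _).le
      cases s <;> cases h : η x <;> simp [pat, hv, h] <;> norm_num
    · exact mul_le_of_le_one_right (hp _ _).le (pat_bd _ _ _ _).2
  have low : ∀ B : Finset V, Zr G θ ℓ o * (1 - ∑ v ∈ B, (1 - p v)) ≤
      Zr G θ (fun v s => ℓ v s * pat B η v s) o := by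
    intro B
    induction B using Finset.induction_on with
    | empty => simp [pat]
    | insert v B hv ih =>
      have hB := h.mul (pat_fs B η)
      have e1 : (fun x s => ℓ x s * pat (insert v B) η x s) =
          mulAt (fun x s => ℓ x s * pat B η x s) v fun s => 1 / 2 + sg s * (sg (η v) / 2) := by
        funext x s
        unfold mulAt
        split_ifs with hx
        · subst hx
          cases s <;> cases h : η x <;> simp [pat, hv, h] <;> norm_num
        · simp [pat, hx]
      have e2 := (Zr_mono hT h0 h1 (hB.mulAt v fun s => 1 / 2 + sg s * (-sg (η v) / 2))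
        (h.mulAt v fun s => 1 / 2 + sg s * (-sg (η v) / 2)) (fun x s => by
          have k : 0 ≤ 1 / 2 + sg s * (-sg (η v) / 2) := by
            cases s <;> cases η v <;> norm_num
          have k1 := mul_nonneg (hp x s).le (pat_bd B η x s).1
          have k2 := mul_le_of_le_one_right (hp x s).le (pat_bd B η x s).2
          unfold mulAt
          split_ifs
          · exact ⟨mul_nonneg k1 k, mul_le_mul_of_nonneg_right k2 k⟩
          · exact ⟨k1, k2⟩) o).2
      rw [one, Zr_mulAt hT hB] at e2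
      rw [e1, Zr_mulAt hT hB, sum_insert hv]
      rw [Zr_eq hT hB o v] at ih
      conv_rhs at ih => rw [Zr, zz]
      simp only [hpdef, sg_true, sg_false] at ih e2 ⊢
      linarith
  have hsum : ∀ v ∈ A, 1 - Bm G θ ℓ v v ^ 2 ≤ ∑ v ∈ A, (1 - Bm G θ ℓ v v ^ 2) := fun v hv =>
    single_le_sum (f := fun v => 1 - Bm G θ ℓ v v ^ 2)
      (fun v _ => by rw [pe]; nlinarith [p0 v]) hv
  have z0 := (Zr_mono hT h0 h1 (h.mul (pat_fs A η)) h (fun x s =>
    ⟨mul_nonneg (hp _ _).le (pat_bd A η _ _).1,
      mul_le_of_le_one_right (hp _ _).le (pat_bd _ _ _ _).2⟩) o)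
  have q0 : 0 ≤ ∏ v ∈ A, p v := prod_nonneg fun v _ => (p0 v).1
  have q1 : ∏ v ∈ A, p v ≤ 1 := prod_le_one (fun v _ => (p0 v).1) fun v _ => (p0 v).2
  have r0 := div_nonneg z0.1 hz.le
  have r1 := (div_le_one hz).2 z0.2
  by_cases c : ∃ v ∈ A, p v ≤ 1 / 2
  · obtain ⟨v, hv, c⟩ := c
    have a1 := (div_le_iff₀' hz).2 (up v hv)
    have a2 : ∏ v ∈ A, p v ≤ p v := by
      rw [← mul_prod_erase _ _ hv]
      exact mul_le_of_le_one_right (p0 v).1
        (prod_le_one (fun v _ => (p0 v).1) fun v _ => (p0 v).2)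
    have a3 := hsum v hv
    rw [pe] at a3
    rw [abs_le]
    constructor <;> nlinarith [p0 v]
  · push Not at c
    have a1 := (le_div_iff₀' hz).2 (low A)
    have a2 : 1 - ∑ v ∈ A, (1 - p v) ≤ ∏ v ∈ A, p v := by
      have : ∀ B : Finset V, 1 - ∑ v ∈ B, (1 - p v) ≤ ∏ v ∈ B, p v := by
        intro B
        induction B using Finset.induction_on with
        | empty => simp
        | insert v B hv ih =>
          rw [sum_insert hv, prod_insert hv]
          have := prod_le_one (s := B) (fun v _ => (p0 v).1) fun v _ => (p0 v).2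
          nlinarith [p0 v]
      exact this A
    have a3 : ∑ v ∈ A, (1 - p v) ≤ ∑ v ∈ A, (1 - Bm G θ ℓ v v ^ 2) :=
      sum_le_sum fun v hv => by rw [pe]; nlinarith [p0 v, c v hv]
    rw [abs_le]
    constructor <;> linarith

end

end Crest.Agent.H0241
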