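import Crest.Agent.H0241.Inf

set_option autoImplicit false
set_option linter.unusedSectionVars false
open Finset Filter MeasureTheory

namespace Crest.Agent.H0241

noncomputable section
open Classical

variable {V : Type*} {G : SimpleGraph V} [G.LocallyFinite]

def xi (G : SimpleGraph V) [G.LocallyFinite] (θ : ℝ) (N : ℕ) (w o : V) (τ : ℝ) : ℝ :=
  ∫ ω, chiI G θ (Bl G θ N τ ω) w o ∂PO V

lemma en_pred (n : ℤ) : en n ≤ 16 * en (n - 1) := by
  unfold en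
  have := pow_le_pow_of_le_one (by norm_num : (0 : ℝ) ≤ 1 / 16) (by norm_num)
    (show (-(n - 1)).toNat ≤ (-n).toNat + 1 by omega)
  rw [pow_succ] at this
  linarith

lemma en_mono {m n : ℤ} (h : m ≤ n) : en m ≤ en n :=
  div_le_div_of_nonneg_right (pow_le_pow_of_le_one (by norm_num) (by norm_num) (by omega)) zero_le_two

lemma en_le_half (n : ℤ) : en n ≤ (1 / 2) ^ (-n).toNat := by
  have : (1 / 16 : ℝ) ^ (-n).toNat ≤ (1 / 2) ^ (-n).toNat := by gcongr; norm_num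
  unfold en
  linarith [pow_nonneg (by norm_num : (0 : ℝ) ≤ 1 / 16) (-n).toNat]

lemma rate_arith {W Q P A D E e M t u J T K c : ℝ} (hW : W ≤ 4 * (M ^ 2 * P + t))
    (hQ : Q ≤ A + 2 * (M * A + 4 * t))
    (hP : P ≤ 32 * (K * u * (294 * A + 37632 * D) + 10 * E) + 72 * D) (A0 : 0 ≤ A) (D0 : 0 ≤ D)
    (E0 : 0 ≤ E) (e0 : 0 ≤ e) (e1 : e ≤ 1) (eu : e ≤ u) (uT : u ≤ T) (T1 : 1 ≤ T) (J1 : 1 ≤ J)
    (K1 : 1 ≤ K) (c1 : 1 ≤ c) (M0 : 0 ≤ M) (hM : e * M ≤ c * J) (ht : e ^ 2 * t ≤ 2 * c ^ 2 * E) :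
    e ^ 2 * (W + Q) ≤ c ^ 2 * (5000000 * K) * (J ^ 2 * (u * A + E + T * D)) := by
  have u0 := e0.trans eu
  have p1 := mul_nonneg u0 A0
  have p2 : 0 ≤ T * D := by positivity
  obtain ⟨Y, hY⟩ : ∃ Y, Y = u * A + E + T * D := ⟨_, rfl⟩
  have Y0 : 0 ≤ Y := by linarith
  have a1 : P ≤ 1205000 * K * Y := by
    have b1 := mul_le_mul_of_nonneg_left (mul_le_mul_of_nonneg_right uT D0) (by linarith : 0 ≤ K)
    have b2 := mul_le_mul_of_nonneg_right (one_le_mul_of_one_le_of_one_le K1 T1) D0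
    have b3 := mul_le_mul_of_nonneg_right K1 E0
    have b4 : 0 ≤ K * (u * A) := by positivity
    have b5 : 0 ≤ K * (T * D) := by positivity
    rw [hY]
    linarith
  have J2 : 1 ≤ J ^ 2 := one_le_pow₀ J1
  have c2 : 1 ≤ c ^ 2 := one_le_pow₀ c1
  have a2 : (e * M) ^ 2 * P ≤ (c * J) ^ 2 * (1205000 * K * Y) :=
    (mul_le_mul_of_nonneg_left a1 (sq_nonneg _)).trans (mul_le_mul_of_nonneg_right
      (pow_le_pow_left₀ (by positivity) hM 2) (by positivity))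
  obtain ⟨Z, hZ⟩ : ∃ Z, Z = c ^ 2 * K * (J ^ 2 * Y) := ⟨_, rfl⟩
  have z1 : c ^ 2 * Y ≤ Z := by
    rw [hZ, mul_assoc]
    exact mul_le_mul_of_nonneg_left ((le_mul_of_one_le_left Y0 J2).trans
      (le_mul_of_one_le_left (by positivity) K1)) (by positivity)
  have z2 : c * J * Y ≤ Z := by
    have : c * J ≤ c ^ 2 * K * J ^ 2 := by
      rw [show c ^ 2 * K * J ^ 2 = c * J * (c * K * J) by ring]
      exact le_mul_of_one_le_right (by positivity)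
        (one_le_mul_of_one_le_of_one_le (one_le_mul_of_one_le_of_one_le c1 K1) J1)
    rw [hZ, ← mul_assoc]
    exact mul_le_mul_of_nonneg_right this Y0
  have a3 : e ^ 2 * t ≤ 2 * Z := by
    have := mul_le_mul_of_nonneg_left (show E ≤ Y by linarith) (by positivity : 0 ≤ c ^ 2)
    linarith
  have a4 : e ^ 2 * A ≤ Z := by
    have : e ^ 2 ≤ u := by nlinarith
    have := mul_le_mul_of_nonneg_right this A0
    have := le_mul_of_one_le_left Y0 c2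
    linarith
  have a5 : e ^ 2 * (M * A) ≤ Z := by
    have := mul_le_mul hM (show e * A ≤ Y by linarith [mul_le_mul_of_nonneg_right eu A0])
      (by positivity) (by positivity)
    linarith
  have Z0 : 0 ≤ Z := by rw [hZ]; positivity
  rw [← hY]
  linear_combination e ^ 2 * hW + e ^ 2 * hQ + 4 * a2 + 12 * a3 + a4 + 2 * a5 + 179973 * Z0 +
    180000 * hZ

variable {d : ℕ} (H : TR G d)
include H

lemma int_db {θ θ' : ℝ} {B B' : Om V → V → V → ℝ} (F : Fld G d θ B) (F' : Fld G d θ' B') {w o : V}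
    (e : G.Adj w o) : ∫ ω, (B ω w o - B' ω w o) ^ 2 ∂PO V ≤
      294 * ∫ ω, (B ω o o - B' ω o o) ^ 2 ∂PO V + 37632 * (θ - θ') ^ 2 := by
  have a := int_tr H (F := fun ω a _ => (B ω a a - B' ω a a) ^ 2)
    (fun g ω a b => by simp only [F.eqv g, F'.eqv g]) e.symm e (F.bmM H F' o)
  have b := ((F.bmM H F' w).add (F.bmM H F' o)).cmul 147
  refine (integral_mono_ae ((((F.bm (Or.inl e)).sub (F'.bm (Or.inl e))).pow 2).integrable _)
    ((b.add (BM.const (37632 * (θ - θ') ^ 2))).integrable _) ?_).trans_eq ?_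
  · filter_upwards [F.ok, F'.ok] with ω h h' using h.diff h' F.h0 (F.hh H) F'.h0 (F'.hh H) e
  · rw [b.int_add (BM.const _), integral_const_mul, (F.bmM H F' w).int_add (F.bmM H F' o), a]
    simp; ring

variable {θ : ℝ} (h0 : 0 ≤ θ) (h : ((d : ℝ) - 1) * θ ^ 2 < 1) (N : ℕ) (τ : ℝ)
include h0 h

lemma b_trunc {n : ℤ} (hτ : τ ≤ n + 1) (j : ℕ) {w o : V} (e : G.Adj w o) {Z : Om V → ℝ} (hZ : BM Z)
    (Z0 : ∀ x, 0 ≤ Z x ∧ Z x ≤ 4) : ∫ ω, Bl G θ N τ ω w o ^ 2 * Z ω ∂PO V ≤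
      10 * (43 * d) ^ 2 * (2 ^ j * (1 / 2) ^ (-n).toNat) * ∫ ω, Z ω ∂PO V +
        10 * Real.exp (-4 ^ j) := by
  have hd : (3 : ℝ) ≤ d := by exact_mod_cast H.hd
  have b := bm_Bl H h0 h N τ (Or.inl e)
  have I0 : 0 ≤ ∫ ω, Z ω ∂PO V := integral_nonneg fun ω => (Z0 ω).1
  obtain ⟨y, hy⟩ : ∃ y : ℝ, y = 2 ^ (-n).toNat := ⟨_, rfl⟩
  obtain ⟨c, hc⟩ : ∃ c : ℝ, c = 43 * d := ⟨_, rfl⟩
  have y0 : 0 < y := by rw [hy]; positivity
  have c1 : 1 ≤ c := by linarith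
  have t1 : (1 : ℝ) ≤ 2 ^ j := one_le_pow₀ one_le_two
  rw [one_div_pow, ← hy, ← hc]
  by_cases c0 : 1 ≤ 10 * c ^ 2 * (2 ^ j * (1 / y))
  · refine (((b.pow 2).mul hZ).mono hZ _ fun ω => mul_le_of_le_one_left (Z0 ω).1
      (sq_le_one_of (abs_Bl H h0 h N τ ω (Or.inl e)))).trans ?_
    linarith [le_mul_of_one_le_left I0 c0, Real.exp_pos (-4 ^ j)]
  rw [not_le, ← mul_assoc, mul_one_div, div_lt_one y0] at c0
  have y1 : 10 * c ≤ y := by nlinarith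
  have n0 : n ≤ 0 := by
    by_contra a
    rw [show (-n).toNat = 0 by omega] at hy
    norm_num at hy
    linarith
  have m1 : 10 ≤ y ^ 2 / c := by rw [le_div_iff₀ (by linarith)]; nlinarith
  have := trunc_b (PO V) b hZ (fun ω => abs_Bl H h0 h N τ ω (Or.inl e)) Z0 (m := y ^ 2 / c)
    (M := c * (2 ^ j * (1 / y)) ^ 2) (by positivity) (mom_cosh H h0 h N τ hτ n0 m1 (by
      have e1 : en n = 1 / (2 * y ^ 4) := by
        rw [en, hy, ← pow_mul, mul_comm _ 4, pow_mul, one_div_pow]; norm_num; ring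
      have e2 : (y ^ 2 / c + 1) ^ 2 ≤ (2 * (y ^ 2 / c)) ^ 2 :=
        pow_le_pow_left₀ (by positivity) (by linarith) 2
      refine (mul_le_mul_of_nonneg_left e2 (by have := en_pos n; positivity)).trans ?_
      rw [e1, show 900 * d * (1 / (2 * y ^ 4)) * (2 * (y ^ 2 / c)) ^ 2 = 1800 * d / c ^ 2 by
        field_simp; ring, div_le_one (by positivity), hc]
      nlinarith) e)
  rw [show y ^ 2 / c * (c * (2 ^ j * (1 / y)) ^ 2) = 4 ^ j by
    rw [show (4 : ℝ) ^ j = (2 ^ j) ^ 2 by rw [← pow_mul, mul_comm, pow_mul]; norm_num]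
    field_simp] at this
  refine this.trans (add_le_add_left (mul_le_mul_of_nonneg_right ?_ I0) _)
  have u0 : 0 ≤ 2 ^ j * (1 / y) := by positivity
  have u1 : 2 ^ j * (1 / y) ≤ 1 := by
    rw [mul_one_div, div_le_one y0]
    exact (le_mul_of_one_le_left (by positivity) (by nlinarith)).trans c0.le
  rw [mul_pow, ← pow_mul]
  exact mul_le_mul (by nlinarith) (pow_le_of_le_one u0 u1 (by norm_num)) (by positivity)
    (by positivity)

lemma chi_trunc {n : ℤ} (hτ : n ≤ τ) (h1 : -N ≤ n - 1) (h2 : n - 1 ≤ N) {j : ℕ} (hj : 1 ≤ j)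
    {w o : V} (e : G.Adj w o) {Z : Om V → ℝ} (hZ : BM Z) (Z0 : ∀ x, 0 ≤ Z x ∧ Z x ≤ 1) {p : ℕ}
    (hp : p ≤ 2) : ∫ ω, chiI G θ (Bl G θ N τ ω) w o ^ p * Z ω ∂PO V ≤
      (4 * j + 64 / gam d n) ^ p * ∫ ω, Z ω ∂PO V + 512 / gam d n ^ 2 * Real.exp (-4 ^ j) := by
  have F := fld_Bl H h0 h N τ
  have g := (gam_bd H n).1
  have := trunc_chi (PO V) (F.bmchi H (Or.inl e)) hZ (fun ω => F.chi0 H ω (Or.inl e)) Z0
    (l := gam d n / 16) (by positivity) (i := 2 * j) (by omega) (by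
      rw [one_div_div]
      exact mom_exp H h0 h N τ hτ h1 h2 e (2 * j) (by positivity) le_rfl) hp
  convert this using 3
  · push_cast; field_simp; ring
  · field_simp; norm_num
  · rw [pow_mul]; norm_num

lemma chi_four {n : ℤ} (hτ : n ≤ τ) (h1 : -N ≤ n - 1) (h2 : n - 1 ≤ N) {w o : V} (e : G.Adj w o) :
    ∫ ω, chiI G θ (Bl G θ N τ ω) w o ^ 4 ∂PO V ≤ 72 / (gam d n / 16) ^ 4 ∧
      xi G θ N w o τ ∈ Set.Icc 0 (3 / (gam d n / 16)) := by
  have F := fld_Bl H h0 h N τ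
  have g := (gam_bd H n).1
  have := four_mom (PO V) (F.bmchi H (Or.inl e)) (fun ω => F.chi0 H ω (Or.inl e))
    (l := gam d n / 16) (by positivity)
    ((mom_exp H h0 h N τ hτ h1 h2 e 0 (by positivity) (by simp)).trans (by
      rw [show gam d n / 16 * ((0 : ℕ) + 16 / gam d n) = 1 by simp; field_simp]
      linarith [Real.exp_one_lt_d9]))
  exact ⟨this.1, integral_nonneg fun ω => F.chi0 H ω (Or.inl e), this.2⟩

omit h0 h in
lemma modulus : ∃ C, 0 ≤ C ∧ ∀ {θ : ℝ}, 0 ≤ θ → ((d : ℝ) - 1) * θ ^ 2 < 1 → ∀ (N : ℕ) {n : ℤ} {s t : ℝ},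
    n ≤ s → s ≤ t → -N ≤ n - 1 → n - 1 ≤ N → ∀ {w o : V}, G.Adj w o → ∀ g, 0 < g →
    (xi G θ N w o t - xi G θ N w o s) ^ 2 ≤
      C / gam d n ^ 6 * (g + (vv G θ N o t - vv G θ N o s) / g) := by
  obtain ⟨c, hc⟩ : ∃ c, c = 80 * (546 + 108 * ((d : ℝ) - 1) ^ 2) ^ 2 * ((d : ℝ) - 1) ^ 2 := ⟨_, rfl⟩
  have c0 : 0 ≤ c := by rw [hc]; positivity
  refine ⟨c * (72 * 16 ^ 4), by positivity, fun {θ} h0 h N n s t hs hst h1 h2 w o e g g0 => ?_⟩
  have F := fld_Bl H h0 h N t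
  have F' := fld_Bl H h0 h N s
  obtain ⟨γ0, γ1⟩ := gam_bd H n
  have a1 := (F.fix_both H F' e).2 _ γ0 γ1 (mom_kappa H h0 h N t (hs.trans hst) h1 h2 e)
  rw [← hc] at a1
  have a2 := (chi_four H h0 h N s hs h1 h2 e).1
  have a3 := int_db H F F' e
  rw [vv_incr H h0 h N o hst] at a3
  have v0 := sub_nonneg.2 (vv_mono H h0 h N o hst)
  have b1 := (F'.bmchi H (Or.inl e)).pow 4
  have b2 := ((F.bm (Or.inl e)).sub (F'.bm (Or.inl e))).pow 2
  have a4 := (((F'.bmchi H (Or.inl e)).pow 2).mul (((F.bmr H e).sub (F'.bmr H e)).pow 2)).mono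
    ((b1.cmul g).add (b2.cmul (32 / g))) (PO V) fun ω => by
      have r1 := F.rbd H ω e
      have r2 := F'.rbd H ω e
      have c1 := F.bd ω w o (Or.inl e)
      have c2 := F'.bd ω w o (Or.inl e)
      have c3 := rr_diff h0 (F.hh H) h0 (F.hh H) c1 c2
      have c4 := mul_le_mul_of_nonneg_right (add_le_add (sq_le_one_of c1) (sq_le_one_of c2))
        (sq_nonneg (Bl G θ N t ω w o - Bl G θ N s ω w o))
      have c5 : (rr θ (Bl G θ N t ω w o) - rr θ (Bl G θ N s ω w o)) ^ 2 ≤ 1 :=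
        sq_le_one_of (abs_le.2 ⟨by linarith, by linarith⟩)
      have c6 := sq_nonneg (rr θ (Bl G θ N t ω w o) - rr θ (Bl G θ N s ω w o))
      generalize (rr θ (Bl G θ N t ω w o) - rr θ (Bl G θ N s ω w o)) ^ 2 = z at *
      generalize chiI G θ (Bl G θ N s ω) w o = x at *
      rw [div_mul_eq_mul_div, ← sub_le_iff_le_add', le_div_iff₀ g0]
      rw [sub_self] at c3
      linear_combination sq_nonneg (g * x ^ 2 - z) + c3 + 16 * c4 + mul_nonneg c6 (sub_nonneg.2 c5) +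
        mul_nonneg (mul_nonneg g0.le (sq_nonneg x)) c6
  rw [(b1.cmul g).int_add (b2.cmul _), integral_const_mul, integral_const_mul] at a4
  have a5 : 32 / g * ∫ ω, (Bl G θ N t ω w o - Bl G θ N s ω w o) ^ 2 ∂PO V ≤
      72 / (gam d n / 16) ^ 4 * ((vv G θ N o t - vv G θ N o s) / g) := by
    have : 72 * 16 ^ 4 ≤ 72 / (gam d n / 16) ^ 4 := by
      rw [div_pow, div_div_eq_mul_div, le_div_iff₀ (by positivity)]
      linarith [pow_le_one₀ (n := 4) γ0.le γ1]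
    refine le_trans ?_ (mul_le_mul_of_nonneg_right this (by positivity))
    rw [div_mul_eq_mul_div, ← mul_div_assoc]
    exact div_le_div_of_nonneg_right (by simp only [sub_self] at a3; linarith) g0.le
  have a6 := mul_le_mul_of_nonneg_left (a4.trans (add_le_add
    (mul_le_mul_of_nonneg_left a2 g0.le) a5)) c0
  refine le_of_mul_le_mul_left ((a1.trans a6).trans_eq ?_) (pow_pos γ0 2)
  field_simp

omit h0 h in
lemma round_bound : ∃ C, 0 ≤ C ∧ ∀ {θ θ' : ℝ}, 0 ≤ θ → ((d : ℝ) - 1) * θ ^ 2 < 1 → 0 ≤ θ' →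
    ((d : ℝ) - 1) * θ' ^ 2 < 1 → ∀ (N N' : ℕ) {n : ℤ} {τ : ℝ}, n ≤ τ → τ ≤ n + 1 → -N ≤ n - 1 →
    n - 1 ≤ N → -N' ≤ n - 1 → n - 1 ≤ N' → ∀ {w o : V}, G.Adj w o → ∀ j : ℕ, 1 ≤ j →
    2 * en n ^ 2 * ∫ ω, KI G θ θ' (Bl G θ N τ ω) (Bl G θ' N' τ ω) o ∂PO V ≤
      C * (j ^ 2 * (2 ^ j * (1 / 2) ^ (-n).toNat * Aa G θ θ' N N' o τ + Real.exp (-4 ^ j) +
        2 ^ j * (θ - θ') ^ 2) + (xi G θ N w o τ - xi G θ' N' w o τ) ^ 2) := by
  have hd : (3 : ℝ) ≤ d := by exact_mod_cast H.hd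
  obtain ⟨C, C0, hC⟩ := Fld.cmp H
  obtain ⟨c, hc⟩ : ∃ c : ℝ, c = 41000 * ((d : ℝ) - 1) := ⟨_, rfl⟩
  have c1 : 1 ≤ c := by linarith
  have K1 : 1 ≤ 10 * (43 * (d : ℝ)) ^ 2 := by nlinarith
  refine ⟨2 * C * (c ^ 2 * (5000000 * (10 * (43 * d) ^ 2))), by positivity,
    fun {θ θ'} h0 h h0' h' N N' n τ t1 t2 n1 n2 n1' n2' w o e j hj => ?_⟩
  have F := fld_Bl H h0 h N τ
  have F' := fld_Bl H h0' h' N' τ
  obtain ⟨γ0, γ1⟩ := gam_bd H n
  have J1 : (1 : ℝ) ≤ j := by exact_mod_cast hj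
  have e0 := en_pos n
  have e1 := en_le n
  have bZ := ((F.bmr H e).sub (F'.bmr H e)).pow 2
  have Z0 : ∀ ω, 0 ≤ (rr θ (Bl G θ N τ ω w o) - rr θ' (Bl G θ' N' τ ω w o)) ^ 2 ∧
      (rr θ (Bl G θ N τ ω w o) - rr θ' (Bl G θ' N' τ ω w o)) ^ 2 ≤ 1 := fun ω =>
    ⟨sq_nonneg _, sq_le_one_of (abs_le.2 ⟨by linarith [F.rbd H ω e, F'.rbd H ω e],
      by linarith [F.rbd H ω e, F'.rbd H ω e]⟩)⟩
  have w1 := chi_trunc H h0 h N τ t1 n1 n2 hj e bZ Z0 le_rfl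
  have w2 := chi_trunc H h0' h' N' τ t1 n1' n2' hj e bZ Z0 le_rfl
  have w3 := chi_trunc H h0 h N τ t1 n1 n2 hj e.symm bZ Z0 le_rfl
  have w4 := chi_trunc H h0' h' N' τ t1 n1' n2' hj e.symm bZ Z0 le_rfl
  have x1 := ((F.bmchi H (Or.inl e)).pow 2).mul bZ
  have x2 := ((F'.bmchi H (Or.inl e)).pow 2).mul bZ
  have x3 := ((F.bmchi H (Or.inl e.symm)).pow 2).mul bZ
  have x4 := ((F'.bmchi H (Or.inl e.symm)).pow 2).mul bZ
  have bM := (F.bmM H F' o).div_const 4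
  have M0 : ∀ ω, 0 ≤ (Bl G θ N τ ω o o - Bl G θ' N' τ ω o o) ^ 2 / 4 ∧
      (Bl G θ N τ ω o o - Bl G θ' N' τ ω o o) ^ 2 / 4 ≤ 1 := fun ω => ⟨by positivity, by
    linarith [le_of_abs_le (sq_diff_le (F.bd ω o o (ed_root o)) (F'.bd ω o o (ed_root o)))]⟩
  have q1 := chi_trunc H h0' h' N' τ t1 n1' n2' hj e bM M0 one_le_two
  have q2 := chi_trunc H h0' h' N' τ t1 n1' n2' hj e.symm bM M0 one_le_two
  simp only [pow_one, ← mul_div_assoc, integral_div] at q1 q2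
  have bD := ((F.bm (Or.inl e)).sub (F'.bm (Or.inl e))).pow 2
  have D0 : ∀ ω, 0 ≤ (Bl G θ N τ ω w o - Bl G θ' N' τ ω w o) ^ 2 ∧
      (Bl G θ N τ ω w o - Bl G θ' N' τ ω w o) ^ 2 ≤ 4 := fun ω =>
    ⟨sq_nonneg _, le_of_abs_le (sq_diff_le (F.bd ω w o (Or.inl e)) (F'.bd ω w o (Or.inl e)))⟩
  have p1 := b_trunc H h0 h N τ t2 j e bD D0
  have p2 := b_trunc H h0' h' N' τ t2 j e bD D0
  have p3 := mul_le_mul_of_nonneg_left (int_db H F F' e)
    (by positivity : 0 ≤ 10 * (43 * (d : ℝ)) ^ 2 * (2 ^ j * (1 / 2) ^ (-n).toNat))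
  have y1 := ((F.bm (Or.inl e)).pow 2).mul bD
  have y2 := ((F'.bm (Or.inl e)).pow 2).mul bD
  have p4 := bZ.mono (((y1.add y2).cmul 16).add (BM.const (72 * (θ - θ') ^ 2))) (PO V) fun ω => by
    linarith [rr_diff h0 (F.hh H) h0' (F'.hh H) (F.bd ω w o (Or.inl e)) (F'.bd ω w o (Or.inl e))]
  rw [((y1.add y2).cmul 16).int_add (BM.const _), integral_const_mul, y1.int_add y2,
    integral_const, probReal_univ, one_smul] at p4
  have eγ : en n * (64 / gam d n) ≤ 40960 * ((d : ℝ) - 1) := by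
    have := en_pos (n - 1)
    rw [gam, div_div_eq_mul_div, ← mul_div_assoc, div_le_iff₀ this]
    nlinarith [mul_le_mul_of_nonneg_right (en_pred n) (by linarith : 0 ≤ (d : ℝ) - 1)]
  have T1 : (1 : ℝ) ≤ 2 ^ j := one_le_pow₀ one_le_two
  have key := rate_arith (W := ∫ ω, Fld.WW G θ θ' (Bl G θ N τ ω) (Bl G θ' N' τ ω) w o ∂PO V)
    (Q := ∫ ω, (1 + chiI G θ' (Bl G θ' N' τ ω) w o + chiI G θ' (Bl G θ' N' τ ω) o w) *
      (Bl G θ N τ ω o o - Bl G θ' N' τ ω o o) ^ 2 ∂PO V) (A := Aa G θ θ' N N' o τ)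
    (P := ∫ ω, (rr θ (Bl G θ N τ ω w o) - rr θ' (Bl G θ' N' τ ω w o)) ^ 2 ∂PO V)
    (M := 4 * j + 64 / gam d n) (t := 512 / gam d n ^ 2 * Real.exp (-4 ^ j))
    (E := Real.exp (-4 ^ j)) (D := (θ - θ') ^ 2) (u := 2 ^ j * (1 / 2) ^ (-n).toNat) (J := j)
    (by
      simp only [Fld.WW, add_mul]
      rw [((x1.add x2).add x3).int_add x4, (x1.add x2).int_add x3, x1.int_add x2]
      linarith)
    (by
      have z1 := (F'.bmchi H (Or.inl e)).mul (F.bmM H F' o)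
      have z2 := (F'.bmchi H (Or.inl e.symm)).mul (F.bmM H F' o)
      simp only [add_mul, one_mul]
      rw [((F.bmM H F' o).add z1).int_add z2, (F.bmM H F' o).int_add z1]
      unfold Aa
      linarith)
    (by unfold Aa; linarith) (integral_nonneg fun _ => sq_nonneg _) (sq_nonneg _) (Real.exp_pos _).le
    e0.le (by linarith) ((en_le_half n).trans (le_mul_of_one_le_left (by positivity) T1))
    (mul_le_of_le_one_right (by positivity) (pow_le_one₀ (by norm_num) (by norm_num))) T1 J1 K1 c1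
    (by positivity) (by nlinarith) (by
      have := pow_le_pow_left₀ (by positivity) (eγ.trans (by linarith : _ ≤ c)) 2
      rw [← mul_assoc]
      refine mul_le_mul_of_nonneg_right ?_ (Real.exp_pos _).le
      rw [show en n ^ 2 * (512 / gam d n ^ 2) = (en n * (64 / gam d n)) ^ 2 / 8 by field_simp; ring]
      linarith [sq_nonneg c])
  have k1 := mul_le_mul_of_nonneg_left (hC F F' e) (by positivity : 0 ≤ 2 * en n ^ 2)
  have k2 : en n ^ 2 ≤ c ^ 2 * (5000000 * (10 * (43 * d) ^ 2)) :=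
    le_trans (by nlinarith) (one_le_mul_of_one_le_of_one_le (one_le_pow₀ c1) (by linarith))
  have k3 := mul_le_mul_of_nonneg_right k2 (sq_nonneg (xi G θ N w o τ - xi G θ' N' w o τ))
  unfold xi at k3 ⊢
  linear_combination k1 + 2 * C * key + 2 * C * k3

end

end Crest.Agent.H0241
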