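import Mathlib

set_option autoImplicit false
set_option linter.unusedSectionVars false
open Finset

namespace Crest.Agent.H0241

noncomputable section
open Classical

variable {V : Type*} (G : SimpleGraph V) [G.LocallyFinite]

/-- children of `w` when the parent is `v` (all neighbours when `v = w`) -/
def ch (w v : V) : Finset V := (G.neighborFinset w).erase v

/-- `u` lies on the side of `w` of the edge `w v` (everything when `v = w`) -/
def Sd (w v u : V) : Prop := G.dist u w ≤ G.dist u v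

/-- directed edge, or a root -/
def Ed (w v : V) : Prop := G.Adj w v ∨ w = v

variable {G}

lemma mem_ch {w v z : V} : z ∈ ch G w v ↔ z ≠ v ∧ G.Adj w z := by simp [ch]

lemma ch_adj {w v z : V} (h : z ∈ ch G w v) : G.Adj z w := (mem_ch.1 h).2.symm

lemma ch_ed {w v z : V} (h : z ∈ ch G w v) : Ed G z w := Or.inl (ch_adj h)

lemma ed_root (w : V) : Ed G w w := Or.inr rfl

lemma ch_root (w : V) : ch G w w = G.neighborFinset w := by simp [ch]

lemma ch_root_eq {w v : V} (h : G.Adj w v) : ch G w w = insert v (ch G w v) := by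
  rw [ch_root, ch, insert_erase (by simpa using h)]

lemma not_mem_ch (w v : V) : v ∉ ch G w v := by simp [ch]

lemma sd_self (w v : V) : Sd G w v w := by simp [Sd]

lemma sd_root (w u : V) : Sd G w w u := le_rfl

lemma card_ch {d : ℕ} (hreg : G.IsRegularOfDegree d) {w v : V} (h : G.Adj w v) :
    (ch G w v).card = d - 1 := by
  rw [ch, card_erase_of_mem (by simpa using h), SimpleGraph.card_neighborFinset_eq_degree,
    hreg.degree_eq]

lemma card_ch_root {d : ℕ} (hreg : G.IsRegularOfDegree d) (w : V) : (ch G w w).card = d := by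
  rw [ch_root, SimpleGraph.card_neighborFinset_eq_degree, hreg.degree_eq]

section
variable (hT : G.IsTree)
include hT

lemma sd_adj {w v u : V} (h : G.Adj w v) : Sd G w v u ↔ G.dist u v = G.dist u w + 1 := by
  have := hT.dist_eq_dist_add_one_of_adj u h
  unfold Sd
  omega

lemma sd_total {w v : V} (h : G.Adj w v) (u : V) : Sd G w v u ↔ ¬ Sd G v w u := by
  have := hT.dist_eq_dist_add_one_of_adj u h
  unfold Sd
  omega

lemma not_sd {z w : V} (h : G.Adj z w) : ¬ Sd G z w w :=
  fun h' => (sd_total hT h w).1 h' (sd_self _ _)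

lemma sd_unique {z z' w u : V} (h : G.Adj z w) (h' : G.Adj z' w) (a : Sd G z w u)
    (a' : Sd G z' w u) : z = z' := by
  rw [sd_adj hT h] at a
  rw [sd_adj hT h'] at a'
  obtain ⟨p, -, hp⟩ := hT.connected.exists_path_of_dist u z
  obtain ⟨p', -, hp'⟩ := hT.connected.exists_path_of_dist u z'
  have q := (p.concat h).isPath_of_length_eq_dist (by rw [p.length_concat]; omega)
  have q' := (p'.concat h').isPath_of_length_eq_dist (by rw [p'.length_concat]; omega)
  have := Subtype.mk.inj (hT.isAcyclic.path_unique ⟨_, q⟩ ⟨_, q'⟩)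
  exact (SimpleGraph.Walk.concat_inj this).1

lemma exists_step {w u : V} (h : u ≠ w) : ∃ z, G.Adj z w ∧ Sd G z w u := by
  obtain ⟨p, hp⟩ := hT.connected.exists_walk_length_eq_dist w u
  cases p with
  | nil => exact absurd rfl h
  | @cons _ z _ a q =>
    refine ⟨z, a.symm, ?_⟩
    have := G.dist_le q
    rw [SimpleGraph.Walk.length_cons] at hp
    unfold Sd
    rw [G.dist_comm (u := u), G.dist_comm (u := u)]
    omega

lemma sd_ch {w v z u : V} (he : Ed G w v) (hz : z ∈ ch G w v) (h : Sd G z w u) : Sd G w v u := by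
  rcases he with he | rfl
  · rw [sd_total hT he]
    exact fun h' => (mem_ch.1 hz).1 (sd_unique hT (ch_adj hz) he.symm h h')
  · exact sd_root _ _

lemma exists_ch {w v u : V} (he : Ed G w v) (h : Sd G w v u) (hu : u ≠ w) :
    ∃ z ∈ ch G w v, Sd G z w u := by
  obtain ⟨z, a, b⟩ := exists_step hT hu
  refine ⟨z, mem_ch.2 ⟨?_, a.symm⟩, b⟩
  rintro rfl
  rcases he with he | rfl
  · exact (sd_total hT he u).1 h b
  · exact a.ne rfl

end

variable (G)

/-- the vertices on the side of `w` at distance less than `n` from `w` -/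
def bl : ℕ → V → V → Finset V
  | 0, _, _ => ∅
  | n + 1, w, v => insert w ((ch G w v).biUnion fun z => bl n z w)

/-- the neighbour of `w` towards `u` -/
def stp (w u : V) : V := if h : ∃ z, G.Adj z w ∧ Sd G z w u then h.choose else w

def pp (ρ : V → V → ℝ) : ℕ → V → V → ℝ
  | 0, _, _ => 1
  | n + 1, w, u => ρ (stp G w u) w * pp ρ n (stp G w u) u

/-- product of the edge weights along the path from `u` to `w` -/
def PP (ρ : V → V → ℝ) (w u : V) : ℝ := pp G ρ (G.dist u w) w u

/-- downstream sums -/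
def DS (ρ : V → V → ℝ) (f : V → ℝ) : ℕ → V → V → ℝ
  | 0, _, _ => 0
  | n + 1, w, v => f w + ∑ z ∈ ch G w v, ρ z w * DS ρ f n z w

variable {G}

@[simp] lemma PP_self (ρ : V → V → ℝ) (w : V) : PP G ρ w w = 1 := by simp [PP, pp]

section
variable (hT : G.IsTree)
include hT

lemma PP_step (ρ : V → V → ℝ) {z w u : V} (h : G.Adj z w) (a : Sd G z w u) :
    PP G ρ w u = ρ z w * PP G ρ z u := by
  have e : stp G w u = z := by
    have hex : ∃ z, G.Adj z w ∧ Sd G z w u := ⟨z, h, a⟩
    unfold stp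
    rw [dif_pos hex]
    exact sd_unique hT hex.choose_spec.1 h hex.choose_spec.2 a
  unfold PP
  rw [(sd_adj hT h).1 a, pp, e]

/-- induction along paths towards `u` -/
lemma path_ind (u : V) (P : V → Prop) (h0 : P u)
    (h1 : ∀ z w, G.Adj z w → Sd G z w u → P z → P w) (w : V) : P w := by
  generalize hn : G.dist u w = n
  induction n generalizing w with
  | zero => rw [hT.connected.dist_eq_zero_iff] at hn; exact hn ▸ h0
  | succ n ih =>
    have : u ≠ w := by rintro rfl; simp at hn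
    obtain ⟨z, a, b⟩ := exists_step hT this
    have := (sd_adj hT a).1 b
    exact h1 z w a b (ih z (by omega))

lemma PP_mul (ρ ρ' : V → V → ℝ) (w u : V) :
    PP G (fun a b => ρ a b * ρ' a b) w u = PP G ρ w u * PP G ρ' w u := by
  refine path_ind hT u (fun w => PP G (fun a b => ρ a b * ρ' a b) w u = PP G ρ w u * PP G ρ' w u)
    (by simp) (fun z w a b ih => ?_) w
  simp only [PP_step hT _ a b, ih]
  ring

lemma PP_bound (ρ : V → V → ℝ) {q : ℝ} (h : ∀ a b, 0 ≤ ρ a b ∧ ρ a b ≤ q) (w u : V) :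
    0 ≤ PP G ρ w u ∧ PP G ρ w u ≤ q ^ G.dist u w := by
  refine path_ind hT u (fun w => 0 ≤ PP G ρ w u ∧ PP G ρ w u ≤ q ^ G.dist u w)
    (by simp) (fun z w a b ih => ?_) w
  rw [PP_step hT _ a b, (sd_adj hT a).1 b, pow_succ']
  exact ⟨mul_nonneg (h _ _).1 ih.1, mul_le_mul (h _ _).2 ih.2 ih.1 ((h z w).1.trans (h z w).2)⟩

lemma mem_bl {n : ℕ} : ∀ {w v u : V}, Ed G w v → (u ∈ bl G n w v ↔ Sd G w v u ∧ G.dist u w < n) := by
  induction n with
  | zero => simp [bl]
  | succ n ih =>
    intro w v u he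
    simp only [bl, mem_insert, mem_biUnion]
    constructor
    · rintro (rfl | ⟨z, hz, h⟩)
      · exact ⟨sd_self _ _, by simp⟩
      · rw [ih (ch_ed hz)] at h
        have := (sd_adj hT (ch_adj hz)).1 h.1
        exact ⟨sd_ch hT he hz h.1, by omega⟩
    · rintro ⟨h1, h2⟩
      by_cases hu : u = w
      · exact Or.inl hu
      obtain ⟨z, hz, h⟩ := exists_ch hT he h1 hu
      have := (sd_adj hT (ch_adj hz)).1 h
      exact Or.inr ⟨z, hz, (ih (ch_ed hz)).2 ⟨h, by omega⟩⟩

lemma mem_ball {n : ℕ} {c u : V} : u ∈ bl G n c c ↔ G.dist u c < n := by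
  rw [mem_bl hT (ed_root c)]
  exact and_iff_right (sd_root _ _)

lemma sum_bl (F : V → ℝ) (n : ℕ) (w v : V) :
    ∑ u ∈ bl G (n + 1) w v, F u = F w + ∑ z ∈ ch G w v, ∑ u ∈ bl G n z w, F u := by
  rw [bl, sum_insert, sum_biUnion]
  · intro z hz z' hz' hne
    refine disjoint_left.2 fun u h h' => hne ?_
    exact sd_unique hT (ch_adj hz) (ch_adj hz') ((mem_bl hT (ch_ed hz)).1 h).1
      ((mem_bl hT (ch_ed hz')).1 h').1
  · intro h
    obtain ⟨z, hz, h⟩ := mem_biUnion.1 h
    exact not_sd hT (ch_adj hz) ((mem_bl hT (ch_ed hz)).1 h).1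

lemma DS_eq (ρ : V → V → ℝ) (f : V → ℝ) (n : ℕ) :
    ∀ w v, DS G ρ f n w v = ∑ u ∈ bl G n w v, PP G ρ w u * f u := by
  induction n with
  | zero => simp [DS, bl]
  | succ n ih =>
    intro w v
    rw [DS, sum_bl hT, PP_self, one_mul]
    congr 1
    refine sum_congr rfl fun z hz => ?_
    rw [ih, mul_sum]
    refine sum_congr rfl fun u hu => ?_
    rw [PP_step hT ρ (ch_adj hz) ((mem_bl hT (ch_ed hz)).1 hu).1, mul_assoc]

/-- geometric sums over the tree -/
lemma sum_geo {d : ℕ} (hreg : G.IsRegularOfDegree d) (hd : 3 ≤ d) {q : ℝ} (hq : 0 ≤ q)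
    (hq1 : ((d : ℝ) - 1) * q < 1) (A : Finset V) (w : V) :
    ∑ u ∈ A, q ^ G.dist u w ≤ 2 / (1 - ((d : ℝ) - 1) * q) := by
  have hd' : (3 : ℝ) ≤ d := by exact_mod_cast hd
  set K := 1 / (1 - ((d : ℝ) - 1) * q) with hK
  have hpos : 0 < 1 - ((d : ℝ) - 1) * q := by linarith
  have hK0 : 0 < K := by positivity
  have hK1 : 1 + ((d : ℝ) - 1) * q * K = K := by rw [hK]; field_simp; ring
  have step : ∀ n w v, ∑ u ∈ bl G (n + 1) w v, q ^ G.dist u w =
      1 + ∑ z ∈ ch G w v, q * ∑ u ∈ bl G n z w, q ^ G.dist u z := by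
    intro n w v
    rw [sum_bl hT]
    simp only [SimpleGraph.dist_self, pow_zero, add_right_inj, mul_sum]
    refine sum_congr rfl fun z hz => sum_congr rfl fun u hu => ?_
    rw [(sd_adj hT (ch_adj hz)).1 ((mem_bl hT (ch_ed hz)).1 hu).1, pow_succ']
  have h1 : ∀ n w v, G.Adj w v → ∑ u ∈ bl G n w v, q ^ G.dist u w ≤ K := by
    intro n
    induction n with
    | zero => intro w v _; simp [bl, hK0.le]
    | succ n ih =>
      intro w v h
      rw [step]
      have := sum_le_sum (s := ch G w v) (g := fun _ => q * K) fun z hz =>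
        mul_le_mul_of_nonneg_left (ih z w (ch_adj hz)) hq
      rw [sum_const, card_ch hreg h, nsmul_eq_mul, Nat.cast_sub (by omega)] at this
      push_cast at this
      linarith
  obtain ⟨n, hn⟩ : ∃ n, ∀ u ∈ A, G.dist u w < n + 1 :=
    ⟨A.sup fun u => G.dist u w, fun u hu => Nat.lt_succ_of_le (le_sup (f := fun u => G.dist u w) hu)⟩
  refine le_trans (sum_le_sum_of_subset_of_nonneg (t := bl G (n + 1) w w)
    (fun u hu => (mem_ball hT).2 (hn u hu)) fun _ _ _ => by positivity) ?_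
  rw [step]
  have := sum_le_sum (s := ch G w w) (g := fun _ => q * K) fun z hz =>
    mul_le_mul_of_nonneg_left (h1 n z w (ch_adj hz)) hq
  rw [sum_const, card_ch_root hreg, nsmul_eq_mul] at this
  have e : 2 / (1 - ((d : ℝ) - 1) * q) = 2 * K := by rw [hK]; ring
  have hq2 : q ≤ 1 := by nlinarith
  rw [e]
  nlinarith [mul_le_mul_of_nonneg_right hq2 hK0.le]

end

section aut
variable (g : G ≃g G)

lemma ch_aut (w v : V) : ch G (g w) (g v) = (ch G w v).map g.toEquiv.toEmbedding := by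
  ext z
  obtain ⟨z, rfl⟩ := g.surjective z
  rw [mem_ch]
  have : g z ∈ (ch G w v).map g.toEquiv.toEmbedding ↔ z ∈ ch G w v := mem_map' _
  rw [this, mem_ch, g.map_adj_iff, g.injective.ne_iff]

lemma sum_ch_aut (w v : V) (F : V → ℝ) : ∑ z ∈ ch G (g w) (g v), F z = ∑ z ∈ ch G w v, F (g z) := by
  rw [ch_aut, sum_map]; rfl

lemma prod_ch_aut (w v : V) (F : V → ℝ) :
    ∏ z ∈ ch G (g w) (g v), F z = ∏ z ∈ ch G w v, F (g z) := by
  rw [ch_aut, prod_map]; rfl

lemma bl_aut (n : ℕ) : ∀ w v, bl G n (g w) (g v) = (bl G n w v).map g.toEquiv.toEmbedding := by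
  induction n with
  | zero => simp [bl]
  | succ n ih =>
    intro w v
    ext u
    obtain ⟨u, rfl⟩ := g.surjective u
    have e : ∀ s : Finset V, g u ∈ s.map g.toEquiv.toEmbedding ↔ u ∈ s := fun s => mem_map' _
    rw [e]
    simp only [bl, mem_insert, mem_biUnion, ch_aut, g.injective.eq_iff, mem_map]
    refine or_congr_right ⟨?_, ?_⟩
    · rintro ⟨_, ⟨z, hz, rfl⟩, h⟩
      exact ⟨z, hz, (e _).1 (ih z w ▸ h)⟩
    · rintro ⟨z, hz, h⟩
      refine ⟨g z, ⟨z, hz, rfl⟩, ?_⟩
      rw [ih]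
      exact (e _).2 h

lemma DS_aut (ρ : V → V → ℝ) (f : V → ℝ) (n : ℕ) : ∀ w v, DS G ρ f n (g w) (g v) =
    DS G (fun a b => ρ (g a) (g b)) (fun a => f (g a)) n w v := by
  induction n with
  | zero => simp [DS]
  | succ n ih => intro w v; simp only [DS, sum_ch_aut, ih]

end aut

end

end Crest.Agent.H0241
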